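import Vale.Agent.P352X.EB.Spec
import Vale.Agent.P352.H246.Compl

/-!
# P352X, block EB, row ANA: Schwartz space is a Baire space, cutoffs
-/

set_option linter.all false

open Filter Topology Metric
open scoped SchwartzMap ContDiff Uniformity

namespace Vale.Agent.P352X.EB

open Vale.Agent.P352 Vale.Agent.P352.GF Vale.Agent.P352.H246

noncomputable section

namespace Ana

theorem complete_sch : CompleteSpace Sch := by
  have := complete_schwartz
  let e := EuclideanSpace.equiv (Fin 4) ℝ
  let A := SchwartzMap.compCLMOfContinuousLinearEquiv ℂ (F := ℂ) e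
  let B := SchwartzMap.compCLMOfContinuousLinearEquiv ℂ (F := ℂ) e.symm
  have hBA : ∀ f : Sch, B (A f) = f := fun f => SchwartzMap.ext fun x => by simp [A, B]
  refine ⟨fun {F} hF => ?_⟩
  obtain ⟨y, hy⟩ := CompleteSpace.complete (hF.map A.uniformContinuous)
  refine ⟨B y, ?_⟩
  have h := (B.continuous.tendsto y).comp (show Tendsto A F (𝓝 y) from hy)
  rw [show (B ∘ A : Sch → Sch) = id from funext hBA] at h
  exact h

theorem countable_sch : (𝓤 Sch).IsCountablyGenerated :=
  IsUniformAddGroup.uniformity_countably_generated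

/-- the contraction -/
def L (R : ℕ) : V →L[ℝ] V := ((R : ℝ) + 1)⁻¹ • ContinuousLinearMap.id ℝ V

theorem L_le (R : ℕ) : ‖L R‖ ≤ 1 := by
  refine ContinuousLinearMap.opNorm_le_bound _ zero_le_one fun z => ?_
  simp only [L, ContinuousLinearMap.smul_apply, ContinuousLinearMap.id_apply, norm_smul, norm_inv]
  refine mul_le_mul_of_nonneg_right (inv_le_one_of_one_le₀ ?_) (norm_nonneg _)
  rw [Real.norm_of_nonneg (by positivity)]
  linarith [(Nat.cast_nonneg R : (0 : ℝ) ≤ R)]

theorem norm_L (R : ℕ) (z : V) : ‖L R z‖ = ‖z‖ / ((R : ℝ) + 1) := by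
  simp only [L, ContinuousLinearMap.smul_apply, ContinuousLinearMap.id_apply, norm_smul, norm_inv]
  rw [Real.norm_of_nonneg (by positivity), div_eq_inv_mul]

theorem hcs (R : ℕ) : HasCompactSupport fun z => (chi0 (L R z) : ℂ) :=
  (chi0.hasCompactSupport.comp_smul (c := ((R : ℝ) + 1)⁻¹) (by positivity)).comp_left
    (g := fun x : ℝ => (x : ℂ)) (by simp)

theorem ht (R : ℕ) : (fun z => (chi0 (L R z) : ℂ)).HasTemperateGrowth :=
  (hcs R).hasTemperateGrowth
    (Complex.ofRealCLM.contDiff.comp (chi0.contDiff.comp (L R).contDiff))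

/-- the cutoff on Schwartz space -/
def P (R : ℕ) : Sch →L[ℂ] Sch := SchwartzMap.smulLeftCLM ℂ fun z => (chi0 (L R z) : ℂ)

theorem P_apply (R : ℕ) (f : Sch) (z : V) : P R f z = (chi0 (L R z) : ℂ) * f z :=
  SchwartzMap.smulLeftCLM_apply_apply (ht R) f z

theorem ev_P (R : ℕ) (f : Sch) : ev (P R f) = cutf R (ev f) := funext (P_apply R f)

theorem lim (f : Sch) : Tendsto (fun R => P R f) atTop (𝓝 f) := by
  refine ST.tendsto_of_sn (fun N => ?_) fun z => ?_
  · obtain ⟨k, C, hC, hbd⟩ :=
      ST.bd_of_temperate (chi0.hasCompactSupport.hasTemperateGrowth chi0.contDiff) N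
    refine ⟨2 ^ N * 2 ^ (N + k) * C * ST.sn V ℂ (N + k) f, Eventually.of_forall fun n => ?_⟩
    refine ST.sn_mul (((hbd.comp (L n) le_rfl (L_le n)).ofReal).mono fun z => ?_) f _
      (P_apply n f)
    rw [one_pow, one_mul]
    gcongr
    exact ((L n).le_opNorm z).trans (mul_le_of_le_one_left (norm_nonneg _) (L_le n))
  · simp only [P_apply]
    have h1 : Tendsto (fun n => L n z) atTop (𝓝 0) := by
      have := (tendsto_one_div_add_atTop_nhds_zero_nat (𝕜 := ℝ)).smul_const z
      simpa [L] using this
    have h2 : Tendsto (fun n => chi0 (L n z)) atTop (𝓝 1) := by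
      have := (chi0.continuous.tendsto 0).comp h1
      rwa [chi0.one_of_mem_closedBall (mem_closedBall_self zero_le_one)] at this
    have h3 := ((Complex.continuous_ofReal.tendsto 1).comp h2).mul_const (f z)
    simpa using h3

theorem supp (R : ℕ) (f : Fn) :
    tsupport (cutf R f) ⊆ tsupport f ∩ closedBall 0 (2 * ((R : ℝ) + 1)) := by
  refine closure_minimal (fun x hx => ?_) ((isClosed_tsupport f).inter isClosed_closedBall)
  obtain ⟨h1, h2⟩ := mul_ne_zero_iff.1 (show (chi0 (L R x) : ℂ) * f x ≠ 0 from hx)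
  refine ⟨subset_tsupport f h2, ?_⟩
  have h3 : L R x ∈ Function.support chi0 := fun h => h1 (by rw [h]; simp)
  rw [chi0.support_eq, mem_ball_zero_iff, norm_L, div_lt_iff₀ (by positivity)] at h3
  exact mem_closedBall_zero_iff.2 h3.le

theorem sim_one (s : ℝ) (x : V) : sim s GF.one 0 x = s • x := by
  funext n
  simp [sim, GF.one, bas]

end Ana

open Ana in
theorem ana_row : ANA where
  baire := by
    have := countable_sch
    have := complete_sch
    infer_instance
  barr := by
    have := countable_sch
    have := complete_sch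
    infer_instance
  clm R := ⟨P R, ev_P R⟩
  inn R f := by
    rintro ⟨g, rfl⟩
    exact ⟨⟨P R g, ev_P R g⟩, (isCompact_closedBall _ _).of_isClosed_subset (isClosed_tsupport _)
      ((supp R _).trans Set.inter_subset_right), supp R _⟩
  eq R f h := by
    funext x
    by_cases hx : f x = 0
    · simp [cutf, hx]
    have h1 := mem_closedBall_zero_iff.1 (h (subset_tsupport f hx))
    have h2 : chi0 (L R x) = 1 := by
      refine chi0.one_of_mem_closedBall (mem_closedBall_zero_iff.2 ?_)
      rw [norm_L, div_le_iff₀ (by positivity)]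
      simpa [chi0] using h1
    show (chi0 (L R x) : ℂ) * f x = f x
    rw [h2]
    simp
  lim f := (Ana.lim f).congr fun R => (Api4.sch_eq (P R f) (P_apply R f)).symm
  dil m := by
    refine ⟨2 ^ m, by positivity, fun s f g hs e => ?_⟩
    have h := ST.sn_comp (s • ContinuousLinearMap.id ℝ V) (M := s) (K := 1) hs
      (ContinuousLinearMap.opNorm_le_bound _ (by linarith) fun z => by
        simp [norm_smul, abs_of_nonneg (by linarith : 0 ≤ s)]) le_rfl
      (fun z => by
        simp only [ContinuousLinearMap.smul_apply, ContinuousLinearMap.id_apply, norm_smul,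
          Real.norm_eq_abs, abs_of_nonneg (by linarith : 0 ≤ s), one_mul]
        exact le_mul_of_one_le_left (norm_nonneg _) hs) f g
      (fun z => by rw [e, Ana.sim_one]; rfl) m
    rw [Api4.sn_eq, Api4.sn_eq]
    simpa using h

end

end Vale.Agent.P352X.EB
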