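import Vale.Agent.P352X.EB.Spec
import Vale.Agent.P352X.Api2b

/-!
# P352X, block EB, row DY: dyadic cutoffs and partitions of unity
-/

set_option linter.all false

open Filter Topology Set
open scoped SchwartzMap ContDiff

namespace Vale.Agent.P352X.EB

open Vale.Agent.P352 Vale.Agent.P352.GF Vale.Agent.P352.H246

noncomputable section

namespace Dy

/-- the contraction by `2 ^ j` -/
def ctr (j : ℕ) : V →L[ℝ] V := ((2 : ℝ) ^ j)⁻¹ • ContinuousLinearMap.id ℝ V

theorem norm_ctr (j : ℕ) (z : V) : ‖ctr j z‖ = ‖z‖ / 2 ^ j := by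
  simp [ctr, norm_smul, div_eq_inv_mul]

theorem norm_ctr_le (j : ℕ) (z : V) : ‖ctr j z‖ ≤ ‖z‖ := by
  rw [norm_ctr]
  exact div_le_self (norm_nonneg _) (one_le_pow₀ one_le_two)

/-- the cutoff at the scale `2 ^ j` -/
def ch (j : ℕ) (z : V) : ℂ := (chi0 (ctr j z) : ℝ)

theorem ch_one {j : ℕ} {z : V} (h : ‖z‖ ≤ 2 ^ j) : ch j z = 1 := by
  rw [ch, chi0.one_of_mem_closedBall, Complex.ofReal_one]
  rw [mem_closedBall_zero_iff, norm_ctr]
  exact (div_le_one (by positivity)).2 h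

theorem ch_zero {j : ℕ} {z : V} (h : 2 ^ (j + 1) ≤ ‖z‖) : ch j z = 0 := by
  rw [ch, chi0.zero_of_le_dist, Complex.ofReal_zero]
  rw [dist_zero_right, norm_ctr]
  exact (le_div_iff₀ (by positivity)).2 (by rwa [pow_succ'] at h)

theorem ex_bd (m : ℕ) : ∃ (k : ℕ) (C : ℝ), 0 ≤ C ∧
    ∀ j, ST.Bd (fun z => C * (1 + ‖z‖) ^ k) m (ch j) := by
  obtain ⟨k, C, hC, hbd⟩ :=
    ST.bd_of_temperate (chi0.hasCompactSupport.hasTemperateGrowth chi0.contDiff) m
  refine ⟨k, C, hC, fun j => (hbd.comp (ctr j) le_rfl (ContinuousLinearMap.opNorm_le_bound _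
    zero_le_one fun z => by rw [one_mul]; exact norm_ctr_le j z)).ofReal.mono fun z => ?_⟩
  rw [one_pow, one_mul]
  gcongr
  exact norm_ctr_le j z

theorem ch_temp (j : ℕ) : (ch j).HasTemperateGrowth :=
  ST.temperate_of_bd fun n => by
    obtain ⟨k, C, -, h⟩ := ex_bd n
    exact ⟨k, C, h j⟩

/-- the cut off function -/
def cu (j : ℕ) (f : Sch) : Sch := SchwartzMap.smulLeftCLM ℂ (ch j) f

theorem cu_apply (j : ℕ) (f : Sch) (z : V) : cu j f z = ch j z * f z :=
  SchwartzMap.smulLeftCLM_apply_apply (ch_temp j) f z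

theorem cu_supp (j : ℕ) (f : Sch) : tsupport (cu j f) ⊆ Metric.closedBall 0 (2 ^ (j + 1)) :=
  Ap.tsupp_sub Metric.isClosed_closedBall fun z hz => by
    rw [mem_closedBall_zero_iff]
    by_contra h
    exact hz (by rw [cu_apply, ch_zero (not_le.1 h).le, zero_mul])

theorem df_supp (j : ℕ) (f : Sch) :
    tsupport (cu (j + 1) f - cu j f) ⊆ Metric.closedBall 0 (2 ^ (j + 2)) :=
  Ap.tsupp_sub Metric.isClosed_closedBall fun z hz => by
    rw [mem_closedBall_zero_iff]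
    by_contra h
    have h1 := (not_le.1 h).le
    have h2 : (2 : ℝ) ^ (j + 1) ≤ 2 ^ (j + 2) := pow_le_pow_right₀ one_le_two (by omega)
    exact hz (by
      rw [SchwartzMap.sub_apply, cu_apply, cu_apply, ch_zero h1, ch_zero (h2.trans h1), sub_self])

theorem cpt {f : V → ℂ} {r : ℝ} (h : tsupport f ⊆ Metric.closedBall 0 r) : HasCompactSupport f :=
  (isCompact_closedBall 0 r).of_isClosed_subset (isClosed_tsupport _) h

theorem bd_df {m k : ℕ} {C : ℝ} (hC : 0 ≤ C)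
    (h : ∀ j, ST.Bd (fun z => C * (1 + ‖z‖) ^ k) m (ch j)) (M j : ℕ) :
    ST.Bd (fun z => 2 * C / (2 ^ j) ^ M * (1 + ‖z‖) ^ (k + M)) m
      fun z => ch (j + 1) z - ch j z := by
  have h1 := (h (j + 1)).sub (h j)
  refine ⟨h1.1, fun i hi z => ?_⟩
  rcases lt_or_ge ‖z‖ (2 ^ j) with hz | hz
  · have h2 : (fun z => ch (j + 1) z - ch j z) =ᶠ[𝓝 z] fun _ => 0 := by
      filter_upwards [continuous_norm.continuousAt.eventually_lt continuousAt_const hz] with y hy
      have h3 : (2 : ℝ) ^ j ≤ 2 ^ (j + 1) := pow_le_pow_right₀ one_le_two (by omega)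
      rw [ch_one hy.le, ch_one (hy.le.trans h3), sub_self]
    rw [(h2.iteratedFDeriv ℝ i).self_of_nhds, iteratedFDeriv_fun_zero]
    simp only [Pi.zero_apply, norm_zero]
    positivity
  · refine (h1.2 i hi z).trans ?_
    have h3 : ((2 : ℝ) ^ j) ^ M ≤ (1 + ‖z‖) ^ M :=
      pow_le_pow_left₀ (by positivity) (by linarith) M
    beta_reduce
    rw [div_mul_eq_mul_div, le_div_iff₀ (by positivity), pow_add]
    calc _ = 2 * C * ((1 + ‖z‖) ^ k * (2 ^ j) ^ M) := by ring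
      _ ≤ _ := by gcongr

end Dy

open Dy in
theorem dy_row' : DY := by
  intro m M
  obtain ⟨k, C, hC, hb⟩ := ex_bd m
  set D : ℝ := 2 ^ m * 2 ^ (m + (k + (M + 1))) * (2 * C) with hD
  refine ⟨m + (k + (M + 1)), 3 * (4 ^ M * D), by positivity, fun q κ hκ hadd hq f hf => ?_⟩
  set S := sn (m + (k + (M + 1))) f with hS
  have hS0 : 0 ≤ S := by rw [hS, Api4.sn_eq]; exact apply_nonneg _ _
  have key : ∀ j : ℕ, q (cu j f) ≤ (3 - 2 / 2 ^ j) * (4 ^ M * D * κ * S) := by
    intro j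
    induction j with
    | zero =>
      have h1 : sn m (cu 0 f) ≤ D * S := by
        rw [hS, Api4.sn_eq, Api4.sn_eq]
        refine ST.sn_mul ((hb 0).mono fun z => ?_) f _ (cu_apply 0 f)
        have h2 : (1 + ‖z‖) ^ k ≤ (1 + ‖z‖) ^ (k + (M + 1)) :=
          pow_le_pow_right₀ (by linarith [norm_nonneg z]) (by omega)
        have h3 : 0 ≤ C * (1 + ‖z‖) ^ k := by positivity
        nlinarith [mul_le_mul_of_nonneg_left h2 hC]
      have h4 : ((2 : ℝ) ^ (0 + 1)) ^ M ≤ 4 ^ M := pow_le_pow_left₀ (by positivity) (by norm_num) M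
      calc _ ≤ κ * (2 ^ (0 + 1)) ^ M * sn m (cu 0 f) := hq _ _ (by norm_num) (cu_supp 0 f)
        _ ≤ κ * 4 ^ M * (D * S) := by
          gcongr
          rw [Api4.sn_eq]; exact apply_nonneg _ _
        _ = _ := by ring
    | succ j ih =>
      have h1 : sn m (cu (j + 1) f - cu j f) ≤
          2 ^ m * 2 ^ (m + (k + (M + 1))) * (2 * C / (2 ^ j) ^ (M + 1)) * S := by
        rw [hS, Api4.sn_eq, Api4.sn_eq]
        refine ST.sn_mul (bd_df hC hb (M + 1) j) f _ fun z => ?_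
        rw [SchwartzMap.sub_apply, cu_apply, cu_apply, sub_mul]
      have h2 := hq (2 ^ (j + 2)) (cu (j + 1) f - cu j f) (one_le_pow₀ one_le_two) (df_supp j f)
      have h3 := hadd (cu j f) (cu (j + 1) f - cu j f) (cpt (cu_supp j f)) (cpt (df_supp j f))
      rw [add_sub_cancel] at h3
      have h4 : κ * (2 ^ (j + 2)) ^ M * sn m (cu (j + 1) f - cu j f) ≤
          1 / 2 ^ j * (4 ^ M * D * κ * S) := by
        calc _ ≤ κ * (2 ^ (j + 2)) ^ M *
              (2 ^ m * 2 ^ (m + (k + (M + 1))) * (2 * C / (2 ^ j) ^ (M + 1)) * S) := by gcongr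
          _ = _ := by
            rw [hD, pow_add (2 : ℝ) j 2, mul_pow, pow_succ ((2 : ℝ) ^ j) M]
            field_simp
            norm_num
            ring
      have h5 : (3 - 2 / 2 ^ (j + 1) : ℝ) = 3 - 2 / 2 ^ j + 1 / 2 ^ j := by
        rw [pow_succ]; field_simp; ring
      rw [h5, add_mul]
      linarith
  obtain ⟨r, hr⟩ := hf.isCompact.isBounded.subset_closedBall 0
  obtain ⟨j, hj⟩ := pow_unbounded_of_one_lt r (one_lt_two (α := ℝ))
  have h1 : cu j f = f := by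
    ext z
    rw [cu_apply]
    by_cases hz : z ∈ tsupport f
    · rw [ch_one ((mem_closedBall_zero_iff.1 (hr hz)).trans hj.le), one_mul]
    · rw [image_eq_zero_of_notMem_tsupport hz, mul_zero]
  have h2 := key j
  rw [h1] at h2
  have h3 : 0 ≤ 2 / 2 ^ j * (4 ^ M * D * κ * S) := by positivity
  nlinarith

theorem dy_row (_ : ANA) : DY := dy_row'

theorem pou_row (G : Type*) [AddCommGroup G] : POU G := by
  intro F hl hr hloc f g hf hg hs
  have h0 : In univ (fun _ : V => (0 : ℂ)) := Ap.in_univ ⟨contDiff_const, HasCompactSupport.zero⟩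
  have up : ∀ {O : Set V} {h : Fn}, In O h → In univ h := fun h => ⟨h.1, h.2.1, subset_univ _⟩
  refine Ap.in_ind (O := tsupport f) (P := fun f => F f g = 0) ?_
    (fun f₁ f₂ h1 h2 a b => by rw [hl _ _ _ (up h1) (up h2) hg, a, b, add_zero])
    (fun x hx => ?_) ⟨hf.1, hf.2.1, subset_rfl⟩
  · have := hl _ _ g h0 h0 hg
    simp only [add_zero] at this
    exact left_eq_add.1 this
  · have key : ∃ U ∈ 𝓝 x, ∀ f, In U f → F f g = 0 := by
      refine Ap.in_ind (O := tsupport g) (P := fun g => ∃ U ∈ 𝓝 x, ∀ f, In U f → F f g = 0)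
        ⟨univ, univ_mem, fun f hf => ?_⟩ ?_ (fun y hy => ?_) ⟨hg.1, hg.2.1, subset_rfl⟩
      · have := hr f _ _ hf h0 h0
        simp only [add_zero] at this
        exact left_eq_add.1 this
      · rintro g₁ g₂ h1 h2 ⟨U, hU, a⟩ ⟨U', hU', b⟩
        refine ⟨U ∩ U', inter_mem hU hU', fun f hf => ?_⟩
        rw [hr _ _ _ (up hf) (up h1) (up h2), a f ⟨hf.1, hf.2.1, hf.2.2.trans inter_subset_left⟩,
          b f ⟨hf.1, hf.2.1, hf.2.2.trans inter_subset_right⟩, add_zero]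
      · obtain ⟨ε, hε, h⟩ := hloc x y (hs x hx y hy)
        exact ⟨_, Metric.ball_mem_nhds y hε, fun g' hg' => ⟨_, Metric.ball_mem_nhds x hε,
          fun f hf => h f g' hf ⟨hg'.1, hg'.2.1, hg'.2.2.trans inter_subset_left⟩⟩⟩
    obtain ⟨U, hU, h⟩ := key
    exact ⟨U, hU, fun f hf => h f ⟨hf.1, hf.2.1, hf.2.2.trans inter_subset_left⟩⟩

end

end Vale.Agent.P352X.EB
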