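import Vale.Agent.P352X.EB.Defs
import Vale.Agent.P352.H496.ImpDefs
import Vale.Agent.P352.H755.ChDefs

/-!
# P352X, block EB: the rows (see notes/P352/eb.md)
-/

set_option linter.all false

open MeasureTheory Filter Topology
open scoped SchwartzMap ComplexConjugate ContDiff

namespace Vale.Agent.P352X.EB

open Vale.Agent.P352 Vale.Agent.P352.GF Vale.Agent.P352.BW Vale.Agent.P352.H246
open Vale.Agent.P352.H496 Vale.Agent.P352.H755 Vale.Agent.P352.H15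
open Vale.Agent.P352.SubConf (IsAdj)
open Vale.Agent.P132 (ModData jconj)
open UniformSpace (Completion)
open Complex (I)
open Bornology (IsBounded)

noncomputable section

/-! ## level A: Hilbert space -/

section hilbert

variable (H : Type*) [NormedAddCommGroup H] [InnerProductSpace ℂ H] [CompleteSpace H]

/-- row TMB (first part): tame pairs -/
structure TMB : Prop where
  zero : ∀ (M : VonNeumannAlgebra H) Ω N, Tm M Ω N 0 0
  add : ∀ (M : VonNeumannAlgebra H) Ω N ξ ξ' η η', Tm M Ω N ξ ξ' → Tm M Ω N η η' →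
    Tm M Ω N (ξ + η) (ξ' + η')
  smul : ∀ (M : VonNeumannAlgebra H) Ω N (z : ℂ) ξ ξ', Tm M Ω N ξ ξ' →
    Tm M Ω N (z • ξ) (conj z • ξ')
  sum : ∀ (M : VonNeumannAlgebra H) Ω N (ι : Type) (s : Finset ι) (ξ ξ' : ι → H),
    (∀ i ∈ s, Tm M Ω N (ξ i) (ξ' i)) → Tm M Ω N (∑ i ∈ s, ξ i) (∑ i ∈ s, ξ' i)
  mono : ∀ (M : VonNeumannAlgebra H) Ω N N' ξ ξ', N ≤ N' → Tm M Ω N ξ ξ' → Tm M Ω N' ξ ξ'
  ucj : ∀ (M M' : VonNeumannAlgebra H) Ω N ξ ξ' (U : H →L[ℂ] H), U ∈ unitary (H →L[ℂ] H) →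
    U Ω = Ω → (∀ X ∈ M, U * X * star U ∈ M') → Tm M Ω N ξ ξ' → Tm M' Ω N (U ξ) (U ξ')
  anti : ∀ (M M' : VonNeumannAlgebra H) Ω N ξ ξ' (J : H ≃ₗᵢ⋆[ℂ] H), (∀ z, J (J z) = z) →
    J Ω = Ω → (∀ X ∈ M, jconj J X ∈ M') → Tm M Ω N ξ ξ' → Tm M' Ω N (J ξ) (J ξ')
  of4 : ∀ (M : VonNeumannAlgebra H) Ω N ξ ξ' (C : ℝ), (∀ n : ℕ, ∃ a ∈ M,
    ‖a‖ ≤ C * ((n : ℝ) + 1) ^ N ∧ ‖ξ - a Ω‖ ≤ C * ((n : ℝ) + 1) ^ N * (1 / 4) ^ n ∧
      ‖ξ' - star a Ω‖ ≤ C * ((n : ℝ) + 1) ^ N * (1 / 4) ^ n) → Tm M Ω (2 * N) ξ ξ'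

/-- row TMB (second part): smooth tame pairs -/
structure STB : Prop where
  zero : ∀ (M : VonNeumannAlgebra H) Ω, Stm M Ω 0 0
  vac : ∀ (M : VonNeumannAlgebra H) Ω, Stm M Ω Ω Ω
  add : ∀ (M : VonNeumannAlgebra H) Ω ξ ξ' η η', Stm M Ω ξ ξ' → Stm M Ω η η' →
    Stm M Ω (ξ + η) (ξ' + η')
  smul : ∀ (M : VonNeumannAlgebra H) Ω (z : ℂ) ξ ξ', Stm M Ω ξ ξ' → Stm M Ω (z • ξ) (conj z • ξ')
  sum : ∀ (M : VonNeumannAlgebra H) Ω (ι : Type) (s : Finset ι) (ξ ξ' : ι → H),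
    (∀ i ∈ s, Stm M Ω (ξ i) (ξ' i)) → Stm M Ω (∑ i ∈ s, ξ i) (∑ i ∈ s, ξ' i)
  symm : ∀ (M : VonNeumannAlgebra H) Ω ξ ξ', Stm M Ω ξ ξ' → Stm M Ω ξ' ξ
  pr : ∀ (M : VonNeumannAlgebra H) Ω ξ ξ', Stm M Ω ξ ξ' → Pr M Ω ξ ξ'

/-- row PROD: smooth tame pairs can be multiplied -/
def PROD : Prop := ∀ (M : VonNeumannAlgebra H) Ω ξ ξ' η η',
  Dense {z | ∃ Y ∈ M.commutant, Y Ω = z} → Stm M Ω ξ ξ' → Stm M Ω η η' →
  ∃ ζ ζ', Stm M Ω ζ ζ' ∧ Prd M Ω ξ' η ζ ∧ Prd M Ω η ξ' ζ' ∧ Core M Ω η ξ ζ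

/-- row KEY: the resolvent of the modular group, and Gaussian smoothing -/
def KEY : Prop := ∀ (M : VonNeumannAlgebra H) Ω (E : ModData M Ω),
  ∃ (R : (H →L[ℂ] H) → H →L[ℂ] H) (Rh : H →L[ℂ] H) (C : ℝ), 0 ≤ C ∧ ‖Rh‖ ≤ 1 ∧
    (∀ x y, R (x + y) = R x + R y) ∧
    (∀ x, ‖R x‖ ≤ ‖x‖ ∧ star (R x) = R (star x) ∧ R x Ω = Rh (x Ω) ∧ (x ∈ M → R x ∈ M) ∧
      (x ∈ M.commutant → R x ∈ M.commutant)) ∧
    (∀ ξ η, HasDerivAt (fun t => E.U t ξ) (ξ - η) 0 → Rh η = ξ) ∧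
    ∀ s : ℝ, 0 < s → ∀ x ∈ M, ∃ a ∈ M, ‖a‖ ≤ ‖x‖ ∧ ‖R x - a‖ ≤ C * Real.sqrt s * ‖x‖ ∧
      Mir M Ω a (Real.exp (1 / (4 * s)) * ‖x‖)

/-- row SMO: tame pairs all of whose modular derivatives are tame are smooth tame -/
def SMO : Prop := ∀ (M : VonNeumannAlgebra H) Ω (E : ModData M Ω) (P : H → H → Prop) (N : ℕ),
  (∀ ξ ξ', P ξ ξ' → Tm M Ω N ξ ξ' ∧ ∃ η η', P η η' ∧ HasDerivAt (fun t => E.U t ξ) (ξ - η) 0 ∧
    HasDerivAt (fun t => E.U t ξ') (ξ' - η') 0) → ∀ ξ ξ', P ξ ξ' → Stm M Ω ξ ξ'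

end hilbert

/-! ## level B: test functions and geometry -/

/-- row DEC: dyadic decomposition with Ehrenpreis-Hoermander bounds -/
def DEC : Prop := ∀ (𝓛 : Set (Sch →L[ℂ] ℂ)) (f : Sch) (ε : ℝ) (k : ℕ), 0 < ε →
  HasCompactSupport f → (∀ β, ∃ C, Bp 𝓛 (dw β f) C) → ∃ C : ℝ, 1 ≤ C ∧ ∀ n : ℕ,
    ∃ g : ℕ → Sch, (∀ j, HasCompactSupport (g j) ∧
      tsupport (g j) ⊆ Metric.cthickening ε (tsupport f) ∧ ∀ α : List Ix, α.length ≤ n →
        Bp 𝓛 (dw α (g j)) (C * (1 / 2) ^ (j * (k + 1)) * (C * 2 ^ j * ((n : ℝ) + 1)) ^ α.length)) ∧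
      ∀ δ : ℝ, 0 < δ → ∃ J, Bp 𝓛 (f - ∑ j ∈ Finset.range J, g j) δ

/-- row ANA: Schwartz space, cutoffs -/
structure ANA : Prop where
  baire : BaireSpace Sch
  barr : BarrelledSpace ℂ Sch
  clm : ∀ R, ∃ P : Sch →L[ℂ] Sch, ∀ f, ev (P f) = cutf R (ev f)
  inn : ∀ (R : ℕ) f, IsTest f → In (tsupport f ∩ Metric.closedBall 0 (2 * ((R : ℝ) + 1))) (cutf R f)
  eq : ∀ (R : ℕ) (f : Fn), tsupport f ⊆ Metric.closedBall 0 ((R : ℝ) + 1) → cutf R f = f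
  lim : ∀ f : Sch, Tendsto (fun R => sch (cutf R (ev f))) atTop (𝓝 f)
  dil : ∀ m, ∃ C : ℝ, 0 ≤ C ∧ ∀ (s : ℝ) (f g : Sch), 1 ≤ s → (∀ x, g x = f (sim s GF.one 0 x)) →
    sn m g ≤ C * s ^ m * sn m f

/-- row DY (first part): from polynomial growth in the radius of the support to tempered bounds -/
def DY : Prop := ∀ m M : ℕ, ∃ (m' : ℕ) (C : ℝ), 0 ≤ C ∧ ∀ (q : Sch → ℝ) (κ : ℝ), 0 ≤ κ →
  (∀ f g : Sch, HasCompactSupport f → HasCompactSupport g → q (f + g) ≤ q f + q g) →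
  (∀ (R : ℝ) (f : Sch), 1 ≤ R → tsupport f ⊆ Metric.closedBall 0 R → q f ≤ κ * R ^ M * sn m f) →
  ∀ f : Sch, HasCompactSupport f → q f ≤ C * κ * sn m' f

/-- row DY (second part): locality can be checked on small supports -/
def POU (G : Type*) [AddCommGroup G] : Prop := ∀ F : Fn → Fn → G,
  (∀ f f' g, In Set.univ f → In Set.univ f' → In Set.univ g →
    F (fun x => f x + f' x) g = F f g + F f' g) →
  (∀ f g g', In Set.univ f → In Set.univ g → In Set.univ g' →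
    F f (fun x => g x + g' x) = F f g + F f g') →
  (∀ x y : V, mdot (x - y) (x - y) < 0 → ∃ ε : ℝ, 0 < ε ∧ ∀ f g, In (Metric.ball x ε) f →
    In (Metric.ball y ε) g → F f g = 0) →
  ∀ f g, In Set.univ f → In Set.univ g → Sep f g → F f g = 0

/-- row CH0: special conformal transformations of test functions -/
structure CH0 : Prop where
  inn : ∀ j t f, In Set.univ f → Reg t f →
    In Set.univ (pb j t f) ∧ tsupport (pb j t f) ⊆ cph (-t) '' tsupport f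
  inv : ∀ t f, In Set.univ f → Reg t f → Reg (-t) (pb 0 t f) ∧ pb 0 (-t) (pb 0 t f) = f
  fam : ∀ f, In {z | be z < 0} f → ∃ U : Set ℝ, IsOpen U ∧ Set.Ici 0 ⊆ U ∧
    Api4.Fam U (fun t => pb 2 t f) ∧ ∀ t ∈ U, In {z | be z < 0} (pb 2 t f) ∧
      ∀ z, deriv (fun s => pb 2 s f z) t = Kc 2 (pb 2 t f) z

/-- row CHN: the conformal images of `□ g` and of `∂_b g` -/
structure CHN : Prop where
  s1 : ∀ h, In W0 h → ∃ (t : ℝ) (g G : Fn), 0 < t ∧ In W0 g ∧ In W0 G ∧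
    pb 2 t (box g) = fun z => box G z - ((4 * t : ℝ) : ℂ) * dv va h z
  s2 : ∀ k, In W0 k → ∃ (t : ℝ) (g G G' : Fn), 0 < t ∧ In W0 g ∧ In W0 G ∧ In W0 G' ∧
    pb 2 t (dv vb g) = fun z =>
      dv vb G z + ((2 * t : ℝ) : ℂ) * Eu k z + ((2 * t ^ 2 : ℝ) : ℂ) * dv va G' z

/-- row GEO: chains of wedges, separation by wedges -/
structure GEO : Prop where
  chain : ∀ K (g1 g2 : Sg), IsBounded K → g1.Adm K → g2.Adm K → ∃ g3 g4 : Sg, g3.Adm K ∧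
    g4.Adm K ∧ (g1.Op ∩ g3.Op).Nonempty ∧ (g3.Op ∩ g4.Op).Nonempty ∧ (g4.Op ∩ g2.Op).Nonempty
  sep : ∀ x y : V, mdot (x - y) (x - y) < 0 →
    ∃ ε : ℝ, 0 < ε ∧ SepK (Metric.ball x ε) (Metric.ball y ε)

/-! ## level C: fields -/

section fields

variable (D : Type*) [NormedAddCommGroup D] [InnerProductSpace ℂ D]

/-- row MOM: truncations whose errors are moments -/
def MOM : Prop := ∀ (M : VonNeumannAlgebra (Completion D)) (X X' : D → D), T.Afs M X X' →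
  ∀ (t : ℝ) (n : ℕ) (v : D), 0 < t → ∃ a ∈ M, ‖a‖ ≤ n / t ∧
    ‖((X v : D) : Completion D) - a v‖ ≤ t ^ (2 * n) * ‖(X ∘ X')^[n] (X v)‖ ∧
    ‖((X' v : D) : Completion D) - star a v‖ ≤ t ^ (2 * n) * ‖(X' ∘ X)^[n] (X' v)‖

/-- row WB: energy norms, bounds on words -/
structure WB : Prop where
  inv : ∀ (Q : Theory D) A, Rep Q A → ∀ k y v, en Q k (Q.U 1 GF.one y v) = en Q k v
  vac : ∀ (Q : Theory D) k, en Q k Q.vac = 1
  le : ∀ (Q : Theory D) k v, ‖v‖ ≤ en Q k v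
  mono : ∀ (Q : Theory D) k k' v, k ≤ k' → en Q k v ≤ en Q k' v
  wb : ∀ (Q : Theory D) A, Rep Q A → ∀ B B', Q.fld B → Q.fld B' → IsAdj B B' →
    ∀ (k n : ℕ) (b κ : ℝ) (g : Fn), IsTest g → 0 ≤ b → 1 ≤ κ →
    (∀ α : List Ix, α.length ≤ k * (2 * n + 1) → ∀ v,
      ‖B (pw α g) v‖ ≤ b * κ ^ α.length * en Q k v ∧
      ‖B' (bar (pw α g)) v‖ ≤ b * κ ^ α.length * en Q k v) →
    ‖(B g ∘ B' (bar g))^[n] (B g Q.vac)‖ ≤ (b * (5 * (2 * n + 1) * κ) ^ k) ^ (2 * n + 1) ∧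
    ‖(B' (bar g) ∘ B g)^[n] (B' (bar g) Q.vac)‖ ≤ (b * (5 * (2 * n + 1) * κ) ^ k) ^ (2 * n + 1)

/-- row SCAL: a scalar potential of the trace gives conformal invariance -/
def SCAL : Prop := ∀ (Q : Theory D) T L, Q.IsStress T → Q.IsScalar L 2 →
  (∀ f v, IsTest f → GF.tr T f v = (3 : ℂ) • L (box f) v) → ∀ Q' : Theory D, IsEnl Q Q' →
    IsImpr Q' T (improve T L) ∧ ConfAct Q' (improve T L)

/-- row STR: the stress tensor of an extension -/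
def STR : Prop := ∀ (Q : Theory D) A T (D' : Submodule ℂ (Completion D)) (Q' : Theory D') e,
  Rep Q A → Q.IsStress T → Ext Q Q' e → (∀ A, Q'.fld A → ∃ (n : ℕ) (B : Fin n → Fld D),
    (∀ i, Q.fld (B i)) ∧ ∀ f v, IsTest f → A f v = ∑ i, e (B i) f v) →
  Q'.IsStress fun m n => e (T m n)

variable {D} (c : Ctx D)

/-- the fields are tame -/
def MB0 : Prop := ∀ B B', c.Q.fld B → c.Q.fld B' → IsAdj B B' → ∃ N, ∀ O f, IsOpen O → In O f →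
  Tm (c.N O) c.Om N (B f c.Q.vac : D) (B' (bar f) c.Q.vac : D)

/-- row MB -/
def MB : Prop := EBd c.Q → MB0 c

/-- row FLOW: the finite action of `exp (i t K)` on the potential -/
def FLOW : Prop := ∀ f t, In {z | be z < 0} f → 0 ≤ t → c.SK t (c.l f) = c.l (pb 2 t f)

/-- row JL: the modular conjugation on the potential -/
def JL : Prop := ∀ f, IsTest f → c.J (c.l f) = c.l (bar fun z => f (jr z))

/-- the potential is tame -/
def TML0 : Prop := ∃ N, ∀ f, In W0 f → Tm (M0 c) c.Om N (c.l f) (c.l (bar f))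

/-- row TML -/
def TML : Prop := MB0 c → TML0 c

/-- the potential is smooth tame -/
def STL0 : Prop := ∀ f, In W0 f → Stm (M0 c) c.Om (c.l f) (c.l (bar f))

/-- row STF (first part) -/
def STL : Prop := TML0 c → STL0 c

/-- the tensor fields are smooth tame -/
def STF0 : Prop := ∀ k (Φ Φ' : (Fin k → Ix) → Fld D), IsTf c.Q k Φ →
  (∀ μ, c.Q.fld (Φ' μ) ∧ IsAdj (Φ μ) (Φ' μ)) → ∀ μ f, In W0 f →
    Stm (M0 c) c.Om (Φ μ f c.Q.vac : D) (Φ' μ (bar f) c.Q.vac : D)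

/-- row STF (second part) -/
def STF : Prop := MB0 c → STF0 c

/-- row LET: the letters -/
def LET : Prop := STL0 c → STF0 c → ∃ x : Lt c (Lab c.Q), x.dag none = none ∧ x.φ none = c.l ∧
  (∀ p, x.Is (some p) p.1.1 p.1.2 ∧ x.dag (some p) ≠ none) ∧
  ∀ B, Comp c.Q B → ∃ p : {p : Fld D × Fld D //
    Comp c.Q p.1 ∧ Comp c.Q p.2 ∧ IsAdj p.1 p.2 ∧ IsAdj p.2 p.1}, p.1.1 = B

/-- row SG: the group of similitudes -/
structure SG : Prop where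
  act_mul : ∀ (g h : Sg) x, (g.mul h).act x = g.act (h.act x)
  inv_act : ∀ (g : Sg) x, g.inv.act (g.act x) = x
  act_inv : ∀ (g : Sg) x, g.act (g.inv.act x) = x
  U_mul : ∀ g h : Sg, (g.mul h).U c = g.U c * h.U c
  U_inv : ∀ g : Sg, g.inv.U c = star (g.U c)
  uni : ∀ g : Sg, g.U c ∈ unitary (Completion D →L[ℂ] Completion D)
  vac : ∀ g : Sg, g.U c c.Om = c.Om ∧ star (g.U c) c.Om = c.Om
  test : ∀ (g : Sg) f, IsTest f → IsTest (g.pull f)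
  inn : ∀ (g : Sg) O f, In O f → In (g.act ⁻¹' O) (g.pull f)
  clm : ∀ g : Sg, ∃ P : Sch →L[ℂ] Sch, ∀ f, ev (P f) = g.pull (ev f)
  bdd : ∀ (g : Sg) K, IsBounded K → IsBounded (g.act '' K)
  ex : ∀ K, IsBounded K → ∃ g : Sg, g.Adm K
  opn : ∀ g : Sg, IsOpen g.Op
  com : ∀ (g : Sg), ∀ X ∈ c.N g.Op, g.U c * X * star (g.U c) ∈ (M0 c).commutant
  loc : ∀ (g : Sg) K, g.Adm K → ∀ X ∈ c.N K, g.U c * X * star (g.U c) ∈ M0 c
  back : ∀ (g : Sg), ∀ X ∈ M0 c, star (g.U c) * X * g.U c ∈ c.N (g.act ⁻¹' W0)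
  dense : Dense {z | ∃ Y ∈ (M0 c).commutant, Y c.Om = z}

/-- row MU1: the product of local pairs -/
structure MU1 : Prop where
  mono : ∀ K K' ξ ξ', K ⊆ K' → Loc c K ξ ξ' → Loc c K' ξ ξ'
  U : ∀ K ξ ξ' (g : Sg), Loc c K ξ ξ' → Loc c (g.act '' K) (g.U c ξ) (g.U c ξ')
  vac : Lp c c.Om c.Om
  zero : Lp c 0 0
  add : ∀ ξ ξ' η η', Lp c ξ ξ' → Lp c η η' → Lp c (ξ + η) (ξ' + η')
  smul : ∀ (z : ℂ) ξ ξ', Lp c ξ ξ' → Lp c (z • ξ) (conj z • ξ')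
  symm : ∀ K ξ ξ', Loc c K ξ ξ' → Loc c K ξ' ξ
  uniq : ∀ ξ ξ' ξ'', Lp c ξ ξ' → Lp c ξ ξ'' → ξ' = ξ''
  eq : ∀ K ξ' η ζ, IsBounded K → Rl c K ξ' η ζ → ml c ξ' η = ζ
  prod : ∀ K ξ ξ' η η', IsBounded K → Loc c K ξ ξ' → Loc c K η η' →
    Loc c K (ml c ξ' η) (ml c η ξ') ∧ Rl c K ξ' η (ml c ξ' η) ∧
      ∀ g : Sg, g.Adm K → Core (M0 c) c.Om (g.U c η) (g.U c ξ) (g.U c (ml c ξ' η))

/-- row MU2: the rules of the product -/
structure MU2 : Prop where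
  one : ∀ ξ ξ', Lp c ξ ξ' → ml c ξ' c.Om = ξ
  add_r : ∀ ξ ξ' η θ, Lp c ξ ξ' → D1 c η → D1 c θ → ml c ξ' (η + θ) = ml c ξ' η + ml c ξ' θ
  smul_r : ∀ ξ ξ' η (z : ℂ), Lp c ξ ξ' → D1 c η → ml c ξ' (z • η) = z • ml c ξ' η
  add_l : ∀ ξ ξ' ζ ζ' η, Lp c ξ ξ' → Lp c ζ ζ' → D1 c η →
    ml c (ξ' + ζ') η = ml c ξ' η + ml c ζ' η
  smul_l : ∀ ξ ξ' η (z : ℂ), Lp c ξ ξ' → D1 c η → ml c (conj z • ξ') η = z • ml c ξ' η
  herm : ∀ ξ ξ' η θ, Lp c ξ ξ' → D1 c η → D1 c θ →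
    inner ℂ (ml c ξ' η) θ = inner ℂ η (ml c ξ θ)
  cov : ∀ ξ ξ' η (g : Sg), Lp c ξ ξ' → D1 c η → g.U c (ml c ξ' η) = ml c (g.U c ξ') (g.U c η)
  loc : ∀ K K' ξ ξ' η η' θ, IsBounded K → IsBounded K' → SepK K K' → Loc c K ξ ξ' →
    Loc c K' η η' → D1 c θ → ml c ξ' (ml c η' θ) = ml c η' (ml c ξ' θ)
  aff : ∀ K (X X' : D → D) η (w : D), IsBounded K → T.Afs (c.N K) X X' →
    Lp c (X c.Q.vac : D) (X' c.Q.vac : D) → D1 c η →
    inner ℂ (ml c (X' c.Q.vac : D) η) (w : Completion D) = inner ℂ η ((X' w : D) : Completion D)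

/-- the tools for the rows of level C -/
structure E0 : Prop extends T2 c where
  g1 : G1 c
  tmb : TMB (Completion D)
  stb : STB (Completion D)
  prod : PROD (Completion D)
  smo : SMO (Completion D)
  mom : MOM D
  wb : WB D
  str : STR D
  dec : DEC
  ana : ANA
  dy : DY
  pou : POU (Completion D)
  ch0 : CH0
  chn : CHN
  geo : GEO
  sg : SG c

variable {c} {Λ : Type*} (x : Lt c Λ)

/-- row OPS: the letters act on the local vectors -/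
structure OPS : Prop where
  d_vac : D1 c c.Om
  d_zero : D1 c 0
  d_add : ∀ v w, D1 c v → D1 c w → D1 c (v + w)
  d_smul : ∀ (z : ℂ) v, D1 c v → D1 c (z • v)
  d_U : ∀ (g : Sg) v, D1 c v → D1 c (g.U c v)
  mem : ∀ a f v, In Set.univ f → D1 c v → D1 c (x.op a f v)
  vac : ∀ a f, In Set.univ f → x.op a f c.Om = x.φ a f
  add : ∀ a f v w, In Set.univ f → D1 c v → D1 c w → x.op a f (v + w) = x.op a f v + x.op a f w
  smul : ∀ a f (z : ℂ) v, In Set.univ f → D1 c v → x.op a f (z • v) = z • x.op a f v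
  lin : ∀ a (f g : Fn) (z : ℂ) v, In Set.univ f → In Set.univ g → D1 c v →
    x.op a (fun y => f y + z * g y) v = x.op a f v + z • x.op a g v
  herm : ∀ a f v w, In Set.univ f → D1 c v → D1 c w →
    inner ℂ (x.op a f v) w = inner ℂ v (x.op (x.dag a) (bar f) w)
  cov : ∀ a (g : Sg) n (κ : Fin n → ℂ) b f v, x.Cv a g κ b → In Set.univ f → D1 c v →
    x.op a f (g.U c v) = ∑ i, κ i • g.U c (x.op (b i) (g.pull f) v)
  loc : ∀ a b f g v, In Set.univ f → In Set.univ g → Sep f g → D1 c v →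
    x.op a f (x.op b g v) = x.op b g (x.op a f v)
  aff : ∀ a B B' f v (w : D), x.Is a B B' → In Set.univ f → D1 c v →
    inner ℂ (x.op a f v) (w : Completion D) = inner ℂ v ((B' (bar f) w : D) : Completion D)
  zero : ∀ n (κ : Fin n → ℂ) (b : Fin n → Λ) (f : Fin n → Fn) v, (∀ i, In Set.univ (f i)) →
    ∑ i, κ i • x.φ (b i) (f i) = 0 → D1 c v → ∑ i, κ i • x.op (b i) (f i) v = 0 ∧
      ∑ i, conj (κ i) • x.op (x.dag (b i)) (bar (f i)) v = 0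
  cont : ∀ a R v, D1 c v → Continuous fun f : Sch => x.op a (cutf R (ev f)) v

/-- the tools for the rows on words -/
structure E1 : Prop extends E0 c where
  ops : OPS x

/-- row JB: joint bounds for supports in the unit ball -/
def JB : Prop := ∀ (ls : List Λ) v, D1 c v → ∃ (m : ℕ) (C : ℝ), 0 ≤ C ∧
  ∀ u : List (Λ × Sch), u.map Prod.fst = ls → ‖x.ap (cutw 0 (evw u)) v‖ ≤ C * snw m u

/-- row TMP: tempered bounds -/
def TMP : Prop := ∀ ls : List Λ, ∃ (m : ℕ) (C : ℝ), 0 ≤ C ∧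
  ∀ u : List (Λ × Sch), u.map Prod.fst = ls → CW (evw u) → ‖x.ap (evw u) c.Om‖ ≤ C * snw m u

/-- row EXT: extension to Schwartz functions -/
structure EXT : Prop where
  lim : ∀ u, TW u → Tendsto (fun R => x.ap (cutw R u) c.Om) atTop (𝓝 (x.W u))
  cw : ∀ u, CW u → x.W u = x.ap u c.Om
  bd : ∀ ls : List Λ, ∃ (m : ℕ) (C : ℝ), 0 ≤ C ∧
    ∀ u : List (Λ × Sch), u.map Prod.fst = ls → ‖x.W (evw u)‖ ≤ C * snw m u

/-- row FS (first part): the vector valued Wightman distributions -/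
structure WP : Prop where
  nil : x.W [] = c.Om
  lin : ∀ a (f g : Fn) (z : ℂ) u, IsTest f → IsTest g → TW u →
    x.W ((a, fun y => f y + z * g y) :: u) = x.W ((a, f) :: u) + z • x.W ((a, g) :: u)
  cont : ∀ a u, TW u → Continuous fun g : Sch => x.W ((a, ev g) :: u)
  herm : ∀ a f u w, IsTest f → TW u → TW w →
    inner ℂ (x.W ((a, f) :: u)) (x.W w) = inner ℂ (x.W u) (x.W ((x.dag a, bar f) :: w))
  loc : ∀ a b f g u, IsTest f → IsTest g → Sep f g → TW u →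
    x.W ((a, f) :: (b, g) :: u) = x.W ((b, g) :: (a, f) :: u)
  aff : ∀ a B B' f u (w : D), x.Is a B B' → IsTest f → TW u →
    inner ℂ (x.W ((a, f) :: u)) (w : Completion D) =
      inner ℂ (x.W u) ((B' (bar f) w : D) : Completion D)

/-- row FS (second part): the new fields -/
structure FS : Prop where
  vac : c.Om ∈ x.Dn
  oW : ∀ a f u (v : x.Dn), IsTest f → TW u → (v : Completion D) = x.W u →
    (x.o a f v : Completion D) = x.W ((a, f) :: u)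
  add : ∀ a f v w, x.o a f (v + w) = x.o a f v + x.o a f w
  smul : ∀ a f (z : ℂ) v, x.o a f (z • v) = z • x.o a f v
  lin : ∀ a (f g : Fn) (z : ℂ) v, IsTest f → IsTest g →
    x.o a (fun y => f y + z * g y) v = x.o a f v + z • x.o a g v
  cont : ∀ a v, Continuous fun g : Sch => x.o a (ev g) v
  herm : ∀ a, IsAdj (x.o a) (x.o (x.dag a))
  loc : ∀ a b f g v, IsTest f → IsTest g → Sep f g → x.o a f (x.o b g v) = x.o b g (x.o a f v)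
  aff : ∀ a B B' f (v : x.Dn) (w : D), x.Is a B B' → IsTest f →
    inner ℂ (x.o a f v : Completion D) (w : Completion D) =
      inner ℂ (v : Completion D) ((B' (bar f) w : D) : Completion D)

/-- row CV: covariance and relations of the new fields -/
structure CV : Prop where
  mem : ∀ (g : Sg) v, v ∈ x.Dn → g.U c v ∈ x.Dn
  cov : ∀ a (g : Sg) n (κ : Fin n → ℂ) b f (v w : x.Dn), x.Cv a g κ b → IsTest f →
    (w : Completion D) = g.U c v →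
    (x.o a f w : Completion D) = ∑ i, κ i • g.U c (x.o (b i) (g.pull f) v)
  zero : ∀ n (κ : Fin n → ℂ) (b : Fin n → Λ) (f : Fin n → Fn) v, (∀ i, In Set.univ (f i)) →
    ∑ i, κ i • x.φ (b i) (f i) = 0 → ∑ i, κ i • x.o (b i) (f i) v = 0

/-- row REC: the new theory -/
def REC : Prop := ∀ P : Λ → Prop, (∀ a, P a → P (x.dag a)) →
  (∀ S : Submodule ℂ x.Dn, (∀ v : x.Dn, (v : Completion D) = c.Om → v ∈ S) →
    (∀ a f v, P a → IsTest f → v ∈ S → x.o a f v ∈ S) → Dense (S : Set x.Dn)) →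
  ∃ Q' : Theory x.Dn, (Q'.vac : Completion D) = c.Om ∧ Q'.U = x.Ud ∧
    (∀ B, Q'.fld B ↔ x.Fs P B) ∧ ∀ B, Q'.bose B ↔ x.Fs P B

variable (c)

/-- row FIN: the extension with the local potential -/
def FIN : Prop := TdAll c.Q → ∃ (D' : Submodule ℂ (Completion D)) (Q' : Theory D')
  (e : Fld D → Fld D') (L : Fld D'), Ext c.Q Q' e ∧ Q'.IsStress (fun m n => e (c.T m n)) ∧
    Q'.IsScalar L 2 ∧ ∀ f v, IsTest f →
      GF.tr (fun m n => e (c.T m n)) f v = (3 : ℂ) • L (box f) v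

end fields

end

end Vale.Agent.P352X.EB
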