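import Vale.Agent.P352X.EB.Spec
import Vale.Agent.P352X.Api2b
import Vale.Agent.P352.BW.U
import Vale.Agent.P352.H746.Chg2

/-!
# P352X, block EB, row STR: the stress tensor of an extension
-/

set_option linter.all false

open MeasureTheory Filter Topology
open scoped SchwartzMap ComplexConjugate LineDeriv

namespace Vale.Agent.P352X.EB

open Vale.Agent.P352 Vale.Agent.P352.GF Vale.Agent.P352.BW Vale.Agent.P352.H15
open Vale.Agent.P352.SubConf (IsAdj)
open UniformSpace (Completion)
open Complex (I)

noncomputable section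

variable {D : Type*} [NormedAddCommGroup D] [InnerProductSpace ℂ D]

namespace STRa

section exact

open H246 H731 H746

/-- the commutator with the charge is constant for large cutoffs -/
theorem exact_charge {Q : Theory D} {T : Ix → Ix → Fld D} (hT : Q.IsStress T) {F : ℝ → Fn}
    (hF : IsCutoff F) {f : Fn} (hf : GF.IsTest f) (hfc : HasCompactSupport f) :
    ∀ᶠ R in atTop, ∀ B, Q.fld B → ∀ n v, T o n (F R) (B f v) - B f (T o n (F R) v) =
      (I * eta n) • B (pd n f) v := by
  have hE : IsEnl Q Q := ⟨rfl, rfl, fun _ h => h, fun _ h => h⟩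
  obtain ⟨f, rfl⟩ := exists_fl hf
  have hfs : HasCompactSupport f := by
    have h1 : (f : Mink → ℂ) = fun x => fl f x.ofLp := rfl
    rw [h1]
    exact hfc.comp_homeomorph (EuclideanSpace.equiv (Fin 4) ℝ).toHomeomorph
  obtain ⟨R1, h1, hR1⟩ := two_cut hT hF isCutoff_cutF hfs
  obtain ⟨R2, h2, hR2⟩ := com_const (Q := Q) hT hfs
  obtain ⟨R3, hR3⟩ := com_enl hE hT hfs
  filter_upwards [eventually_ge_atTop (max R1 (max R2 R3))] with R hR B hB n v
  have hP := tloc_enl hE hT hB f
  have g1 : R1 ≤ R := (le_max_left _ _).trans hR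
  have g2 : R2 ≤ R := ((le_max_left _ _).trans (le_max_right _ _)).trans hR
  have g3 : R3 ≤ R := ((le_max_right _ _).trans (le_max_right _ _)).trans hR
  obtain ⟨G, G', hG, hG', hZ⟩ := hR1 R R g1 g1
  have hne : R ≠ 0 := by
    have : 0 < R := by linarith
    exact this.ne'
  have e1 : G' = F1 R hne := by
    apply H746.fl_inj
    rw [hG']
    simp only [cutF, dif_pos hne]
  have e2 := hZ B hP n v
  have e3 : T o n (fl G) (B (fl f) v) - B (fl f) (T o n (fl G) v) =
      T o n (fl (GR R)) (B (fl f) v) - B (fl f) (T o n (fl (GR R)) v) := by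
    rw [e1, ← hR2 B hP n v R R g2 g2 hne] at e2
    exact e2
  rw [hR3 B hB n v R g3, hG] at e3
  rw [e3, pd_fl]

end exact

/-- vectors are determined by their products with a dense family -/
theorem ext_dense {D' : Submodule ℂ (Completion D)} {ι : Type*} {u : ι → Completion D}
    (hu : DenseRange u) {x y : D'}
    (h : ∀ i, inner ℂ (x : Completion D) (u i) = inner ℂ (y : Completion D) (u i)) : x = y := by
  refine Subtype.ext (ext_inner_right ℂ fun z => ?_)
  exact hu.induction_on z (isClosed_eq (by fun_prop) (by fun_prop)) h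

theorem ext_D {D' : Submodule ℂ (Completion D)} {x y : D'}
    (h : ∀ w : D, inner ℂ (x : Completion D) (w : Completion D) =
      inner ℂ (y : Completion D) (w : Completion D)) : x = y :=
  ext_dense Completion.denseRange_coe h

theorem coe_sum {ι : Type*} (s : Finset ι) (v : ι → D) :
    ((∑ i ∈ s, v i : D) : Completion D) = ∑ i ∈ s, (v i : Completion D) :=
  map_sum (Completion.toComplL : D →L[ℂ] Completion D) v s

end STRa

open STRa

variable (D) in
/-- **row STR** -/
theorem str_row : STR D := by
  intro Q A T D' Q' e hR hT hE hA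
  have hf : ∀ m n, Q.fld (T m n) := fun m n => Q.bose_fld _ (hT.bose m n)
  have ha : ∀ m n f (v : D') (w : D), IsTest f → inner ℂ (e (T m n) f v : Completion D)
      (w : Completion D) = inner ℂ (v : Completion D) (T m n (bar f) w : Completion D) :=
    fun m n f v w h => hE.adj _ _ f v w (hf m n) (hT.herm m n) h
  refine ⟨fun m n => hE.fld _ (hf m n), fun m n f v h => ext_D fun w => ?_,
    fun m n f v w h => ?_, fun m n s L a f v hs hL h => ?_, fun n f v h => ext_D fun w => ?_,
    fun F n B f v w hF hB h hc => ?_⟩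
  · rw [ha _ _ _ _ _ h, ha _ _ _ _ _ h, hT.symm m n _ _ (Ap.test_bar h)]
  · obtain ⟨B, -, hB⟩ := Q'.adj _ (Q'.bose_fld _ (hE.fld _ (hf m n)))
    let S : Submodule ℂ D' := (LinearMap.range
      ((Completion.toComplL : D →L[ℂ] Completion D) : D →ₗ[ℂ] Completion D)).comap D'.subtype
    have hS : Dense (S : Set D') := Q'.cyclic S ⟨Q.vac, hE.vac.symm⟩ (by
      rintro B' g u hB' hg ⟨u₀, hu⟩
      obtain ⟨k, C, hC, h1⟩ := hA B' hB'
      rw [h1 g u hg]
      exact S.sum_mem fun i _ => ⟨C i g u₀, (hE.agree _ g u u₀ (hC i) hg hu.symm).symm⟩)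
    have h1 : B (bar f) w = e (T m n) (bar f) w := by
      refine ext_inner_left ℂ fun z => ?_
      refine hS.induction (P := fun z => inner ℂ z (B (bar f) w) =
        inner ℂ z (e (T m n) (bar f) w)) ?_ (isClosed_eq (by fun_prop) (by fun_prop)) z
      rintro u ⟨u₀, hu⟩
      have hu' : (u : Completion D) = u₀ := hu.symm
      rw [← hB f u w h, ← inner_conj_symm u, Submodule.coe_inner, Submodule.coe_inner, hu',
        ha _ _ _ _ _ (Ap.test_bar h), Ap.bar_bar, inner_conj_symm,
        hE.agree _ f u u₀ (hf m n) h hu']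
    rw [hB f v w h, h1]
  · have hU := ublock hR
    obtain ⟨W, hW⟩ := hU.lin s L a hs hL
    refine ext_dense (u := fun w : D => W w)
      (W.surjective.denseRange.comp Completion.denseRange_coe W.continuous) fun w => ?_
    have h1 : W w = (Q.U s L a w : D) := (hW _).trans (hU.coe s L a w hs hL)
    have h2 : ∀ z : D', (Q'.U s L a z : Completion D) = W z := fun z =>
      (hE.U s L a z hs hL).trans (hW _).symm
    have h3 : ∀ z : D, ((Q.U s L a z : D) : Completion D) = W z := fun z =>
      (hU.coe s L a z hs hL).symm.trans (hW _).symm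
    conv_lhs => rw [h1, ha _ _ _ _ _ h, hT.cov m n s L a _ w hs hL (Ap.test_bar h), h2]
    simp only [coe_sum, Completion.coe_smul, Submodule.coe_sum, Submodule.coe_smul, inner_sum,
      sum_inner, inner_smul_left, inner_smul_right, h2, h3, W.inner_map_map,
      ha _ _ _ _ _ (Ap.test_sim hs hL a h), map_mul, Complex.conj_ofReal]
    rfl
  · rw [Submodule.coe_sum, sum_inner]
    simp only [ha _ _ _ _ _ (Ap.test_pd _ h), H755.bar_pd h]
    rw [← inner_sum, ← coe_sum, hT.conserved n _ w (Ap.test_bar h), Completion.coe_zero,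
      inner_zero_right, Submodule.coe_zero, inner_zero_left]
  · obtain ⟨k, C, hC, h1⟩ := hA B hB
    choose C' hC' adj using fun i => Q.adj (C i) (hC i)
    have hb : HasCompactSupport (bar f) := hc.comp_left (g := star) (star_zero _)
    refine tendsto_const_nhds.congr' ?_
    filter_upwards [exact_charge hT hF (Ap.test_bar h) hb, eventually_gt_atTop 0] with R hR R0
    obtain ⟨a, c, -, -, -, -, h2⟩ := hF
    obtain ⟨h3, h4⟩ := h2 R R0
    have h5 : bar (F R) = F R := funext fun x => by
      change conj (F R x) = F R x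
      rw [h4, map_mul, Complex.conj_ofReal, Complex.conj_ofReal]
    congr 1
    refine ext_D fun z => ?_
    have h6 : ∀ i g (u : D') (y : D), IsTest g → inner ℂ (e (C i) g u : Completion D)
        (y : Completion D) = inner ℂ (u : Completion D) (C' i (bar g) y : Completion D) :=
      fun i g u y hg => hE.adj _ _ g u y (hC i) (adj i) hg
    rw [Submodule.coe_sub, inner_sub_left, ha _ _ _ _ _ h3, h1 _ _ h, h1 _ _ h,
      h1 _ _ (Ap.test_pd n h), h5]
    simp only [Submodule.coe_sum, Submodule.coe_smul, sum_inner, inner_smul_left, h6 _ _ _ _ h,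
      h6 _ _ _ _ (Ap.test_pd n h), ha _ _ _ _ _ h3, h5, H755.bar_pd h]
    rw [← Finset.sum_sub_distrib, Finset.mul_sum]
    refine Finset.sum_congr rfl fun i _ => ?_
    rw [← inner_sub_right, ← Completion.coe_sub, ← neg_sub, hR _ (hC' i), Completion.coe_neg,
      Completion.coe_smul, inner_neg_right, inner_smul_right]
    simp

end

end Vale.Agent.P352X.EB
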