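import Vale.Agent.P352.BW.T.TgDefs

namespace Vale.Agent.P352X

open Vale.Agent.P352.GF Vale.Agent.P352.BW

variable {D : Type*} [NormedAddCommGroup D] [InnerProductSpace ℂ D]

/-- Every field is a finite sum of components of tensor fields. -/
def TfAll (Q : Theory D) : Prop := ∀ A, Q.fld A → ∃ (n : ℕ) (B : Fin n → Fld D),
  (∀ i, ∃ k Φ μ, IsTf Q k Φ ∧ B i = Φ μ) ∧ ∀ f v, IsTest f → A f v = ∑ i, B i f v

end Vale.Agent.P352X
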