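import Vale.Agent.P352X.EB.Pub
import Vale.Agent.P352X.EB.Pub2
import Vale.Agent.P352X.FSS.B

/-!
# P352X, block EB: tensor fields with finite scaling support
-/

set_option linter.all false

namespace Vale.Agent.P352X.EB

open Vale.Agent.P352 Vale.Agent.P352.GF Vale.Agent.P352.BW Vale.Agent.P352.H15
open Vale.Agent.P352.H755 Fss

variable {D : Type*} [NormedAddCommGroup D] [InnerProductSpace ℂ D] {Q : Theory D}
  {A : (V → V) → D → D}

lemma vand' (F : Finset ℂ) (e : ℂ) : ∃ (S : Finset ℝ) (c : ℝ → ℂ), ∀ d ∈ F,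
    ∑ t ∈ S, c t * (Real.exp t : ℂ) ^ (d - 4) = if d = e then 1 else 0 := by
  classical
  obtain ⟨c, hc⟩ := vand (F.image fun d => d - e + 4)
  refine ⟨c.support, fun t => c t * (Real.exp t : ℂ) ^ (4 - e), fun d hd => ?_⟩
  have := hc _ (Finset.mem_image_of_mem _ hd)
  rw [add_sub_cancel_right, if_congr (show d - e + 4 = 4 ↔ d = e by simp [sub_eq_zero]) rfl rfl]
    at this
  rw [← this]
  refine Finset.sum_congr rfl fun t _ => ?_
  rw [mul_assoc, ← Complex.cpow_add _ _ (Complex.ofReal_ne_zero.2 (Real.exp_pos t).ne')]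
  congr 2
  ring

lemma dl_tf (R : Rep Q A) {k : ℕ} {Φ : (Fin k → Ix) → Fld D} (h : IsTf Q k Φ) {s : ℝ} (hs : 0 < s)
    (μ : Fin k → Ix) {L : Ix → V} (hL : IsLor L) {f : Fn} (hf : IsTest f) (v : D) :
    dl Q s hs (Φ μ) f (Q.U 1 L 0 v) = ∑ ν : Fin k → Ix, ((∏ i, L (ν i) (μ i) : ℝ) : ℂ) •
      Q.U 1 L 0 (dl Q s hs (Φ ν) (fun x => f (sim 1 L 0 x)) v) := by
  rw [dl, (U_dil R _ hL 0 v).1, smul_zero, ← (U_dil R (inv_pos.2 hs) hL _ v).2,
    h.2 μ L _ _ hL (ds_test hs hf)]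
  simp only [map_sum, map_smul, dl, (U_dil R hs hL _ _).1, (U_dil R hs hL _ _).2, smul_zero]
  refine Finset.sum_congr rfl fun ν _ => ?_
  congr 3
  funext x
  rw [ds_apply, ds_apply, N86.c1_sim, N86.c1_sim 1 L 0, simL_smul]
  simp only [one_smul, zero_add]

lemma comp_of (R : Rep Q A) (hF : FSS Q) {k : ℕ} {Φ : (Fin k → Ix) → Fld D} (h : IsTf Q k Φ)
    (μ : Fin k → Ix) : ∃ (G : Finset ℂ) (C : ℂ → Fld D), (∀ d ∈ G, Comp Q (C d)) ∧
      ∀ f v, IsTest f → Φ μ f v = ∑ d ∈ G, C d f v := by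
  classical
  choose F C hC hs using fun ν => hF (Φ ν) (h.1 ν)
  let G : Finset ℂ := Finset.univ.biUnion F
  have hd : ∀ ν, Dec Q (Φ ν) G (C ν) := fun ν =>
    ⟨fun d => ⟨(hC ν d).1, (hC ν d).2.2.1⟩, fun f v hf => (hs ν f v hf).trans
      (Finset.sum_subset (fun d hd => Finset.mem_biUnion.2 ⟨ν, Finset.mem_univ _, hd⟩)
        fun d _ hd => by rw [(hC ν d).2.2.2 hd]; rfl)⟩
  refine ⟨G, C μ, fun e he => ⟨k, e, fun ν => C ν e, μ, ⟨⟨fun ν => (hC ν e).1,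
    fun ν L f v hL hf => ?_⟩, fun ν => (hC ν e).2.2.1⟩, rfl⟩, (hd μ).2⟩
  obtain ⟨S, c, hc⟩ := vand' G e
  have fm : ∀ ν f v, IsTest f → C ν e f v =
      ∑ t ∈ S, c t • dl Q _ (Real.exp_pos t) (Φ ν) f v := fun ν f v hf => by
    simp only [(hd ν).dl R _ hf, Finset.smul_sum, smul_smul]
    rw [Finset.sum_comm, Finset.sum_congr rfl fun d hd => by rw [← Finset.sum_smul, hc d hd]]
    simp [he]
  let W : D →ₗ[ℂ] D := ⟨⟨Q.U 1 L 0, U_add one_pos hL 0⟩, U_smul one_pos hL 0⟩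
  have t1 := Ap.test_sim one_pos hL 0 hf
  show _ = ∑ ν', _ • W _
  simp only [fm _ _ _ t1, fm ν f _ hf, dl_tf R h _ ν hL hf, map_sum, map_smul, Finset.smul_sum]
  rw [Finset.sum_comm]
  exact Finset.sum_congr rfl fun _ _ => Finset.sum_congr rfl fun t _ => smul_comm _ _ _

theorem tdAll_of (R : Rep Q A) (hF : FSS Q) (h : TfAll Q) : TdAll Q := fun B hB => by
  obtain ⟨n, B', h1, h2⟩ := h B hB
  choose k Φ μ hΦ e using h1
  choose G C hC hs using fun i => comp_of R hF (hΦ i) (μ i)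
  let E := Fintype.equivFin (Σ i, G i)
  refine ⟨_, fun j => C (E.symm j).1 (E.symm j).2, fun j => hC _ _ (E.symm j).2.2, fun f v hf => ?_⟩
  rw [h2 f v hf, E.symm.sum_comp fun p => C p.1 p.2 f v, Fintype.sum_sigma]
  exact Finset.sum_congr rfl fun i _ => by rw [e, hs i f v hf, Finset.sum_coe_sort (G i) (C i · f v)]

end Vale.Agent.P352X.EB
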