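import Vale.Agent.P352X.EB.Spec
import Vale.Agent.P352X.Api2b

/-!
# P352X, block EB, row CH0: special conformal transformations of test functions
-/

set_option linter.all false

open Filter Topology Set
open scoped ContDiff

namespace Vale.Agent.P352X.EB

open Vale.Agent.P352.GF Vale.Agent.P352.H15
open Vale.Agent.P352.H246 (In)

noncomputable section

namespace Ch0

variable {s t : ℝ} {z : V} {j : ℕ} {f : Fn}

@[simp] theorem al_cph : al (cph t z) = al z - t * d2 (tx z) (tx z) / rh t z := al_pt _ _ _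
@[simp] theorem be_cph : be (cph t z) = be z / rh t z := be_pt _ _ _
@[simp] theorem tx_cph : tx (cph t z) = (rh t z)⁻¹ • tx z := tx_pt _ _ _
@[simp] theorem rh_zero : rh 0 z = 1 := by simp [rh]
@[simp] theorem cph_zero : cph 0 z = z := null_ext (by simp) (by simp) (by simp)
@[simp] theorem pb_zero : pb j 0 f = f := funext fun z => by simp [pb]

theorem rh_cph (h : rh s z ≠ 0) : rh t (cph s z) = rh (s + t) z / rh s z := by
  rw [rh, be_cph]
  field_simp
  simp only [rh]
  ring

theorem cph_cph (h : rh s z ≠ 0) (h' : rh (s + t) z ≠ 0) : cph t (cph s z) = cph (s + t) z := by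
  refine null_ext ?_ ?_ ?_
  · simp only [al_cph, tx_cph, rh_cph h, d2_smul, d2_smul_l]
    field_simp
    simp only [rh]
    ring
  · simp only [be_cph, rh_cph h]
    field_simp
  · simp only [tx_cph, rh_cph h, smul_smul]
    congr 1
    field_simp

theorem cph_inv (h : rh s z ≠ 0) : cph (-s) (cph s z) = z := by
  rw [cph_cph h (by simp), add_neg_cancel, cph_zero]

theorem rh_inv (h : rh s z ≠ 0) : rh (-s) (cph s z) = (rh s z)⁻¹ := by simp [rh_cph h]

theorem cph_eq (h : rh s z ≠ 0) : cph s z = z - (s / rh s z) • cK va z := by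
  have e : mdot z z = 2 * al z * be z - d2 (tx z) (tx z) := mu_eq z
  refine null_ext ?_ ?_ ?_
  · simp [cK, md_va, e]
    ring
  · simp [cK, md_va]
    field_simp
    simp only [rh]
    ring
  · ext i
    simp [cK, md_va]
    field_simp
    simp only [rh]
    ring

theorem pb_pb (h : 0 < rh s z) : pb j s (pb j t f) z = pb j (s + t) f z := by
  simp only [pb, if_pos h, rh_cph h.ne', div_pos_iff_of_pos_right h]
  split_ifs with h'
  · rw [cph_cph h.ne' h'.ne', ← mul_assoc, ← Complex.ofReal_mul, ← mul_pow]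
    congr 3
    field_simp
  · simp

theorem mem_of_ne (h : pb j t f z ≠ 0) : 0 < rh t z ∧ cph t z ∈ tsupport f := by
  rw [pb] at h
  split_ifs at h with h'
  · exact ⟨h', subset_tsupport _ (right_ne_zero_of_mul h)⟩
  · exact absurd rfl h

theorem img_of_ne (h : pb j t f z ≠ 0) : z ∈ cph (-t) '' tsupport f :=
  ⟨_, (mem_of_ne h).2, cph_inv (mem_of_ne h).1.ne'⟩

@[fun_prop] theorem smooth_rh : ContDiff ℝ ∞ fun q : ℝ × V => rh q.1 q.2 := by
  unfold rh; fun_prop

theorem smooth_cph {q : ℝ × V} (h : rh q.1 q.2 ≠ 0) :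
    ContDiffAt ℝ ∞ (fun q : ℝ × V => cph q.1 q.2) q := by
  simp only [cph, pt_eq, d2_eq, tx_0, tx_1]
  fun_prop (disch := assumption)

theorem smooth_pb (hf : Dc f) : ContDiff ℝ ∞ fun q : ℝ × V => pb j q.1 f q.2 := by
  obtain ⟨B, hB⟩ := hf.2.isCompact.exists_bound_of_continuousOn cont_be.continuousOn
  refine contDiff_iff_contDiffAt.2 fun q => ?_
  have c := smooth_rh.continuous
  rcases lt_or_ge 0 (rh q.1 q.2) with h | h
  · refine ((Complex.ofRealCLM.contDiff.contDiffAt.comp q ((smooth_rh.contDiffAt.inv h.ne').pow j)).mul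
      (hf.1.contDiffAt.comp q (smooth_cph h.ne'))).congr_of_eventuallyEq ?_
    filter_upwards [continuousAt_const.eventually_lt c.continuousAt h] with p hp using if_pos hp
  · refine (contDiffAt_const (c := 0)).congr_of_eventuallyEq ?_
    filter_upwards [ContinuousAt.eventually_lt (f := fun p : ℝ × V => rh p.1 p.2 *
      (1 + 2 * (|p.1| * |B|))) (by fun_prop) continuousAt_const
        ((mul_nonpos_of_nonpos_of_nonneg h (by positivity)).trans_lt one_pos)] with p hp
    by_contra h0
    obtain ⟨a, b⟩ := mem_of_ne h0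
    have d := rh_inv a.ne'
    have e : |be (cph p.1 p.2)| ≤ |B| := (hB _ b).trans (le_abs_self B)
    refine hp.not_ge ((inv_le_iff_one_le_mul₀' a).1 ?_)
    rw [← d, rh]
    have := neg_abs_le (p.1 * be (cph p.1 p.2))
    rw [abs_mul] at this
    linarith [mul_le_mul_of_nonneg_left e (abs_nonneg p.1)]

theorem cpt {N : Set ℝ} (hN : IsCompact N) (hf : Dc f) (h : ∀ t ∈ N, Reg t f) :
    IsCompact ((fun q : ℝ × V => cph (-q.1) q.2) '' (N ×ˢ tsupport f)) :=
  (hN.prod hf.2.isCompact).image_of_continuousOn fun q hq =>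
    ((smooth_cph (q := (-q.1, q.2)) (h _ hq.1 _ hq.2).ne').continuousAt.comp
      (f := fun q : ℝ × V => (-q.1, q.2)) (by fun_prop)).continuousWithinAt

theorem inn (hf : Dc f) (h : Reg t f) :
    Dc (pb j t f) ∧ tsupport (pb j t f) ⊆ cph (-t) '' tsupport f := by
  have k : IsCompact (cph (-t) '' tsupport f) := by
    simpa [singleton_prod, image_image] using cpt (isCompact_singleton (x := t)) hf (by simpa using h)
  exact ⟨Api4.dc_of_zero ((smooth_pb hf).comp (contDiff_const.prodMk contDiff_id)) k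
    fun z hz => by_contra fun h0 => hz (img_of_ne h0), Ap.tsupp_sub k.isClosed fun z => img_of_ne⟩

theorem reg_open (hf : Dc f) : IsOpen {t | Reg t f} := isOpen_iff_mem_nhds.2 fun t ht =>
  hf.2.isCompact.eventually_forall_of_forall_eventually fun z hz =>
    continuousAt_const.eventually_lt (g := fun q : ℝ × V => rh (-q.1) q.2)
      (by unfold rh; fun_prop) (ht z hz)

theorem fam (hf : Dc f) : Api4.Fam {t | Reg t f} fun t => pb j t f := by
  refine ⟨reg_open hf, (smooth_pb hf).contDiffOn, fun t ht => ?_⟩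
  obtain ⟨N, n1, n2, n3⟩ := local_compact_nhds ((reg_open hf).mem_nhds ht)
  refine ⟨_, cpt n3 hf n2, mem_of_superset n1 fun s hs z hz => by_contra fun h0 => ?_⟩
  obtain ⟨y, a, b⟩ := img_of_ne h0
  exact hz ⟨(s, y), ⟨hs, a⟩, b⟩

theorem der0 (hf : DifferentiableAt ℝ f z) : HasDerivAt (fun s => pb 2 s f z) (Kc 2 f z) 0 := by
  have r : HasDerivAt (fun s => rh s z) (2 * be z) 0 := by
    simpa [rh] using (((hasDerivAt_id (0 : ℝ)).const_mul 2).mul_const (be z)).const_add 1
  have p : ∀ᶠ s in 𝓝 (0 : ℝ), 0 < rh s z :=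
    continuousAt_const.eventually_lt r.continuousAt (by simp)
  have c := (((hasDerivAt_id (0 : ℝ)).fun_div r (by simp)).smul_const (cK va z)).const_sub z
  have d := ((r.fun_inv (by simp)).fun_pow 2).ofReal_comp.fun_mul
    (hf.hasFDerivAt.comp_hasDerivAt_of_eq 0 c (by simp))
  refine (d.congr_of_eventuallyEq (p.mono fun s hs => ?_)).congr_deriv ?_
  · simp only [pb, if_pos hs, cph_eq hs.ne', Function.comp, id]
  · rw [Kc, show ∑ m, (cK va z m : ℂ) * pd m f z = _ from Ap.dv_eq hf _]
    simp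
    ring

theorem der (hf : Dc f) : HasDerivAt (fun s => pb 2 s f z) (Kc 2 (pb 2 t f) z) t := by
  have h := der0 (z := z) (((smooth_pb (j := 2) hf).comp
    ((contDiff_const (c := t)).prodMk contDiff_id)).differentiable (by simp) z)
  have p : ∀ᶠ s in 𝓝 t, 0 < rh (s - t) z :=
    continuousAt_const.eventually_lt (by unfold rh; fun_prop) (by simp)
  refine (HasDerivAt.comp_sub_const t t (sub_self t ▸ h)).congr_of_eventuallyEq
    (p.mono fun s hs => ?_)
  exact ((pb_pb hs).trans (by rw [sub_add_cancel])).symm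

end Ch0

open Ch0 in
theorem ch0_row : CH0 where
  inn j t f hf h := ⟨Ap.in_univ (inn (Ap.in_dc hf) h).1, (inn (Ap.in_dc hf) h).2⟩
  inv t f hf h := by
    refine ⟨fun z hz => ?_, funext fun z => ?_⟩
    · obtain ⟨y, a, rfl⟩ := (inn (Ap.in_dc hf) h).2 hz
      rw [rh_inv (h y a).ne']
      exact inv_pos.2 (h y a)
    · by_cases hz : 0 < rh (-t) z
      · rw [pb_pb hz, neg_add_cancel, pb_zero]
      · rw [pb, if_neg hz, image_eq_zero_of_notMem_tsupport fun a => hz (h z a)]
  fam f hf := by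
    refine ⟨_, reg_open (Ap.in_dc hf), fun t ht z hz => ?_, fam (Ap.in_dc hf), fun t ht =>
      ⟨Ap.in_of (inn (Ap.in_dc hf) ht).1 ((inn (Ap.in_dc hf) ht).2.trans ?_),
        fun z => (der (Ap.in_dc hf)).deriv⟩⟩
    · have := mul_nonneg (mem_Ici.1 ht) (neg_pos.2 (show be z < 0 from hf.2.2 hz)).le
      rw [rh]
      linarith
    · rintro _ ⟨y, a, rfl⟩
      exact be_cph.trans_lt (div_neg_of_neg_of_pos (hf.2.2 a) (ht y a))

end

end Vale.Agent.P352X.EB
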