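import Vale.Agent.P352X.EB.Spec
import Vale.Agent.P352X.Api2b

/-!
# P352X, block EB, row CHN: the conformal images of `box g` and of `dv vb g`
-/

set_option linter.all false

open Filter Topology Set
open scoped ContDiff

namespace Vale.Agent.P352X.EB

open Vale.Agent.P352 Vale.Agent.P352.GF Vale.Agent.P352.H246 Vale.Agent.P352.H496
open Vale.Agent.P352X.Ap

namespace Chn

variable {t : ℝ} {g G : Fn} {z : V}

@[fun_prop] theorem sm_rh : ContDiff ℝ ∞ (rh t) := by unfold rh; fun_prop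

theorem mW : z ∈ W0 ↔ be z < 0 ∧ 0 < al z := by simp [Wdg, md_va, md_vb]

theorem hd_pt {a b : ℝ → ℝ} {u : ℝ → R2} {a' b' : ℝ} {u' : R2} (ha : HasDerivAt a a' 0)
    (hb : HasDerivAt b b' 0) (hu : HasDerivAt u u' 0) :
    HasDerivAt (fun s => pt (a s) (b s) (u s)) (pt a' b' u') 0 := by
  simp only [pt_eq]
  exact ((ha.smul_const va).add (hb.smul_const vb)).add (tvL.hasFDerivAt.comp_hasDerivAt 0 hu)

theorem hd_cph (hz : 0 < rh t z) (v : V) : HasDerivAt (fun s : ℝ => cph t (z + s • v))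
    (pt (al v - 2 * t * d2 (tx z) (tx v) / rh t z + 2 * t ^ 2 * d2 (tx z) (tx z) * be v / rh t z ^ 2)
      (be v / rh t z ^ 2) ((rh t z)⁻¹ • tx v - (2 * t * be v / rh t z ^ 2) • tx z)) 0 := by
  have l : HasDerivAt (fun s : ℝ => z + s • v) v 0 := by
    simpa using ((hasDerivAt_id (0 : ℝ)).smul_const v).const_add z
  have a : HasDerivAt (fun s : ℝ => al (z + s • v)) (al v) 0 := alL.hasFDerivAt.comp_hasDerivAt 0 l
  have b : HasDerivAt (fun s : ℝ => be (z + s • v)) (be v) 0 := beL.hasFDerivAt.comp_hasDerivAt 0 l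
  have x : HasDerivAt (fun s : ℝ => tx (z + s • v)) (tx v) 0 := txL.hasFDerivAt.comp_hasDerivAt 0 l
  have y := hasDerivAt_pi.1 x
  have r : HasDerivAt (fun s : ℝ => rh t (z + s • v)) (2 * t * be v) 0 :=
    (b.const_mul (2 * t)).const_add 1
  have r0 : rh t (z + (0 : ℝ) • v) ≠ 0 := by simpa using hz.ne'
  have d : HasDerivAt (fun s : ℝ => d2 (tx (z + s • v)) (tx (z + s • v)))
      (2 * d2 (tx z) (tx v)) 0 :=
    (((y 0).mul (y 0)).add ((y 1).mul (y 1))).congr_deriv (by simp [d2]; ring)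
  have hz' := hz.ne'
  refine hd_pt ((a.sub ((d.const_mul t).div r r0)).congr_deriv ?_) ((b.div r r0).congr_deriv ?_)
    (((r.inv r0).smul x).congr_deriv ?_)
  · simp only [zero_smul, add_zero]; field_simp; ring
  · simp only [zero_smul, add_zero]; field_simp; unfold rh; ring
  · simp only [zero_smul, add_zero, Pi.inv_apply, sub_eq_add_neg, neg_div, neg_smul]

/-- `G = g ∘ cph t` on the regular half space -/
structure R (t : ℝ) (g G : Fn) : Prop where
  sg : ContDiff ℝ ∞ g
  sG : ContDiff ℝ ∞ G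
  e : ∀ w, 0 < rh t w → G w = g (cph t w)

theorem R.ch (h : R t g G) (hz : 0 < rh t z) (v : V) : dv v G z =
    (al v - 2 * t * d2 (tx z) (tx v) / rh t z +
      2 * t ^ 2 * d2 (tx z) (tx z) * be v / rh t z ^ 2 : ℝ) * dv va g (cph t z) +
    (be v / rh t z ^ 2 : ℝ) * dv vb g (cph t z) +
    ∑ i, ((rh t z)⁻¹ * tx v i - 2 * t * be v / rh t z ^ 2 * tx z i : ℝ) * dv (ex i) g (cph t z) := by
  have d := (h.sg.differentiable (by simp) (cph t z)).hasFDerivAt
  have c : ContinuousAt (fun s : ℝ => rh t (z + s • v)) 0 :=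
    (sm_rh.continuous.comp (by fun_prop)).continuousAt
  rw [dv_of_hasDerivAt (h.sG.differentiable (by simp) z) ((d.comp_hasDerivAt_of_eq 0 (hd_cph hz v)
    (by simp)).congr_of_eventuallyEq ((c.eventually (lt_mem_nhds (by simpa using hz))).mono
      fun s hs => h.e _ hs)), ← dv_eq d.differentiableAt, dv_null]
  simp

theorem R.a (h : R t g G) : R t (dv va g) (dv va G) :=
  ⟨smooth_dv h.sg _, smooth_dv h.sG _, fun w hw => by simp [h.ch hw]⟩

theorem R.i (h : R t g G) (i : Fin 2) : R t (dv (ex i) g) fun w =>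
    (rh t w : ℝ) * dv (ex i) G w + (2 * t : ℝ) * ((tx w i : ℝ) * dv va G w) :=
  ⟨smooth_dv h.sg _, ((smooth_cx sm_rh).mul (smooth_dv h.sG _)).add (contDiff_const.mul
    ((smooth_cx (by fun_prop)).mul (smooth_dv h.sG _))), fun w hw => by
    have : (rh t w : ℂ) ≠ 0 := by exact_mod_cast hw.ne'
    rw [h.ch hw, h.a.e w hw, tx_ex, d2_e2]
    fin_cases i <;> simp [e2] <;> field_simp <;> ring⟩

theorem R.b (h : R t g G) (hz : 0 < rh t z) : dv vb g (cph t z) = (rh t z : ℝ) ^ 2 * dv vb G z +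
    2 * t * (rh t z : ℝ) * ∑ i, (tx z i : ℝ) * dv (ex i) G z +
    2 * t ^ 2 * (d2 (tx z) (tx z) : ℝ) * dv va G z := by
  have : (rh t z : ℂ) ≠ 0 := by exact_mod_cast hz.ne'
  have e := fun i => (h.i i).e z hz
  rw [h.ch hz vb, Fin.sum_univ_two, Fin.sum_univ_two, ← e, ← e, ← h.a.e z hz, tx_vb]
  simp [d2]
  field_simp
  ring

theorem dv_rh (v : V) : dv v (fun w => (rh t w : ℂ)) z = 2 * t * be v := by
  have : (fun w => (rh t w : ℂ)) = fun w => 1 + 2 * t * (be w : ℂ) := by funext w; simp [rh]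
  rw [this, dv_add (by fun_prop) ((smooth_cx smooth_be).differentiable (by simp) z |>.const_mul _),
    dv_const, dv_cmul, dv_be, zero_add]

theorem dv_rk {k : Fn} (hk : ContDiff ℝ ∞ k) (v : V) :
    dv v (fun w => (rh t w : ℂ) * k w) z = 2 * t * be v * k z + rh t z * dv v k z := by
  rw [dv_mul ((smooth_cx sm_rh).differentiable (by simp) z) (hk.differentiable (by simp) z), dv_rh]

theorem R.box (h : R t g G) (hz : 0 < rh t z) :
    box g (cph t z) = (rh t z : ℝ) ^ 2 * box G z - 4 * t * (rh t z : ℝ) * dv va G z := by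
  have d := fun v => (smooth_dv h.sG v).differentiable (by simp) z
  have x : ∀ i, DifferentiableAt ℝ (fun w => (tx w i : ℂ)) z := fun i =>
    (smooth_cx (by fun_prop)).differentiable (by simp) z
  have e : ∀ i v, dv v (fun w => (rh t w : ℝ) * dv (ex i) G w +
      (2 * t : ℝ) * ((tx w i : ℝ) * dv va G w)) z = 2 * t * be v * dv (ex i) G z +
      rh t z * dv v (dv (ex i) G) z + 2 * t * (tx v i * dv va G z + tx z i * dv v (dv va G) z) :=
    fun i v => by
    rw [dv_add (((smooth_cx sm_rh).differentiable (by simp) z).fun_mul (d _))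
      (((x i).fun_mul (d _)).const_mul _), dv_rk (smooth_dv h.sG _), dv_cmul, dv_mul (x i) (d _), dv_tx]
    simp
  have e1 := fun i => ((h.i i).i i).e z hz
  rw [box_eq h.sg, box_eq h.sG, dv_comm h.sg, h.a.b hz, dv_comm h.sG va vb]
  simp only [Fin.sum_univ_two, ← e1, e, dv_comm h.sG va (ex _), tx_ex, e2_self, tx_va]
  simp [d2]
  ring

theorem small {h : Fn} (hh : In W0 h) : ∃ t : ℝ, 0 < t ∧ ∀ z ∈ tsupport h, 0 < rh t z ∧
    t * d2 (tx z) (tx z) < al z * rh t z := by
  have : ∀ᶠ t : ℝ in 𝓝 0, ∀ z ∈ tsupport h, 0 < rh t z ∧ t * d2 (tx z) (tx z) < al z * rh t z := by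
    refine hh.2.1.isCompact.eventually_forall_of_forall_eventually fun z hz => ?_
    have c : Continuous fun p : ℝ × V => rh p.1 p.2 := by unfold rh; fun_prop
    exact (continuousAt_const.eventually_lt c.continuousAt (by simp [rh])).and
      (ContinuousAt.eventually_lt (by fun_prop) ((cont_al.comp continuous_snd).mul c).continuousAt
        (by simpa [rh] using (mW.1 (hh.2.2 hz)).2))
  obtain ⟨t, a, b⟩ := ((this.filter_mono nhdsWithin_le_nhds).and
    (self_mem_nhdsWithin (s := Ioi (0 : ℝ)))).exists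
  exact ⟨t, b, a⟩

theorem main (H : CH0) {h : Fn} (hh : In W0 h) : ∃ (t : ℝ) (g : Fn), 0 < t ∧ In W0 g ∧
    In W0 (fun w => (rh t w : ℂ) * h w) ∧ R t g (fun w => (rh t w : ℂ) * h w) ∧
    ∀ z ∈ tsupport h, 0 < rh t z := by
  obtain ⟨t, t0, ht⟩ := small hh
  have hG := in_rmul (sm_rh (t := t)) hh
  have s : tsupport (fun w => (rh t w : ℂ) * h w) ⊆ tsupport h := tsupport_mul_subset_right
  have r : Reg (-t) fun w => (rh t w : ℂ) * h w := fun z hz => by
    rw [neg_neg]; exact (ht z (s hz)).1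
  obtain ⟨a, b⟩ := H.inn 0 _ _ (in_univ' hG) r
  have c := (H.inv _ _ (in_univ' hG) r).2
  rw [neg_neg] at b c
  refine ⟨t, _, t0, ⟨a.1, a.2.1, b.trans ?_⟩, hG, ⟨sw_smooth a.1, sw_smooth hG.1, fun w hw => ?_⟩,
    fun z hz => (ht z hz).1⟩
  · rintro _ ⟨z, hz, rfl⟩
    obtain ⟨e1, e2⟩ := ht z (s hz)
    rw [mW, cph, be_pt, al_pt, sub_pos]
    exact ⟨div_neg_of_neg_of_pos (mW.1 (hh.2.2 (s hz))).1 e1, (div_lt_iff₀ e1).2 e2⟩
  · have := congrFun c w
    rw [pb, if_pos hw] at this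
    simpa using this.symm

theorem z0 {f k : Fn} (h : tsupport f ⊆ tsupport k) (hz : z ∉ tsupport k) : f z = 0 :=
  image_eq_zero_of_notMem_tsupport fun q => hz (h q)

end Chn

open Chn

theorem chn_row (H : CH0) : CHN where
  s1 h hh := by
    obtain ⟨t, g, t0, hg, hG, r, p⟩ := main H hh
    refine ⟨t, g, _, t0, hg, hG, funext fun z => ?_⟩
    unfold pb
    split_ifs with q
    · have : (rh t z : ℂ) ≠ 0 := by exact_mod_cast q.ne'
      rw [r.box q, dv_rk (sw_smooth hh.1)]
      simp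
      field_simp
    · have n := fun k => q (p z k)
      rw [z0 ((Ap.tsupport_box _).trans tsupport_mul_subset_right) n, z0 (tsupport_dv _ _) n]
      simp
  s2 k hk := by
    obtain ⟨t, g, t0, hg, hG, r, p⟩ := main H hk
    have sk := sw_smooth hk.1
    have u : ∀ z, 0 < rh t z →
        ContDiffAt ℝ ∞ (fun w => ((d2 (tx w) (tx w) / rh t w : ℝ) : ℂ)) z := fun z hz =>
      Complex.ofRealCLM.contDiff.contDiffAt.comp z
        (ContDiffAt.div (ContDiff.contDiffAt (by fun_prop)) sm_rh.contDiffAt hz.ne')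
    have s : tsupport (fun w => ((d2 (tx w) (tx w) / rh t w : ℝ) : ℂ) * k w) ⊆ tsupport k :=
      tsupport_mul_subset_right
    refine ⟨t, g, _, fun w => ((d2 (tx w) (tx w) / rh t w : ℝ) : ℂ) * k w, t0, hg, hG, in_of
      ⟨(contMDiff_of_tsupport fun z hz => ((u z (p z (s hz))).mul sk.contDiffAt).contMDiffAt).contDiff,
        hk.2.1.mul_left⟩
      (s.trans hk.2.2), funext fun z => ?_⟩
    unfold pb Eu
    split_ifs with q
    · have : (rh t z : ℂ) ≠ 0 := by exact_mod_cast q.ne'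
      have d := (u z q).differentiableAt (by simp)
      have e : dv va (fun w => ((d2 (tx w) (tx w) / rh t w : ℝ) : ℂ)) z = 0 :=
        dv_of_hasDerivAt d (by simpa [rh] using hasDerivAt_const (0 : ℝ) _)
      rw [r.b q, dv_mul d (sk.differentiable (by simp) z), e]
      simp only [dv_rk sk]
      simp [Finset.mul_sum]
      field_simp
    · have n := fun k => q (p z k)
      simp [z0 ((tsupport_dv _ _).trans tsupport_mul_subset_right) n, z0 (tsupport_dv _ k) n,
        z0 ((tsupport_dv _ _).trans s) n]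

end Vale.Agent.P352X.EB
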