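import Vale.Agent.P352X.EB.Spec
import Vale.Agent.P352X.EB.DEC.B

/-!
# P352X, row EB.dec
-/

namespace Vale.Agent.P352X.EB

theorem dec_row : DEC := Dec.main

end Vale.Agent.P352X.EB
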