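import Vale.Agent.P352X.Pub
import Vale.Agent.P352X.FSS.Defs
import Vale.Agent.P352.BW.T.TgDefs

namespace Vale.Agent.P352X

open Vale.Agent.P352.GF Vale.Agent.P352.BW Vale.Agent.P352.H246 Vale.Agent.P352.SubConf
open UniformSpace (Completion)

variable {D : Type*} [NormedAddCommGroup D] [InnerProductSpace ℂ D]

/-- A tensor multiplet of fields, of rank `k` and scaling dimension `d`. -/
def IsTc (Q : Theory D) (k : ℕ) (d : ℂ) (Φ : (Fin k → Ix) → Fld D) : Prop :=
  IsTf Q k Φ ∧ ∀ μ, Dim Q d (Φ μ)

/-- `B` is a component of a tensor multiplet with a scaling dimension. -/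
def Comp (Q : Theory D) (B : Fld D) : Prop := ∃ k d Φ μ, IsTc Q k d Φ ∧ B = Φ μ

/-- Every field is a finite sum of components of tensor multiplets with scaling dimensions. -/
def TdAll (Q : Theory D) : Prop := ∀ A, Q.fld A → ∃ (n : ℕ) (B : Fin n → Fld D),
  (∀ i, Comp Q (B i)) ∧ ∀ f v, IsTest f → A f v = ∑ i, B i f v

/-- **Polynomial energy bounds.** The smeared fields are bounded by a power of energy and momentum
that depends on the field only. -/
def EBd (Q : Theory D) : Prop := ∀ B, Q.fld B → ∃ k, ∀ f, In Set.univ f → ∃ C : ℝ, ∀ v,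
  ‖B f v‖ ≤ C * en Q k v

/-- The theory `Q'` extends the theory `Q` in the same Hilbert space: its domain `D'` is dense, the
vacuum and the representation of the similitudes are those of `Q`, and every field `B` of `Q` gives
a Bose field `e B` of `Q'`, which is a restriction of the adjoint of the formal adjoint of `B`, and
agrees with `B` on the intersection of the domains. -/
structure Ext (Q : Theory D) {D' : Submodule ℂ (Completion D)} (Q' : Theory D')
    (e : Fld D → Fld D') : Prop where
  dense : Dense (D' : Set (Completion D))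
  vac : (Q'.vac : Completion D) = om Q
  U : ∀ s L a v, 0 < s → IsLor L → (Q'.U s L a v : Completion D) = Ue Q s L a v
  fld : ∀ B, Q.fld B → Q'.bose (e B)
  adj : ∀ B B' f (v : D') (w : D), Q.fld B → IsAdj B B' → IsTest f →
    inner ℂ (e B f v : Completion D) (w : Completion D) =
      inner ℂ (v : Completion D) (B' (bar f) w : Completion D)
  agree : ∀ B f (v : D') (w : D), Q.fld B → IsTest f → (v : Completion D) = w →
    (e B f v : Completion D) = (B f w : D)

end Vale.Agent.P352X
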