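import Vale.Agent.P352X.Spec
import Vale.Agent.P352X.Api1P
import Vale.Agent.P352X.Api4
import Vale.Agent.P352X.EB.Pub

/-!
# P352X, block EB: vocabulary (see notes/P352/eb.md)
-/

set_option linter.all false

open MeasureTheory Filter Topology
open scoped SchwartzMap ComplexConjugate ContDiff

namespace Vale.Agent.P352X.EB

open Vale.Agent.P352 Vale.Agent.P352.GF Vale.Agent.P352.BW Vale.Agent.P352.H246
open Vale.Agent.P352.H496 Vale.Agent.P352.H755 Vale.Agent.P352.H15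
open Vale.Agent.P352.SubConf (IsAdj)
open Vale.Agent.P132 (ModData jconj)
open UniformSpace (Completion)
open Complex (I)

noncomputable section

/-! ## tame vectors -/

section tame

variable {H : Type*} [NormedAddCommGroup H] [InnerProductSpace ℂ H] [CompleteSpace H]

/-- superexponentially small sequences -/
def SE (ε : ℕ → ℝ) : Prop := ∀ r : ℝ, 0 < r → ∃ C : ℝ, ∀ n, ε n ≤ C * r ^ n

/-- `a n Ω → ξ` and `(a n)* Ω → ξ'` superexponentially fast -/
def Apx (Ω ξ ξ' : H) (a : ℕ → H →L[ℂ] H) : Prop :=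
  SE (fun n => ‖ξ - a n Ω‖) ∧ SE fun n => ‖ξ' - star (a n) Ω‖

/-- tame pairs -/
def Tm (M : VonNeumannAlgebra H) (Ω : H) (N : ℕ) (ξ ξ' : H) : Prop :=
  ∃ (C : ℝ) (a : ℕ → H →L[ℂ] H), (∀ n, a n ∈ M ∧ ‖a n‖ ≤ C * ((n : ℝ) + 1) ^ N) ∧ Apx Ω ξ ξ' a

/-- `a Ω` and `a* Ω` come from the commutant, with norm at most `κ` -/
def Mir (M : VonNeumannAlgebra H) (Ω : H) (a : H →L[ℂ] H) (κ : ℝ) : Prop :=
  ∃ a1 ∈ M.commutant, ∃ a2 ∈ M.commutant, a Ω = a1 Ω ∧ star a Ω = a2 Ω ∧ ‖a1‖ ≤ κ ∧ ‖a2‖ ≤ κ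

/-- smooth tame pairs of order `k` -/
def QT (M : VonNeumannAlgebra H) (Ω : H) (N k : ℕ) (ξ ξ' : H) : Prop :=
  ∃ (C : ℝ) (a h : ℕ → H →L[ℂ] H), 1 ≤ C ∧ (∀ n, a n ∈ M ∧ h n ∈ M ∧
    ‖a n‖ ≤ C * ((n : ℝ) + 1) ^ N ∧ ‖h n‖ ≤ C / ((n : ℝ) + 1) ^ k ∧ Mir M Ω (a n) (C ^ (n + 1))) ∧
    Apx Ω ξ ξ' fun n => a n + h n

/-- smooth tame pairs -/
def Stm (M : VonNeumannAlgebra H) (Ω ξ ξ' : H) : Prop := ∃ N, ∀ k, QT M Ω N k ξ ξ'

/-- `ζ` is the product of the pair `(ξ, ξ')` and `η` -/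
def Prd (M : VonNeumannAlgebra H) (Ω ξ' η ζ : H) : Prop :=
  ∀ x ∈ M.commutant, inner ℂ (x Ω) ζ = inner ℂ (x ξ') η

/-- `(η, ζ)` is in the closure of the graph of `b Ω ↦ b ξ` -/
def Core (M : VonNeumannAlgebra H) (Ω η ξ ζ : H) : Prop :=
  ∃ b : ℕ → H →L[ℂ] H, (∀ n, b n ∈ M.commutant) ∧ Tendsto (fun n => b n Ω) atTop (𝓝 η) ∧
    Tendsto (fun n => b n ξ) atTop (𝓝 ζ)

end tame

/-! ## test functions -/

/-- iterated partial derivatives -/
def pw (α : List Ix) (f : Fn) : Fn := α.foldr pd f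

/-- iterated partial derivatives, in Schwartz space -/
def dw (α : List Ix) (f : Sch) : Sch := α.foldr (fun m g => LineDeriv.lineDerivOp (bas m 1) g) f

/-- all functionals of `𝓛` are bounded by `C` on the translates of `g` -/
def Bp (𝓛 : Set (Sch →L[ℂ] ℂ)) (g : Sch) (C : ℝ) : Prop := ∀ Λ ∈ 𝓛, ∀ y, ‖Λ (ST.tsl y g)‖ ≤ C

/-- the standard bump: one on the closed unit ball, supported in the ball of radius two -/
def chi0 : ContDiffBump (0 : V) := ⟨1, 2, one_pos, one_lt_two⟩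

/-- `χ(x / (R + 1)) f(x)` -/
def cutf (R : ℕ) (f : Fn) : Fn := fun x => (chi0 (((R : ℝ) + 1)⁻¹ • x) : ℝ) * f x

/-- the conformal factor -/
def rh (t : ℝ) (z : V) : ℝ := 1 + 2 * t * be z

/-- the special conformal transformation `exp (-t cK va)`; `cph (-t)` is inverse to `cph t` -/
def cph (t : ℝ) (z : V) : V :=
  pt (al z - t * d2 (tx z) (tx z) / rh t z) (be z / rh t z) ((rh t z)⁻¹ • tx z)

/-- `rh ^ (-j) f ∘ cph t`, zero beyond the singular plane -/
def pb (j : ℕ) (t : ℝ) (f : Fn) : Fn := fun z =>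
  if 0 < rh t z then (((rh t z)⁻¹ ^ j : ℝ) : ℂ) * f (cph t z) else 0

/-- `cph (-t)` is regular on the support of `f` -/
def Reg (t : ℝ) (f : Fn) : Prop := ∀ z ∈ tsupport f, 0 < rh (-t) z

/-- the transverse Euler operator -/
def Eu (k : Fn) : Fn := fun z => ∑ i, (tx z i : ℝ) * dv (ex i) k z

/-! ## similitudes -/

/-- the group of similitudes -/
structure Sg where
  s : ℝ
  L : Ix → V
  a : V
  hs : 0 < s
  hL : IsLor L

/-- the standard wedge `be < 0 < al` -/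
abbrev W0 : Set V := Wdg va vb 0

/-- the opposite wedge -/
abbrev W1 : Set V := Wdg vb va 0

namespace Sg

def act (g : Sg) : V → V := sim g.s g.L g.a
def pull (g : Sg) (f : Fn) : Fn := fun x => f (g.act x)
def mul (g h : Sg) : Sg :=
  ⟨g.s * h.s, fun m => sim 1 g.L 0 (h.L m), sim g.s g.L g.a h.a, mul_pos g.hs h.hs,
    ue_lor g.hL h.hL⟩
def inv (g : Sg) : Sg :=
  ⟨g.s⁻¹, linv g.L, -sim g.s⁻¹ (linv g.L) 0 g.a, inv_pos.2 g.hs, isLor_linv g.hL⟩
/-- `g` moves `K` into the standard wedge -/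
def Adm (g : Sg) (K : Set V) : Prop := ∀ x ∈ K, g.act x ∈ W0
/-- the wedge opposite to the wedge that `g` moves to the standard wedge -/
def Op (g : Sg) : Set V := g.act ⁻¹' W1

end Sg

/-- `K` and `K'` are in opposite wedges, with a gap that reaches infinity -/
def SepK (K K' : Set V) : Prop := ∃ g g' : Sg, g.Adm K ∧ g'.Adm K' ∧ g'.act ⁻¹' W0 ⊆ g.Op ∧
  ∀ B, Bornology.IsBounded B → ∃ h : Sg, h.Adm B ∧ (h.Op ∩ g.Op ∩ g'.Op).Nonempty

variable {D : Type*} [NormedAddCommGroup D] [InnerProductSpace ℂ D]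

def Sg.U (g : Sg) (c : Ctx D) : Completion D →L[ℂ] Completion D := Ug c.Q g.s g.L g.a

/-! ## the local algebra of smooth tame vectors -/

section loc

variable (c : Ctx D)

abbrev M0 : VonNeumannAlgebra (Completion D) := c.N W0

/-- smooth tame in all wedges that contain `K` -/
def Loc (K : Set V) (ξ ξ' : Completion D) : Prop :=
  ∀ g : Sg, g.Adm K → Stm (M0 c) c.Om (g.U c ξ) (g.U c ξ')

/-- the product relation in all wedges that contain `K` -/
def Rl (K : Set V) (ξ' η ζ : Completion D) : Prop :=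
  ∀ g : Sg, g.Adm K → Prd (M0 c) c.Om (g.U c ξ') (g.U c η) (g.U c ζ)

open Classical in
/-- the product of the pair `(ξ, ξ')` and `η` -/
def ml (ξ' η : Completion D) : Completion D :=
  if h : ∃ ζ, ∃ K, Bornology.IsBounded K ∧ Rl c K ξ' η ζ then h.choose else 0

/-- local pairs -/
def Lp (ξ ξ' : Completion D) : Prop := ∃ K, Bornology.IsBounded K ∧ Loc c K ξ ξ'

/-- local vectors -/
def D1 (η : Completion D) : Prop := ∃ η', Lp c η η'

end loc

/-! ## letters and words -/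

/-- the letters: fields applied to the vacuum -/
structure Lt (c : Ctx D) (Λ : Type*) where
  dag : Λ → Λ
  φ : Λ → Fn → Completion D
  dag2 : ∀ a, dag (dag a) = a
  lin : ∀ a (f g : Fn) (z : ℂ), IsTest f → IsTest g →
    φ a (fun x => f x + z * g x) = φ a f + z • φ a g
  cont : ∀ a, Continuous fun g : Sch => φ a (ev g)
  st : ∀ a f, In W0 f → Stm (M0 c) c.Om (φ a f) (φ (dag a) (bar f))
  cov : ∀ a (g : Sg), ∃ (n : ℕ) (κ : Fin n → ℂ) (b : Fin n → Λ), ∀ f, IsTest f →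
    φ a f = ∑ i, κ i • g.U c (φ (b i) (g.pull f)) ∧
    φ (dag a) f = ∑ i, conj (κ i) • g.U c (φ (dag (b i)) (g.pull f))
  tra : ∀ a y f, IsTest f → φ a f = Ut c.Q y (φ a fun x => f (sim 1 GF.one y x))
  dil : ∀ a, ∃ e : ℕ, ∀ s : ℝ, 1 ≤ s → ∃ κ : ℂ, ‖κ‖ ≤ s ^ e ∧ ∀ f, IsTest f →
    φ a f = κ • Ug c.Q s GF.one 0 (φ a fun x => f (sim s GF.one 0 x))

variable {c : Ctx D} {Λ : Type*}

/-- words -/
abbrev Wd (Λ : Type*) := List (Λ × Fn)

/-- words of test functions -/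
def TW (u : Wd Λ) : Prop := ∀ p ∈ u, IsTest p.2

/-- words of test functions with compact support -/
def CW (u : Wd Λ) : Prop := ∀ p ∈ u, In Set.univ p.2

/-- the word of functions of a word of Schwartz functions -/
def evw (u : List (Λ × Sch)) : Wd Λ := u.map fun p => (p.1, ev p.2)

/-- all letters cut off -/
def cutw (R : ℕ) (u : Wd Λ) : Wd Λ := u.map fun p => (p.1, cutf R p.2)

/-- the product of the seminorms -/
def snw (m : ℕ) (u : List (Λ × Sch)) : ℝ := (u.map fun p => sn m p.2).prod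

namespace Lt

variable (x : Lt c Λ)

/-- the letter `a`, smeared with `f`, acting on local vectors -/
def op (a : Λ) (f : Fn) (v : Completion D) : Completion D := ml c (x.φ (x.dag a) (bar f)) v

/-- words acting on local vectors -/
def ap (u : Wd Λ) (v : Completion D) : Completion D := u.foldr (fun p w => x.op p.1 p.2 w) v

/-- words of Schwartz functions applied to the vacuum -/
def W (u : Wd Λ) : Completion D := limUnder atTop fun R : ℕ => x.ap (cutw R u) c.Om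

/-- the new domain -/
def Dn : Submodule ℂ (Completion D) := Submodule.span ℂ {z | ∃ u, TW u ∧ z = x.W u}

open Classical in
/-- the new fields -/
def o (a : Λ) : Fld x.Dn := fun f v =>
  if h : IsTest f ∧ ∃ z : x.Dn, ∀ u, TW u → inner ℂ (z : Completion D) (x.W u) =
    inner ℂ (v : Completion D) (x.W ((x.dag a, bar f) :: u)) then h.2.choose else 0

open Classical in
/-- the similitudes on the new domain -/
def Ud (s : ℝ) (L : Ix → V) (a : V) (v : x.Dn) : x.Dn :=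
  if h : Ug c.Q s L a v ∈ x.Dn then ⟨_, h⟩ else v

/-- the covariance relation of the adjoint letters, on the vacuum -/
def Cv (a : Λ) (g : Sg) {n : ℕ} (κ : Fin n → ℂ) (b : Fin n → Λ) : Prop := ∀ f, IsTest f →
  x.φ (x.dag a) f = ∑ i, conj (κ i) • g.U c (x.φ (x.dag (b i)) (g.pull f))

/-- the letter `a` is the field `B` with adjoint `B'` -/
def Is (a : Λ) (B B' : Fld D) : Prop := c.Q.fld B ∧ c.Q.fld B' ∧ IsAdj B B' ∧
  ∀ f, IsTest f → x.φ a f = (B f c.Q.vac : D) ∧ x.φ (x.dag a) f = (B' f c.Q.vac : D)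

/-- finite sums of new fields with labels in `P` -/
def Fs (P : Λ → Prop) (B : Fld x.Dn) : Prop := ∃ (n : ℕ) (b : Fin n → Λ), (∀ i, P (b i)) ∧
  B = fun f v => ∑ i, x.o (b i) f v

end Lt

/-- the labels: the components of tensor multiplets with their adjoints, and the potential -/
def Lab (Q : Theory D) : Type _ :=
  Option {p : Fld D × Fld D // Comp Q p.1 ∧ Comp Q p.2 ∧ IsAdj p.1 p.2 ∧ IsAdj p.2 p.1}

end

end Vale.Agent.P352X.EB
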