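import Vale.Agent.P352X.EB.Spec
import Vale.Agent.P352X.Api2b
import Vale.Agent.P352.H746.Chg2

/-!
# P352X, block EB, row FIN: the extension with the local potential
-/

set_option linter.all false

open MeasureTheory Filter Topology
open scoped SchwartzMap ComplexConjugate ContDiff

namespace Vale.Agent.P352X.EB

open Vale.Agent.P352 Vale.Agent.P352.GF Vale.Agent.P352.BW Vale.Agent.P352.H246
open Vale.Agent.P352.H496 Vale.Agent.P352.H755 Vale.Agent.P352.H15
open Vale.Agent.P352.SubConf (IsAdj)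
open UniformSpace (Completion)

noncomputable section

variable {D : Type*} [NormedAddCommGroup D] [InnerProductSpace ℂ D] {c : Ctx D}

namespace Fin'

/-- the labels of fields -/
abbrev Lb (Q : Theory D) :=
  {p : Fld D × Fld D // Comp Q p.1 ∧ Comp Q p.2 ∧ IsAdj p.1 p.2 ∧ IsAdj p.2 p.1}

lemma ext_D {z z' : Completion D} (h : ∀ w : D, inner ℂ z (w : Completion D) = inner ℂ z' w) :
    z = z' :=
  Completion.denseRange_coe.eq_of_inner_left ℂ h

lemma coe_sum {ι : Type*} (s : Finset ι) (v : ι → D) :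
    ((∑ i ∈ s, v i : D) : Completion D) = ∑ i ∈ s, (v i : Completion D) :=
  map_sum (Completion.toComplL : D →L[ℂ] Completion D) v s

/-- the d'Alembertian on Schwartz space -/
lemma box_clm : ∃ P : Sch →L[ℂ] Sch, ∀ f, ev (P f) = box (ev f) := by
  refine ⟨∑ m, (eta m : ℂ) • ((LineDeriv.lineDerivOpCLM ℂ Sch (bas m 1)).comp
    (LineDeriv.lineDerivOpCLM ℂ Sch (bas m 1))), fun f => funext fun z => ?_⟩
  have h : ∀ (g : Sch) m, pd m (ev g) = ev (LineDeriv.lineDerivOp (bas m 1) g) := fun g m =>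
    funext fun x => Ap.pd_eq (g.differentiable x) m
  simp only [box, h]
  simp only [ev, ContinuousLinearMap.sum_apply, ContinuousLinearMap.smul_apply,
    ContinuousLinearMap.comp_apply, SchwartzMap.sum_apply, SchwartzMap.smul_apply, smul_eq_mul]
  rfl

variable (x : Lt c (Lab c.Q))

/-- a decomposition of the field `B` into letters -/
def Dec (B : Fld D) (q : Σ n : ℕ, Fin n → Lb c.Q) : Prop :=
  ∀ f v, IsTest f → B f v = ∑ i, (q.2 i).1.1 f v

open Classical in
def dec (Q : Theory D) (B : Fld D) : Σ n : ℕ, Fin n → Lb Q :=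
  if h : ∃ q : Σ n : ℕ, Fin n → Lb Q, ∀ f v, IsTest f → B f v = ∑ i, (q.2 i).1.1 f v then h.choose
  else ⟨0, Fin.elim0⟩

/-- the extension of the field `B` -/
def ee (B : Fld D) : Fld x.Dn := fun f v => ∑ i, x.o (some ((dec c.Q B).2 i)) f v

variable {x}

lemma dec_spec (hD : TdAll c.Q) (h3 : ∀ B, Comp c.Q B → ∃ p : Lb c.Q, p.1.1 = B) {B : Fld D}
    (hB : c.Q.fld B) : ∀ f v, IsTest f → B f v = ∑ i, ((dec c.Q B).2 i).1.1 f v := by
  have h : ∃ q : Σ n : ℕ, Fin n → Lb c.Q, ∀ f v, IsTest f → B f v = ∑ i, (q.2 i).1.1 f v := by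
    obtain ⟨n, A, hA, e⟩ := hD B hB
    choose p hp using fun i => h3 _ (hA i)
    exact ⟨⟨n, p⟩, by simpa only [hp] using e⟩
  rw [dec, dif_pos h]
  exact h.choose_spec

end Fin'

open Fin'

theorem fin_of (t : E0 c) (x : Lt c (Lab c.Q)) (h0 : x.dag none = none) (h1 : x.φ none = c.l)
    (h2 : ∀ p, x.Is (some p) p.1.1 p.1.2 ∧ x.dag (some p) ≠ none)
    (h3 : ∀ B, Comp c.Q B → ∃ p : Lb c.Q, p.1.1 = B) (w : WP x) (F : FS x) (V' : CV x)
    (r : REC x) : FIN c := by
  intro hD
  have G := t.grp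
  have sp := @dec_spec D _ _ c hD h3
  have adj : ∀ B B' f (v : x.Dn) (u : D), c.Q.fld B → IsAdj B B' → IsTest f →
      inner ℂ (ee x B f v : Completion D) (u : Completion D) =
        inner ℂ (v : Completion D) (B' (bar f) u : Completion D) := by
    intro B B' f v u hB hA hf
    have e : B' (bar f) u = ∑ i, ((dec c.Q B).2 i).1.2 (bar f) u :=
      ext_inner_left ℂ fun y => by
        rw [← hA f y u hf, sp hB f y hf, sum_inner, inner_sum]
        exact Finset.sum_congr rfl fun i _ => ((dec c.Q B).2 i).2.2.2.1 f y u hf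
    rw [e, coe_sum, inner_sum, ee, Submodule.coe_sum, sum_inner]
    exact Finset.sum_congr rfl fun i _ => F.aff _ _ _ f v u (h2 _).1 hf
  have agree : ∀ B f (v : x.Dn) (u : D), c.Q.fld B → IsTest f → (v : Completion D) = u →
      (ee x B f v : Completion D) = (B f u : D) := by
    intro B f v u hB hf e
    obtain ⟨B', -, hA⟩ := c.Q.adj B hB
    refine ext_D fun y => ?_
    rw [adj B B' f v y hB hA hf, e, Completion.inner_coe, Completion.inner_coe, hA f u y hf]
  have cyc : ∀ S : Submodule ℂ x.Dn, (∀ v : x.Dn, (v : Completion D) = c.Om → v ∈ S) →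
      (∀ p f v, IsTest f → v ∈ S → x.o (some p) f v ∈ S) →
      Dense (Subtype.val '' (S : Set x.Dn)) := by
    intro S a1 a2
    have d := c.Q.cyclic ((S.map x.Dn.subtype).comap
      (Completion.toComplL : D →L[ℂ] Completion D).toLinearMap)
      ⟨⟨c.Om, F.vac⟩, a1 _ rfl, rfl⟩ (by
        rintro B f u hB hf ⟨v, hv, e⟩
        exact ⟨ee x B f v, S.sum_mem fun i _ => a2 _ f v hf hv, agree B f v u hB hf e⟩)
    exact (Completion.denseRange_coe.dense_image (Completion.continuous_coe D) d).mono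
      (by rintro _ ⟨u, ⟨v, hv, e⟩, rfl⟩; exact ⟨v, hv, e⟩)
  have cyc' : ∀ P : Lab c.Q → Prop, (∀ p, P (some p)) → ∀ S : Submodule ℂ x.Dn,
      (∀ v : x.Dn, (v : Completion D) = c.Om → v ∈ S) →
      (∀ a f v, P a → IsTest f → v ∈ S → x.o a f v ∈ S) → Dense (S : Set x.Dn) :=
    fun P hP S a1 a2 v => by
      rw [closure_subtype]
      exact cyc S a1 (fun p f v hf hv => a2 _ f v (hP p) hf hv) _
  have den : Dense (x.Dn : Set (Completion D)) :=
    (cyc ⊤ (fun _ _ => trivial) fun _ _ _ _ _ => trivial).mono (by rintro _ ⟨v, -, rfl⟩; exact v.2)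
  have ud : ∀ s L a (v : x.Dn), 0 < s → IsLor L →
      (x.Ud s L a v : Completion D) = Ug c.Q s L a v := fun s L a v hs hL => by
    rw [Lt.Ud, dif_pos (show Ug c.Q s L a v ∈ x.Dn from V'.mem ⟨s, L, a, hs, hL⟩ _ v.2)]
  have ex : ∀ (P : Lab c.Q → Prop) (Q' : Theory x.Dn), (∀ p, P (some p)) →
      (Q'.vac : Completion D) = c.Om → Q'.U = x.Ud → (∀ B, Q'.bose B ↔ x.Fs P B) →
      Ext c.Q Q' (ee x) := fun P Q' hP a1 a2 a3 =>
    ⟨den, a1, fun s L a v hs hL => by rw [a2, ud s L a v hs hL, Ug_apply _ hs hL],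
      fun B _ => (a3 _).2 ⟨_, _, fun i => hP _, rfl⟩, adj, agree⟩
  obtain ⟨Q0, a1, a2, a3, a4⟩ := r (· ≠ none) (fun a ha => by
    cases a with
    | none => exact absurd rfl ha
    | some p => exact (h2 p).2) (cyc' _ fun p => Option.some_ne_none p)
  obtain ⟨Q1, b1, b2, b3, b4⟩ := r (fun _ => True) (fun _ _ => trivial) (cyc' _ fun _ => trivial)
  have s0 := t.str c.Q c.A c.T x.Dn Q0 (ee x) c.hN.toRep c.hT
    (ex _ Q0 (fun p => Option.some_ne_none p) a1 a2 a4) fun A hA => by
      obtain ⟨n, b, hb, rfl⟩ := (a3 A).1 hA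
      choose p hp using fun i => Option.ne_none_iff_exists'.1 (hb i)
      refine ⟨n, fun i => (p i).1.1, fun i => (h2 (p i)).1.1, fun f v hf => ?_⟩
      refine Finset.sum_congr rfl fun i _ => Subtype.ext (ext_D fun y => ?_)
      rw [hp, F.aff _ _ _ f v y (h2 _).1 hf, adj _ _ f v y (h2 _).1.1 (p i).2.2.2.1 hf]
  have enl : IsEnl Q0 Q1 := ⟨Subtype.ext (b1.trans a1.symm), b2.trans a2.symm,
    fun A hA => (b3 A).2 (((a3 A).1 hA).imp fun n h => h.imp fun b h => ⟨fun _ => trivial, h.2⟩),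
    fun A hA => (b4 A).2 (((a4 A).1 hA).imp fun n h => h.imp fun b h => ⟨fun _ => trivial, h.2⟩)⟩
  refine ⟨x.Dn, Q1, ee x, x.o none, ex _ Q1 (fun _ => trivial) b1 b2 b4,
    H746.isStress_enl enl s0, ⟨(b4 _).2 ⟨1, fun _ => none, fun _ => trivial, ?_⟩, ?_, ?_⟩, ?_⟩
  · funext f v
    simp
  · have := F.herm none
    rwa [h0] at this
  · intro s L a f v hs hL hf
    apply Subtype.ext
    have := V'.cov none ⟨s, L, a, hs, hL⟩ 1 (fun _ => ((s ^ 2 : ℝ) : ℂ)) (fun _ => none) f v
      (x.Ud s L a v) (fun g hg => by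
        have := G.pot s L a g hs hL hg
        simp only [h0, h1, Finset.univ_unique, Finset.sum_singleton, Complex.conj_ofReal]
        show _ = _ • Ug c.Q s L a (c.l fun y => g (sim s L a y))
        rw [this, Complex.coe_smul, smul_smul, mul_inv_cancel₀ (pow_pos hs 2).ne', one_smul])
      hf (ud s L a v hs hL)
    rw [b2, this, Submodule.coe_smul, ud _ _ _ _ hs hL]
    simp only [Finset.univ_unique, Finset.sum_singleton]
    rw [show (4 - 2 : ℝ) = (2 : ℕ) by norm_num, Real.rpow_natCast]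
    rfl
  · have hc : ∀ f v, In Set.univ f →
        GF.tr (fun m n => ee x (c.T m n)) f v = (3 : ℂ) • x.o none (box f) v := by
      intro f v hf
      let ι := Option (Σ m : Ix, Fin (dec c.Q (c.T m m)).1)
      let κ : ι → ℂ := fun i => i.elim (-3) fun j => eta j.1
      let b : ι → Lab c.Q := fun i => i.elim none fun j => some ((dec c.Q (c.T j.1 j.1)).2 j.2)
      let g : ι → Fn := fun i => i.elim (box f) fun _ => f
      let e := (Fintype.equivFin ι).symm
      have z := V'.zero _ (fun i => κ (e i)) (fun i => b (e i)) (fun i => g (e i)) v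
        (fun i => by
          cases h : e i with
          | none => exact Ap.in_box hf
          | some j => exact hf) (by
          rw [e.sum_comp fun i => κ i • x.φ (b i) (g i), Fintype.sum_option, Fintype.sum_sigma]
          simp only [κ, b, g, Option.elim, h1, neg_smul, c.hl.trace f hf.1, GF.tr, coe_sum,
            Completion.coe_smul, ← Finset.smul_sum]
          rw [neg_add_eq_zero]
          refine Finset.sum_congr rfl fun m _ => congrArg _ ?_
          rw [sp (c.Q.bose_fld _ (c.hT.bose m m)) f _ hf.1, coe_sum]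
          exact Finset.sum_congr rfl fun i _ => ((h2 _).1.2.2.2 f hf.1).1.symm)
      rw [e.sum_comp fun i => κ i • x.o (b i) (g i) v, Fintype.sum_option, Fintype.sum_sigma] at z
      simp only [κ, b, g, Option.elim, neg_smul, ← Finset.smul_sum] at z
      exact (neg_add_eq_zero.1 z).symm
    rintro _ v ⟨f, rfl⟩
    obtain ⟨P, hP⟩ := box_clm
    obtain ⟨-, u, -, -, u2, -, u4⟩ := ST.exists_cut f
    have c1 : Continuous fun g : Sch => GF.tr (fun m n => ee x (c.T m n)) (ev g) v :=
      continuous_finset_sum _ fun m _ =>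
        (continuous_finset_sum _ fun i _ => F.cont (some ((dec c.Q (c.T m m)).2 i)) v).const_smul
          (eta m : ℂ)
    have c2 : Continuous fun g : Sch => (3 : ℂ) • x.o none (box (ev g)) v := by
      simp only [← hP]
      exact ((F.cont none v).comp P.continuous).const_smul (3 : ℂ)
    exact tendsto_nhds_unique ((c1.tendsto f).comp u4) (((c2.tendsto f).comp u4).congr
      fun n => (hc _ v ⟨⟨u n, rfl⟩, u2 n, Set.subset_univ _⟩).symm)

end

end Vale.Agent.P352X.EB
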