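import Vale.Agent.P352X.EB.CH0
import Vale.Agent.P352X.Api1C

/-!
# P352X, block EB, row FLOW: the finite action of `exp (i t K)` on the potential
-/

set_option linter.all false

open Filter Topology Set

namespace Vale.Agent.P352X.EB

open Vale.Agent.P352.GF
open UniformSpace (Completion)

variable {D : Type*} [NormedAddCommGroup D] [InnerProductSpace ℂ D] {c : Ctx D}

theorem Flow.clm (c : Ctx D) : ∃ L : Sch →L[ℂ] Completion D, ∀ g, L g = c.l (ev g) := by
  have k : ∀ (f g : Sch) (a : ℂ), c.l (ev (f + a • g)) = c.l (ev f) + a • c.l (ev g) :=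
    fun f g a => c.hl.lin (ev f) (ev g) a ⟨f, rfl⟩ ⟨g, rfl⟩
  have k0 : c.l (ev 0) = 0 := by simpa using k 0 0 1
  exact ⟨⟨⟨⟨fun g => c.l (ev g), fun f g => by simpa using k f g 1⟩,
    fun a f => by simpa [k0] using k 0 f a⟩, c.hl.cont⟩, fun _ => rfl⟩

theorem flow_row (t : E0 c) : FLOW c := by
  intro f s hf hs
  obtain ⟨U, -, u1, u2, u3⟩ := t.ch0.fam f hf
  obtain ⟨L, hL⟩ := Flow.clm c
  have d : ∀ r ∈ Ici (0 : ℝ), HasDerivAt (fun r => c.SK (-r) (L (sch (pb 2 r f)))) 0 r :=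
    fun r hr => by
    obtain ⟨a, b⟩ := u3 r (u1 hr)
    have h := u2.hasDerivAt L (u1 hr)
    rw [funext b, hL, Ap.ev_sch (Ap.in_Kc 2 a).1] at h
    refine (c.ugK.hasDerivAt_comp (hasDerivAt_neg r) h
      ((t.g1.pot _ a).cast (by rw [hL, Ap.ev_sch a.1]) rfl)).congr_deriv ?_
    rw [map_smul, I_neg_I, neg_one_smul, neg_add_cancel]
  have e := constant_of_has_deriv_right_zero
    (fun r hr => (d r hr.1).continuousAt.continuousWithinAt)
    (fun r hr => (d r hr.1).hasDerivWithinAt) s (right_mem_Icc.2 hs)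
  rw [hL, hL, Ap.ev_sch (u3 s (u1 hs)).1.1, neg_zero, Ch0.pb_zero, Ap.ev_sch hf.1, c.ugK.zero] at e
  rw [← e, ← c.ugK.add, add_neg_cancel, c.ugK.zero]

end Vale.Agent.P352X.EB
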