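import Vale.Agent.P352X.EB.SG
import Vale.Agent.P352X.R.JC.A2

/-!
# P352X, block EB, row GEO: chains of wedges, separation by wedges
-/

set_option linter.all false

open Filter Topology

namespace Vale.Agent.P352X.EB

open Vale.Agent.P352 Vale.Agent.P352.GF Vale.Agent.P352.BW Vale.Agent.P352.H246
open Vale.Agent.P352.H496 Vale.Agent.P352.H755 Vale.Agent.P352.H15
open Bornology (IsBounded)

namespace Geo

/-- the two wedges of `g` in terms of null normals and offsets -/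
def Rp (g : Sg) (a b : V) (α β : ℝ) : Prop := ∀ z,
  (g.act z ∈ W0 ↔ GF.mdot a z < α ∧ β < GF.mdot b z) ∧
    (z ∈ g.Op ↔ GF.mdot b z < β ∧ α < GF.mdot a z)

variable {a b a' : V}

lemma null_smul (ha : IsNull a) {s : ℝ} (hs : 0 < s) : IsNull (s • a) :=
  ⟨by rw [md_smul, md_smul_l, ha.1, mul_zero, mul_zero], mul_pos hs ha.2⟩

lemma of_g (g : Sg) : ∃ a b α β, IsNull a ∧ IsNull b ∧ 0 < GF.mdot a b ∧ Rp g a b α β := by
  have e : ∀ v z, GF.mdot v (g.act z - 0) =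
      GF.mdot (g.s • sim 1 (linv g.L) 0 v) z + GF.mdot v g.a := fun v z => by
    rw [sub_zero, g.act_eq, md_add, md_smul, md_smul_l, md_lor' _ _ g.hL]
  have l := isLor_linv g.hL
  refine ⟨_, _, -GF.mdot va g.a, -GF.mdot vb g.a, null_smul (isNull_lor l null_va) g.hs,
    null_smul (isNull_lor l null_vb) g.hs, ?_, fun z => ⟨?_, ?_⟩⟩
  · rw [md_smul, md_smul_l, md_LL l, md_ab, mul_one]
    exact mul_pos g.hs g.hs
  · show _ ∧ _ ↔ _
    rw [e, e]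
    exact and_congr ⟨fun h => by linarith, fun h => by linarith⟩
      ⟨fun h => by linarith, fun h => by linarith⟩
  · show _ ∧ _ ↔ _
    rw [e, e]
    exact and_congr ⟨fun h => by linarith, fun h => by linarith⟩
      ⟨fun h => by linarith, fun h => by linarith⟩

lemma ex_g (ha : IsNull a) (hb : IsNull b) (h : 0 < GF.mdot a b) (α β : ℝ) :
    ∃ g, Rp g a b α β := by
  obtain ⟨L, hL, h1⟩ := JCa.trans ha hb h
  obtain ⟨y, e1, e2⟩ : ∃ y, GF.mdot a y = α ∧ GF.mdot b y = β :=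
    ⟨(β / GF.mdot a b) • a + (α / GF.mdot a b) • b,
      by rw [md_add, md_smul, md_smul, ha.1, mul_zero, zero_add, div_mul_cancel₀ _ h.ne'],
      by rw [md_add, md_smul, md_smul, hb.1, mul_zero, add_zero, md_comm b a,
        div_mul_cancel₀ _ h.ne']⟩
  let g : Sg := ⟨1, L, y, one_pos, hL⟩
  have e : ∀ (O : Set V) z, g.inv.act z ∈ O ↔ z ∈ sim 1 L y '' O := fun O z =>
    ⟨fun h => ⟨_, h, g.act_inv z⟩, fun ⟨w, h, e⟩ => by
      rw [← e]; exact (g.inv_act w).symm ▸ h⟩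
  refine ⟨g.inv, fun z => ⟨?_, ?_⟩⟩
  · rw [e, (h1 y).1]
    show _ ∧ _ ↔ _
    rw [md_sub, md_sub, e1, e2, sub_neg, sub_pos]
  · rw [Sg.Op, Set.mem_preimage, e, (h1 y).2]
    show _ ∧ _ ↔ _
    rw [md_sub, md_sub, e1, e2, sub_neg, sub_pos]

lemma ex_adm (ha : IsNull a) (hb : IsNull b) (h : 0 < GF.mdot a b) {K : Set V} (hK : IsBounded K) :
    ∃ g α β, Rp g a b α β ∧ g.Adm K := by
  obtain ⟨R, hR⟩ := ((mdL a).lipschitz.isBounded_image hK).subset_ball 0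
  obtain ⟨R', hR'⟩ := ((mdL b).lipschitz.isBounded_image hK).subset_ball 0
  obtain ⟨g, hg⟩ := ex_g ha hb h R (-R')
  exact ⟨g, _, _, hg, fun x hx => (hg x).1.2
    ⟨(abs_lt.1 (mem_ball_zero_iff.1 (hR ⟨x, hx, rfl⟩))).2,
      (abs_lt.1 (mem_ball_zero_iff.1 (hR' ⟨x, hx, rfl⟩))).1⟩⟩

lemma ev_lt {p : ℝ} (hp : 0 < p) (c β : ℝ) : ∀ᶠ μ in atTop, c - μ * p < β := by
  filter_upwards [eventually_gt_atTop ((c - β) / p)] with μ h
  linarith [(div_lt_iff₀ hp).1 h]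

lemma ev_gt {p : ℝ} (hp : 0 < p) (c β : ℝ) : ∀ᶠ μ in atTop, β < c + μ * p :=
  (ev_lt hp (-c) (-β)).mono fun _ h => by linarith

lemma md_time (a : V) (t : ℝ) : GF.mdot a (bas o t) = t * a o := by
  simp [mdot_eq, bas, o, mul_comm]

lemma same_a {g g' : Sg} {b' : V} {α β α' β' : ℝ} (ha : IsNull a) (h : 0 < GF.mdot a b)
    (h' : 0 < GF.mdot a b') (r : Rp g a b α β) (r' : Rp g' a b' α' β') :
    (g.Op ∩ g'.Op).Nonempty := by
  obtain ⟨t, h1, h2⟩ := ((ev_gt ha.2 0 α).and (ev_gt ha.2 0 α')).exists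
  obtain ⟨μ, h3, h4⟩ := ((ev_lt h (t * b o) β).and (ev_lt h' (t * b' o) β')).exists
  refine ⟨bas o t - μ • a, (r _).2.2 ⟨?_, ?_⟩, (r' _).2.2 ⟨?_, ?_⟩⟩ <;>
    simp only [md_sub, md_smul, md_time, ha.1, md_comm _ a] <;> linarith

lemma same_b {g g' : Sg} {α β α' β' : ℝ} (hb : IsNull b) (h : 0 < GF.mdot a b)
    (h' : 0 < GF.mdot a' b) (r : Rp g a b α β) (r' : Rp g' a' b α' β') :
    (g.Op ∩ g'.Op).Nonempty := by
  obtain ⟨t, h1, h2⟩ := ((ev_lt hb.2 0 β).and (ev_lt hb.2 0 β')).exists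
  obtain ⟨μ, h3, h4⟩ := ((ev_gt h (-(t * a o)) α).and (ev_gt h' (-(t * a' o)) α')).exists
  refine ⟨μ • b - bas o t, (r _).2.2 ⟨?_, ?_⟩, (r' _).2.2 ⟨?_, ?_⟩⟩ <;>
    simp only [md_sub, md_smul, md_time, hb.1] <;> linarith

lemma ex_null (ha : IsNull a) (hb : IsNull b) (h : 0 < GF.mdot a b) (ha' : IsNull a') :
    ∃ c, IsNull c ∧ 0 < GF.mdot a c ∧ 0 < GF.mdot a' c := by
  obtain ⟨L, s, t, hL, hs, -, e, -⟩ := JCa.rl ha hb h
  obtain ⟨c, h1, h2, h3⟩ := JCa.ex_null (isNull_lor (isLor_linv hL) ha')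
  refine ⟨_, isNull_lor hL h1, ?_, by rwa [md_lor' _ _ hL]⟩
  rwa [← md_LL hL, e, md_smul_l, mul_pos_iff_of_pos_left hs] at h2

lemma ex_perp (ha : IsNull a) (hb : IsNull b) (h : 0 < GF.mdot a b) :
    ∃ e, GF.mdot a e = 0 ∧ GF.mdot b e = 0 ∧ GF.mdot e e = -1 := by
  obtain ⟨L, s, t, hL, hs, ht, e1, e2⟩ := JCa.rl ha hb h
  have h1 := md_LL hL va (bas 2 1)
  have h2 := md_LL hL vb (bas 2 1)
  rw [e1, md_smul_l] at h1
  rw [e2, md_smul_l] at h2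
  refine ⟨sim 1 L 0 (bas 2 1), (mul_eq_zero.1 (h1.trans ?_)).resolve_left hs.ne',
    (mul_eq_zero.1 (h2.trans ?_)).resolve_left ht.ne', (md_LL hL _ _).trans ?_⟩ <;>
    simp [mdot_eq, bas, va, vb]

lemma ex_pair {d : V} (h : GF.mdot d d < 0) : ∃ a b, IsNull a ∧ IsNull b ∧ 0 < GF.mdot a b ∧
    0 < GF.mdot a d ∧ GF.mdot b d < 0 := by
  rw [mdot_eq] at h
  obtain ⟨ρ, h0, h1⟩ : ∃ ρ : ℝ, 0 < ρ ∧ ρ * ρ = d 1 * d 1 + d 2 * d 2 + d 3 * d 3 :=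
    ⟨_, Real.sqrt_pos.2 (by nlinarith [mul_self_nonneg (d 0)]),
      Real.mul_self_sqrt (by nlinarith [mul_self_nonneg (d 0)])⟩
  have h2 := abs_lt.1 (abs_lt_of_sq_lt_sq (a := d 0) (by nlinarith) h0.le)
  refine ⟨![ρ, -d 1, -d 2, -d 3], ![ρ, d 1, d 2, d 3], ⟨?_, h0⟩, ⟨?_, h0⟩, ?_, ?_, ?_⟩ <;>
    simp [mdot_eq] <;> nlinarith [mul_pos h0 h0, mul_pos h0 (sub_pos.2 h2.1),
      mul_pos h0 (sub_pos.2 h2.2)]

end Geo

open Geo in
theorem geo_row : GEO where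
  chain K g1 g2 hK _ _ := by
    obtain ⟨a1, b1, α1, β1, n1, n2, n3, r1⟩ := of_g g1
    obtain ⟨a2, b2, α2, β2, m1, m2, m3, r2⟩ := of_g g2
    obtain ⟨c, h1, h2, h3⟩ := ex_null n1 n2 n3 m1
    obtain ⟨g3, _, _, r3, k3⟩ := ex_adm n1 h1 h2 hK
    obtain ⟨g4, _, _, r4, k4⟩ := ex_adm m1 h1 h3 hK
    exact ⟨g3, g4, k3, k4, same_a n1 n3 h2 r1 r3, same_b h1 h2 h3 r3 r4, same_a m1 h3 m3 r4 r2⟩
  sep x y h := by
    obtain ⟨a, b, ha, hb, h1, h2, h3⟩ := ex_pair h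
    rw [md_sub] at h2 h3
    obtain ⟨g, r⟩ := ex_g hb ha (by rwa [md_comm]) ((2 * GF.mdot b x + GF.mdot b y) / 3)
      ((2 * GF.mdot a x + GF.mdot a y) / 3)
    obtain ⟨g', r'⟩ := ex_g ha hb h1 ((GF.mdot a x + 2 * GF.mdot a y) / 3)
      ((GF.mdot b x + 2 * GF.mdot b y) / 3)
    have op : ∀ g : Sg, IsOpen (g.act ⁻¹' W0) := fun g => (open_Wdg _ _ _).preimage g.cont
    obtain ⟨ε, hε, k⟩ := Metric.isOpen_iff.1 (op g) x ((r x).1.2 ⟨by linarith, by linarith⟩)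
    obtain ⟨ε', hε', k'⟩ := Metric.isOpen_iff.1 (op g') y ((r' y).1.2 ⟨by linarith, by linarith⟩)
    refine ⟨min ε ε', lt_min hε hε', g, g',
      fun z hz => k (Metric.ball_subset_ball (min_le_left _ _) hz),
      fun z hz => k' (Metric.ball_subset_ball (min_le_right _ _) hz), fun z hz => ?_, fun B hB => ?_⟩
    · have := (r' z).1.1 hz
      exact (r z).2.2 ⟨by linarith [this.1], by linarith [this.2]⟩
    obtain ⟨e, e1, e2, e3⟩ := ex_perp ha hb h1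
    obtain ⟨u, u1, u2, u3⟩ : ∃ u, GF.mdot u u = 1 ∧ GF.mdot u e = 0 ∧ 0 < GF.mdot a u :=
      ⟨a + (2 * GF.mdot a b)⁻¹ • b, by
        simp only [md_add, md_add_l, md_smul, md_smul_l, ha.1, hb.1, md_comm b a]
        field_simp
        ring, by rw [md_add_l, md_smul_l, e1, e2, mul_zero, add_zero], by
        rw [md_add, md_smul, ha.1, zero_add]
        positivity⟩
    have n1 : GF.mdot (u - e) (u - e) = 0 := by
      simp only [md_sub, md_sub_l, md_comm e u, u1, u2, e3]; ring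
    have n2 : GF.mdot (u + e) (u + e) = 0 := by
      simp only [md_add, md_add_l, md_comm e u, u1, u2, e3]; ring
    obtain ⟨k, α, β, s, s'⟩ := ex_adm ⟨n1, null_pos ha n1 (by rw [md_sub, e1]; linarith)⟩
      ⟨n2, null_pos ha n2 (by rw [md_add, e1]; linarith)⟩
      (by simp only [md_add, md_sub_l, md_comm e u, u1, u2, e3]; norm_num) hB
    obtain ⟨μ, p1, p2⟩ := ((ev_lt one_pos (GF.mdot (u + e) ((1 / 2 : ℝ) • (x + y))) β).and
      (ev_gt one_pos (GF.mdot (u - e) ((1 / 2 : ℝ) • (x + y))) α)).exists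
    refine ⟨k, s', (1 / 2 : ℝ) • (x + y) + μ • e, ⟨(s _).2.2 ⟨?_, ?_⟩, (r _).2.2 ⟨?_, ?_⟩⟩,
      (r' _).2.2 ⟨?_, ?_⟩⟩
    · rw [md_add, md_smul _ μ, md_add_l e, u2, e3]; linarith
    · rw [md_add, md_smul _ μ, md_sub_l e, u2, e3]; linarith
    all_goals
      simp only [md_add, md_smul, e1, e2]
      linarith

end Vale.Agent.P352X.EB
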