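import Vale.Agent.P352X.EB.Spec
import Vale.Agent.P352X.Api3d
import Vale.Agent.P352X.Api2b

/-!
# P352X, block EB, row JL: the modular conjugation acts on the potential (helper24)
-/

set_option linter.all false

open MeasureTheory Filter Topology
open scoped SchwartzMap ComplexConjugate ContDiff

namespace Vale.Agent.P352X.EB

open Vale.Agent.P352 Vale.Agent.P352.GF Vale.Agent.P352.BW Vale.Agent.P352.H246
open Vale.Agent.P352.H496 Vale.Agent.P352.H755 Vale.Agent.P352.H15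
open UniformSpace (Completion)

noncomputable section

namespace Jl

/-- square integrable functions on the forward cone -/
abbrev LF := MeasureTheory.Lp ℂ 2 (volume.restrict Fc : Measure V)

/-- the reflected conjugate test function -/
def sg (f : Fn) : Fn := bar fun z => f (jr z)

theorem test_sg {f : Fn} (hf : IsTest f) : IsTest (sg f) := Ap.test_bar (test_conf conf_jr hf)

theorem ft_sg (f : Fn) (p : V) : ft (sg f) p = conj (ft f (jr (-p))) := by
  rw [sg, ft_bar, ft_jr]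

theorem conf_k : Conf (fun p : V => jr (-p)) 1 := by simpa using conf_jr.comp conf_neg

theorem mu_k (p : V) : mu (jr (-p)) = mu p := by simpa using conf_k.mu_map p

theorem sc_k : Sc (fun p : V => jr (-p)) (volume.restrict Fc) (volume.restrict Fc) 1 := by
  simpa using conf_k.scF fun p => by
    rw [mem_Fc, mem_Fc, mu_k, be_jr]
    simp [be, md_neg]

/-- the classes of `μ ft h` -/
def Y : Submodule ℂ LF where
  carrier := {x | ∃ h, IsTest h ∧ (fun p => ((mu p : ℝ) : ℂ) * ft h p) =ᵐ[volume.restrict Fc] x}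
  zero_mem' := ⟨ev 0, ⟨0, rfl⟩, by
    filter_upwards [MeasureTheory.Lp.coeFn_zero ℂ 2 (volume.restrict Fc : Measure V)] with p hp
    rw [hp]
    simp [ft, ev]⟩
  add_mem' := by
    rintro x y ⟨f, hf, e⟩ ⟨g, hg, e'⟩
    refine ⟨fun z => f z + g z, Ap.sw_add hf hg, ?_⟩
    filter_upwards [MeasureTheory.Lp.coeFn_add x y, e, e'] with p hp h1 h2
    rw [hp, Pi.add_apply, ← h1, ← h2, ft_add hf hg, mul_add]
  smul_mem' := by
    rintro a x ⟨f, hf, e⟩
    refine ⟨fun z => a * f z, Ap.sw_cmul a hf, ?_⟩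
    filter_upwards [MeasureTheory.Lp.coeFn_smul a x, e] with p hp h1
    rw [hp, Pi.smul_apply, ← h1, ft_mul, smul_eq_mul, mul_left_comm]

theorem mem_cl {f : Fn} (hf : IsTest f) (x : LF) (hx : ft f =ᵐ[volume.restrict Fc] x) :
    x ∈ closure (Y : Set LF) := by
  rw [← Submodule.topologicalClosure_coe, ← Submodule.orthogonal_orthogonal_eq_closure,
    SetLike.mem_coe, Submodule.mem_orthogonal']
  intro b hb
  obtain ⟨F, hF⟩ := test_ft hf
  have bd := FT.pol_bdd (μ := volume.restrict Fc) (g := fun p => ((mu p : ℝ) : ℂ)) (C := 4) (N := 2) F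
    (ae_of_all _ fun p => by
      rw [Complex.norm_real]
      exact (abs_mdot_le p p).trans (by nlinarith [norm_nonneg p]))
  have cF := cont_ft hf
  have m : MemLp (fun p => conj (((mu p : ℝ) : ℂ) * ft f p) * b p) 2 (volume.restrict Fc) := by
    refine (MeasureTheory.Lp.memLp b).of_le_mul (c := |4| * (2 ^ 2 * sn 2 F)) ?_ (bd.mono fun p hp => ?_)
    · exact (Complex.continuous_conj.comp (by fun_prop :
        Continuous fun p => ((mu p : ℝ) : ℂ) * ft f p)).aestronglyMeasurable.mul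
          (MeasureTheory.Lp.memLp b).1
    · rw [norm_mul, RCLike.norm_conj, ← hF]
      exact mul_le_mul_of_nonneg_right hp (norm_nonneg _)
  have z := ft_eq_zero meas_Fc m fun g hg => by
    obtain ⟨h, hh, e⟩ := exists_ft (test_mul (u := ft f) (hF ▸ F.hasTemperateGrowth) (test_ft hg.1))
    have k := (memLp_mu_ft hh Fc).coeFn_toLp
    have := (Submodule.mem_orthogonal _ _).1 hb ((memLp_mu_ft hh Fc).toLp _) ⟨h, hh, k.symm⟩
    rw [L2.inner_def] at this
    rw [← this]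
    refine integral_congr_ae (k.mono fun p hp => ?_)
    simp only [RCLike.inner_apply]
    rw [hp]
    simp only [e, map_mul]
    ring
  rw [L2.inner_def]
  refine integral_eq_zero_of_ae ?_
  filter_upwards [z, hx, ae_restrict_mem meas_Fc] with p h1 h2 h3
  have : ((mu p : ℝ) : ℂ) ≠ 0 := by exact_mod_cast ((mem_Fc p).1 h3).2.ne'
  simp only [map_mul, Complex.conj_ofReal, Pi.zero_apply, mul_assoc, mul_eq_zero, this,
    false_or] at h1
  rw [RCLike.inner_apply, ← h2, Pi.zero_apply, mul_eq_zero]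
  exact h1.symm

variable {D : Type*} [NormedAddCommGroup D] [InnerProductSpace ℂ D] {c : Ctx D}
  {ell : (V → ℂ) → Completion D} {c0 : ℝ}

theorem nrm (h : Ell c ell c0) {ψ : Fn} (hψ : MemLp ψ 2 (volume.restrict Fc)) :
    ((‖ell ψ‖ ^ 2 : ℝ) : ℂ) = c0 * ∫ p in Fc, conj (ψ p) * ψ p := by
  rw [← h.inn ψ ψ hψ hψ, inner_self_eq_norm_sq_to_K]
  norm_cast

theorem nrm_k (h : Ell c ell c0) {ψ ψ' : Fn} (hψ : MemLp ψ 2 (volume.restrict Fc))
    (hψ' : MemLp ψ' 2 (volume.restrict Fc)) (e : ∀ p, ψ' p = conj (ψ (jr (-p)))) :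
    ‖ell ψ'‖ = ‖ell ψ‖ := by
  have := sc_k.integral fun p => conj (ψ p) * ψ p
  rw [one_smul] at this
  have k : ((‖ell ψ'‖ ^ 2 : ℝ) : ℂ) = ((‖ell ψ‖ ^ 2 : ℝ) : ℂ) := by
    rw [nrm h hψ, nrm h hψ', ← this]
    simp only [e, Complex.conj_conj, mul_comm]
  exact (sq_eq_sq₀ (norm_nonneg _) (norm_nonneg _)).1 (by exact_mod_cast k)

theorem nrm_L (h : Ell c ell c0) {ψ : Fn} (x : LF) (hx : ψ =ᵐ[volume.restrict Fc] x) :
    ‖ell ψ‖ = Real.sqrt c0 * ‖x‖ := by
  have k : ((‖ell ψ‖ ^ 2 : ℝ) : ℂ) = ((c0 * ‖x‖ ^ 2 : ℝ) : ℂ) := by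
    rw [nrm h ((MeasureTheory.Lp.memLp x).ae_eq hx.symm), Complex.ofReal_mul]
    congr 1
    have := inner_self_eq_norm_sq_to_K (𝕜 := ℂ) x
    rw [L2.inner_def] at this
    refine (integral_congr_ae (hx.mono fun p hp => ?_)).trans (this.trans (by norm_cast))
    simp only [hp, RCLike.inner_apply, mul_comm]
  rw [← Real.sqrt_sq (norm_nonneg (ell ψ)), show ‖ell ψ‖ ^ 2 = c0 * ‖x‖ ^ 2 by exact_mod_cast k,
    Real.sqrt_mul h.nonneg, Real.sqrt_sq (norm_nonneg x)]

theorem J_th (j : JC c) {g : Fn} (hg : IsTest g) : c.J (c.Th g) = c.Th (sg g) := by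
  simp only [Ctx.Th, Ctx.Thf, GF.tr, ← Completion.coe_toComplL (𝕜 := ℂ), map_sum, map_smul]
  simp only [Completion.coe_toComplL]
  refine Finset.sum_congr rfl fun m _ => ?_
  have : sj m * sj m = 1 := by fin_cases m <;> simp [sj]
  rw [map_smulₛₗ, j.one m m g hg, this]
  simp [sg]

theorem J_mu (j : JC c) (h : Ell c ell c0) {g : Fn} (hg : IsTest g) :
    c.J (ell fun p => ((mu p : ℝ) : ℂ) * ft g p) = ell fun p => ((mu p : ℝ) : ℂ) * ft (sg g) p := by
  have := J_th j hg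
  rw [h.th g hg, h.th _ (test_sg hg), map_smulₛₗ, map_neg, map_ofNat] at this
  exact smul_right_injective _ (by norm_num) this

theorem est (j : JC c) (h : Ell c ell c0) {f : Fn} (hf : IsTest f) (x : LF)
    (hx : ft f =ᵐ[volume.restrict Fc] x) (y : LF) (hy : y ∈ Y) :
    ‖c.J (c.l f) - c.l (sg f)‖ ≤ 2 * Real.sqrt c0 * ‖x - y‖ := by
  obtain ⟨g, hg, e⟩ := hy
  have m {f g : Fn} (hf : IsTest f) (hg : IsTest g) :
      MemLp (fun p => ft f p + (-1) * (((mu p : ℝ) : ℂ) * ft g p)) 2 (volume.restrict Fc) :=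
    (memLp_ft hf Fc).add ((memLp_mu_ft hg Fc).const_mul _)
  have l {f g : Fn} (hf : IsTest f) (hg : IsTest g) :
      ell (fun p => ft f p + (-1) * (((mu p : ℝ) : ℂ) * ft g p)) =
        c.l f - ell fun p => ((mu p : ℝ) : ℂ) * ft g p := by
    rw [h.lin _ _ _ (memLp_ft hf Fc) (memLp_mu_ft hg Fc), h.pot f hf, neg_one_smul, sub_eq_add_neg]
  have n1 := nrm_L h (ψ := fun p => ft f p + (-1) * (((mu p : ℝ) : ℂ) * ft g p)) (x - y) (by
    filter_upwards [MeasureTheory.Lp.coeFn_sub x y, e, hx] with p h1 h2 h3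
    rw [h1, Pi.sub_apply, ← h2, ← h3]
    ring)
  have n2 := nrm_k h (m hf hg) (m (test_sg hf) (test_sg hg)) fun p => by
    simp [ft_sg, mu_k]
  rw [n1, l (test_sg hf) (test_sg hg), ← J_mu j h hg] at n2
  rw [l hf hg, ← c.J.norm_map, map_sub] at n1
  rw [norm_sub_rev] at n2
  have := norm_sub_le_norm_sub_add_norm_sub (c.J (c.l f))
    (c.J (ell fun p => ((mu p : ℝ) : ℂ) * ft g p)) (c.l (sg f))
  linarith

end Jl

open Jl in
theorem jl_row {D : Type*} [NormedAddCommGroup D] [InnerProductSpace ℂ D] {c : Ctx D}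
    (t : E0 c) : JL c := by
  intro f hf
  obtain ⟨ell, c0, h⟩ := t.ell
  obtain ⟨x, k⟩ : ∃ x : LF, ft f =ᵐ[volume.restrict Fc] x :=
    ⟨_, (memLp_ft hf Fc).coeFn_toLp.symm⟩
  have cl : IsClosed {y : LF | ‖c.J (c.l f) - c.l (sg f)‖ ≤ 2 * Real.sqrt c0 * ‖x - y‖} :=
    isClosed_le continuous_const (by fun_prop)
  have : ‖c.J (c.l f) - c.l (sg f)‖ ≤ 2 * Real.sqrt c0 * ‖x - x‖ :=
    closure_minimal (t := {y : LF | ‖c.J (c.l f) - c.l (sg f)‖ ≤ 2 * Real.sqrt c0 * ‖x - y‖})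
      (fun y hy => est t.jc h hf x k y hy) cl (mem_cl hf x k)
  rw [sub_self, norm_zero, mul_zero, norm_le_zero_iff] at this
  exact sub_eq_zero.1 this

end

end Vale.Agent.P352X.EB
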