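import Vale.Agent.P352X.EB.Spec

/-!
# P352X, block EB, row KEY: the resolvent of the modular group, Gaussian smoothing
-/

set_option linter.all false

open MeasureTheory Filter Topology Set
open scoped ComplexConjugate BoundedContinuousFunction Real

namespace Vale.Agent.P352X.EB

open Vale.Agent.P132 (ModData jconj)
open Complex (I)

noncomputable section

namespace KEY

variable {H : Type*} [NormedAddCommGroup H] [InnerProductSpace ℂ H] [CompleteSpace H]
  {M : VonNeumannAlgebra H} {Ω : H}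

/-- smearing along the modular group -/
lemma sm (E : ModData M Ω) {μ : Measure ℝ} {γ : ℝ → ℂ} (hc : Continuous γ) (hi : Integrable γ μ)
    {s : ℝ → ℝ} (hs : Continuous s) (x : H →L[ℂ] H) : ∃ A : H →L[ℂ] H,
    (∀ v, Integrable (fun t => γ t • E.sg (s t) x v) μ) ∧
    (∀ v, A v = ∫ t, γ t • E.sg (s t) x v ∂μ) ∧ ‖A‖ ≤ (∫ t, ‖γ t‖ ∂μ) * ‖x‖ ∧ (x ∈ M → A ∈ M) ∧
    (x ∈ M.commutant → A ∈ M.commutant) ∧
    ∀ v, star A v = ∫ t, conj (γ t) • E.sg (s t) (star x) v ∂μ := by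
  obtain ⟨A, h1, h2, h3, h4, h5⟩ := exists_int (μ := μ) (F := fun t => γ t • E.sg (s t) x)
    (hi.norm.mul_const ‖x‖) (ae_of_all _ fun t => by
      rw [norm_smul]
      exact mul_le_mul_of_nonneg_left (E.norm_sg_le _ _) (norm_nonneg _))
    fun v => (hc.smul (E.continuous_sg x v hs)).aestronglyMeasurable
  refine ⟨A, h1, h2, by rwa [integral_mul_const] at h3,
    fun hx => h4 _ (ae_of_all _ fun t => smul_mem_vn _ (E.sg_mem hx _)),
    fun hx => h4 _ (ae_of_all _ fun t => smul_mem_vn _ (E.sg_mem_commutant hx _)), fun v => ?_⟩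
  have e : ∀ t, star (γ t • E.sg (s t) x) v = conj (γ t) • E.sg (s t) (star x) v := fun t => by
    rw [star_smul, E.star_sg]; rfl
  rw [h5 v]
  · simp only [e]
  · simp only [e]
    exact ((Complex.continuous_conj.comp hc).smul
      (E.continuous_sg _ v hs)).aestronglyMeasurable

lemma int_exp {f : ℝ → H} (hf : Continuous f) {c : ℝ} (hc : ∀ t, ‖f t‖ ≤ c) (a : ℝ) :
    IntegrableOn (fun t => ((Real.exp (-t) : ℝ) : ℂ) • f t) (Ioi a) :=
  ((integrableOn_exp_neg_Ioi a).mul_const c).mono' (by fun_prop : Continuous _).aestronglyMeasurable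
    (ae_of_all _ fun t => by
      rw [norm_smul, Complex.norm_of_nonneg (Real.exp_pos _).le]
      exact mul_le_mul_of_nonneg_left (hc t) (Real.exp_pos _).le)

lemma norm_exp_int : ∫ t in Ioi (0 : ℝ), ‖((Real.exp (-t) : ℝ) : ℂ)‖ = 1 := by
  simp only [Complex.norm_of_nonneg (Real.exp_pos _).le, integral_exp_neg_Ioi_zero]

/-- the resolvent of the translations maps bounded functions to Lipschitz functions -/
lemma lip {f : ℝ → H} (hf : Continuous f) {c : ℝ} (hc : ∀ t, ‖f t‖ ≤ c) (t : ℝ) :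
    ‖(∫ s in Ioi (0 : ℝ), ((Real.exp (-s) : ℝ) : ℂ) • f (t + s)) -
      ∫ s in Ioi (0 : ℝ), ((Real.exp (-s) : ℝ) : ℂ) • f (0 + s)‖ ≤ 2 * c * |t| := by
  set g : ℝ → H := fun u => ((Real.exp (-u) : ℝ) : ℂ) • f u
  set ψ : ℝ → H := fun t => ∫ s in Ioi (0 : ℝ), ((Real.exp (-s) : ℝ) : ℂ) • f (t + s)
  have hg : Continuous g := by fun_prop
  have e1 : ∀ t, ψ t = ((Real.exp t : ℝ) : ℂ) • ((∫ u in Ioi (0 : ℝ), g u) - ∫ u in 0..t, g u) := by
    intro t
    rw [← intervalIntegral.integral_Ioi_sub_Ioi' (int_exp hf hc 0) (int_exp hf hc t),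
      sub_sub_cancel, ← (measurePreserving_add_left volume t).setIntegral_preimage_emb
        (measurableEmbedding_addLeft t), preimage_const_add_Ioi, sub_self, ← integral_smul]
    refine integral_congr_ae (ae_of_all _ fun s => ?_)
    simp only [g, smul_smul, ← Complex.ofReal_mul, ← Real.exp_add]
    congr 3; ring
  have hd : ∀ t, HasDerivAt ψ (ψ t - f t) t := fun t => by
    have h := (Real.hasDerivAt_exp t).ofReal_comp.fun_smul
      ((hg.integral_hasStrictDerivAt 0 t).hasDerivAt.const_sub (∫ u in Ioi (0 : ℝ), g u))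
    simp only [← e1] at h
    convert h using 1
    simp only [g, smul_neg, smul_smul, ← Complex.ofReal_mul, ← Real.exp_add, add_neg_cancel,
      Real.exp_zero, Complex.ofReal_one, one_smul]
    abel
  have hb : ∀ t, ‖ψ t‖ ≤ c := fun t => by
    refine (norm_integral_le_of_norm_le ((integrableOn_exp_neg_Ioi 0).mul_const c)
      (ae_of_all _ fun s => ?_)).trans_eq ?_
    · rw [norm_smul, Complex.norm_of_nonneg (Real.exp_pos _).le]
      exact mul_le_mul_of_nonneg_left (hc _) (Real.exp_pos _).le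
    · rw [integral_mul_const, integral_exp_neg_Ioi_zero, one_mul]
  have h := convex_univ.norm_image_sub_le_of_norm_hasDerivWithin_le (f := ψ) (C := 2 * c)
    (fun t _ => (hd t).hasDerivWithinAt)
    (fun t _ => by linarith [norm_sub_le (ψ t) (f t), hb t, hc t]) (mem_univ 0) (mem_univ t)
  rwa [sub_zero, Real.norm_eq_abs] at h

lemma res (E : ModData M Ω) {ξ η : H} (h : HasDerivAt (fun t => E.U t ξ) (ξ - η) 0) :
    ∫ t in Ioi (0 : ℝ), ((Real.exp (-t) : ℝ) : ℂ) • E.U t η = ξ := by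
  have hd : ∀ t, HasDerivAt (fun t => E.U t ξ) (E.U t (ξ - η)) t := fun t => by
    have h0 : HasDerivAt (fun t => E.U t ξ) (ξ - η) (t - t) := by rwa [sub_self]
    have h1 := ((E.U t).restrictScalars ℝ).hasFDerivAt.comp_hasDerivAt t (h0.comp_sub_const t t)
    refine h1.congr_of_eventuallyEq (.of_forall fun s => ?_)
    change E.U s ξ = E.U t (E.U (s - t) ξ)
    rw [← E.U_add_apply, add_sub_cancel]
  have h1 := integral_Ioi_of_hasDerivAt_of_tendsto' (a := 0) (m := 0)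
    (f := fun t => -(((Real.exp (-t) : ℝ) : ℂ) • E.U t ξ))
    (f' := fun t => ((Real.exp (-t) : ℝ) : ℂ) • E.U t η) (fun t _ => ?_)
    (int_exp (E.continuous_U η) (fun t => (E.norm_U t η).le) 0) ?_
  · simpa using h1
  · convert ((hasDerivAt_neg t).exp.ofReal_comp.fun_smul (hd t)).fun_neg using 1
    simp [smul_sub]
  · rw [tendsto_zero_iff_norm_tendsto_zero]
    simp only [norm_neg, norm_smul, Complex.norm_of_nonneg (Real.exp_pos _).le, E.norm_U]
    simpa using Real.tendsto_exp_neg_atTop_nhds_zero.mul_const ‖ξ‖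

/-- shifted Gaussians -/
def gm (b κ w : ℝ) : ℂ :=
  (√(b / π) : ℝ) * Complex.exp (-b * w ^ 2 + I * κ * b / π * w + κ ^ 2 * b / (4 * π ^ 2))

lemma gm_cont (b κ : ℝ) : Continuous (gm b κ) := by unfold gm; fun_prop

lemma gm_norm (b κ w : ℝ) :
    ‖gm b κ w‖ = √(b / π) * Real.exp (κ ^ 2 * b / (4 * π ^ 2)) * Real.exp (-b * w ^ 2) := by
  have e : (-b * w ^ 2 + I * κ * b / π * w + κ ^ 2 * b / (4 * π ^ 2) : ℂ) =
      ((κ ^ 2 * b / (4 * π ^ 2) + -b * w ^ 2 : ℝ) : ℂ) + (κ * b / π * w : ℝ) * I := by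
    push_cast; ring
  rw [gm, norm_mul, Complex.norm_of_nonneg (Real.sqrt_nonneg _), e, Complex.exp_add, norm_mul,
    Complex.norm_exp_ofReal_mul_I, Complex.norm_exp_ofReal, Real.exp_add]
  ring

variable {b : ℝ}

lemma gm_int (hb : 0 < b) (κ : ℝ) : Integrable (gm b κ) :=
  ((integrable_exp_neg_mul_sq hb).const_mul _).mono' (gm_cont b κ).aestronglyMeasurable
    (ae_of_all _ fun w => (gm_norm b κ w).le)

lemma sq_mul (hb : 0 < b) : √(b / π) * √(π / b) = 1 := by
  have := Real.pi_pos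
  rw [← Real.sqrt_mul (by positivity), div_mul_div_cancel₀ this.ne', div_self hb.ne', Real.sqrt_one]

lemma gm_l1 (hb : 0 < b) (κ : ℝ) : ∫ w, ‖gm b κ w‖ = Real.exp (κ ^ 2 * b / (4 * π ^ 2)) := by
  simp only [gm_norm]
  rw [integral_const_mul, integral_gaussian, mul_right_comm, sq_mul hb, one_mul]

lemma gm_ft (hb : 0 < b) (κ h : ℝ) : ∫ w, gm b κ w * Complex.exp (I * ((2 * π * w * h : ℝ) : ℂ)) =
    (Real.exp (-(κ * h) - π ^ 2 * h ^ 2 / b) : ℝ) := by
  have hp := Real.pi_pos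
  have e : ∀ w : ℝ, gm b κ w * Complex.exp (I * ((2 * π * w * h : ℝ) : ℂ)) = (√(b / π) : ℝ) *
      Complex.exp ((-b : ℝ) * w ^ 2 + (I * κ * b / π + 2 * π * I * h) * w +
        κ ^ 2 * b / (4 * π ^ 2)) := fun w => by
    rw [gm, mul_assoc, ← Complex.exp_add]
    congr 2; push_cast; ring
  simp only [e]
  rw [integral_const_mul, integral_cexp_quadratic (by simpa using hb)]
  have e2 : ((π : ℂ) / -((-b : ℝ) : ℂ)) ^ (1 / 2 : ℂ) = (√(π / b) : ℝ) := by
    rw [Real.sqrt_eq_rpow, Complex.ofReal_cpow (by positivity)]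
    push_cast; simp
  rw [e2, ← mul_assoc, ← Complex.ofReal_mul, sq_mul hb, Complex.ofReal_one, one_mul,
    Complex.ofReal_exp]
  congr 1
  have h1 : (b : ℂ) ≠ 0 := by exact_mod_cast hb.ne'
  have h2 : (π : ℂ) ≠ 0 := by exact_mod_cast hp.ne'
  push_cast
  field_simp
  linear_combination (κ * b + 2 * π ^ 2 * h) ^ 2 * Complex.I_sq

lemma gm_conj (b w : ℝ) : conj (gm b 0 w) = gm b 0 w := by
  have e : gm b 0 w = ((√(b / π) * Real.exp (-b * w ^ 2) : ℝ) : ℂ) := by simp [gm]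
  rw [e, Complex.conj_ofReal]

lemma gm_one (hb : 0 < b) : ∫ w, gm b 0 w = 1 := by simpa using gm_ft hb 0 0

lemma gm_mom {l : ℝ} (hl : 0 < l) (w : ℝ) :
    ‖gm (l ^ 2) 0 w‖ * |w| ≤ √(l ^ 2 / π) / l * Real.exp (-(l ^ 2 / 2) * w ^ 2) := by
  have h1 : l * |w| ≤ Real.exp (l ^ 2 / 2 * w ^ 2) := by
    have := Real.add_one_le_exp (l ^ 2 / 2 * w ^ 2)
    nlinarith [sq_nonneg (l * |w| - 1), sq_abs w]
  have h2 : Real.exp (-(l ^ 2 / 2) * w ^ 2) =
      Real.exp (l ^ 2 / 2 * w ^ 2) * Real.exp (-l ^ 2 * w ^ 2) := by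
    rw [← Real.exp_add]; congr 1; ring
  rw [gm_norm, h2]
  simp only [ne_eq, OfNat.ofNat_ne_zero, not_false_eq_true, zero_pow, zero_mul, zero_div,
    Real.exp_zero, mul_one]
  calc _ = √(l ^ 2 / π) / l * (l * |w| * Real.exp (-l ^ 2 * w ^ 2)) := by field_simp
    _ ≤ _ := by gcongr

/-- the Fourier transforms of the shifted Gaussians -/
lemma gm_Th (E : ModData M Ω) (hb : 0 < b) (κ : ℝ) : ∃ F : ℝ →ᵇ ℂ,
    (∀ h, F h = (Real.exp (-(κ * h) - π ^ 2 * h ^ 2 / b) : ℝ)) ∧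
    ∀ v, E.Th F v = ∫ w, gm b κ w • E.U (2 * π * w) v := by
  let F : ℝ →ᵇ ℂ := .ofNormedAddCommGroup
    (fun h => (Real.exp (-(κ * h) - π ^ 2 * h ^ 2 / b) : ℝ)) (by fun_prop) (∫ w, ‖gm b κ w‖)
    fun h => by
      rw [← gm_ft hb]
      refine norm_integral_le_of_norm_le (gm_int hb κ).norm (ae_of_all _ fun w => ?_)
      rw [norm_mul, mul_comm I, Complex.norm_exp_ofReal_mul_I, mul_one]
  exact ⟨F, fun _ => rfl, E.Th_integral F _ (gm_cont b κ) (gm_int hb κ) fun h => (gm_ft hb κ h).symm⟩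

lemma mir (E : ModData M Ω) (hb : 0 < b) {y : H →L[ℂ] H} (hy : y ∈ M) : ∃ a ∈ M.commutant,
    ∫ w, gm b 0 w • E.sg (2 * π * w) y Ω = a Ω ∧ ‖a‖ ≤ Real.exp (b / (16 * π ^ 2)) * ‖y‖ := by
  obtain ⟨F, hF, hF'⟩ := gm_Th E hb 0
  obtain ⟨G, hG, hG'⟩ := gm_Th E hb (1 / 2)
  obtain ⟨a, -, h2, h3, -, h4, -⟩ := sm E (gm_cont b (1 / 2)) (gm_int hb (1 / 2))
    (s := fun w => 2 * π * w) (by fun_prop) (E.Rm y)
  refine ⟨a, h4 (E.Rm_mem hy), ?_, h3.trans ?_⟩
  · simp only [h2, E.sg_xi, ← hF', ← hG', E.Rm_xi]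
    refine (E.kms y hy F G fun h => ?_).symm
    rw [hF, hG, ← Complex.ofReal_mul, ← Real.exp_add]
    congr 2; ring
  · rw [gm_l1 hb]
    refine mul_le_mul (le_of_eq ?_) (E.norm_Rm_le y) (norm_nonneg _) (Real.exp_pos _).le
    congr 1; ring

end KEY

open KEY in
theorem key_row (H : Type*) [NormedAddCommGroup H] [InnerProductSpace ℂ H] [CompleteSpace H] :
    KEY H := by
  intro M Ω E
  have hc : Continuous fun t : ℝ => ((Real.exp (-t) : ℝ) : ℂ) := by fun_prop
  have hi : Integrable (fun t : ℝ => ((Real.exp (-t) : ℝ) : ℂ)) (volume.restrict (Ioi 0)) :=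
    (integrableOn_exp_neg_Ioi 0).ofReal
  choose R r1 r2 r3 r4 r5 r6 using sm E hc hi continuous_id'
  simp only [norm_exp_int, one_mul, Complex.conj_ofReal] at r3 r6
  obtain ⟨Rh, -, q2, q3, -, -⟩ := exists_int (μ := volume.restrict (Ioi 0))
    (F := fun t => ((Real.exp (-t) : ℝ) : ℂ) • E.U t) hi.norm (ae_of_all _ fun t => by
      rw [norm_smul]
      exact mul_le_of_le_one_right (norm_nonneg _) (ContinuousLinearMap.opNorm_le_bound _
        zero_le_one fun v => by rw [E.norm_U, one_mul]))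
    fun v => (hc.smul (E.continuous_U v)).aestronglyMeasurable
  refine ⟨R, Rh, 4, by norm_num, q3.trans_eq norm_exp_int, fun x y => ?_,
    fun x => ⟨r3 x, ?_, ?_, r4 x, r5 x⟩, fun ξ η h => (q2 η).trans (res E h), fun s hs x hx => ?_⟩
  · ext v
    rw [ContinuousLinearMap.add_apply, r2, r2, r2, ← integral_add (r1 x v) (r1 y v)]
    simp only [E.sg_apply, ContinuousLinearMap.add_apply, map_add, smul_add]
  · ext v
    rw [r6, r2]
  · simp only [r2, q2, E.sg_xi, ContinuousLinearMap.smul_apply]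
  have hp := Real.pi_pos
  have hσ := Real.sqrt_pos.2 hs
  set l := 2 * π / √s with hl
  have l0 : 0 < l := by positivity
  have hb : 0 < l ^ 2 := by positivity
  have e1 : l ^ 2 / (16 * π ^ 2) = 1 / (4 * s) := by
    rw [hl, div_pow, Real.sq_sqrt hs.le]; field_simp; ring
  obtain ⟨a, a1, a2, a3, a4, -, a6⟩ := sm E (gm_cont (l ^ 2) 0) (gm_int hb 0)
    (s := fun w => 2 * π * w) (by fun_prop) (R x)
  refine ⟨a, a4 (r4 x hx), a3.trans (by simpa [gm_l1 hb] using r3 x), ?_, ?_⟩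
  · have lp : ∀ t v, ‖E.sg t (R x) v - R x v‖ ≤ 2 * (‖x‖ * ‖v‖) * |t| := fun t v => by
      have h := lip (E.continuous_sg x v continuous_id') (c := ‖x‖ * ‖v‖)
        (fun u => (E.sg u x).le_of_opNorm_le (E.norm_sg_le u x) v) t
      simp only [zero_add, ← r2] at h
      rw [E.sg_apply, r2, ← (E.U t).integral_comp_comm (r1 x _)]
      simpa only [map_smul, E.sg_add_left, E.sg_apply t] using h
    refine ContinuousLinearMap.opNorm_le_bound _ (by positivity) fun v => ?_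
    have e2 : (R x - a) v = ∫ w, gm (l ^ 2) 0 w • (R x v - E.sg (2 * π * w) (R x) v) := by
      simp only [smul_sub]
      rw [integral_sub ((gm_int hb 0).smul_const _) (a1 v), integral_smul_const, gm_one hb,
        one_smul, ← a2, ContinuousLinearMap.sub_apply]
    rw [e2]
    refine (norm_integral_le_of_norm_le (((integrable_exp_neg_mul_sq (half_pos hb)).const_mul
      (√(l ^ 2 / π) / l)).const_mul (4 * π * (‖x‖ * ‖v‖))) (ae_of_all _ fun w => ?_)).trans ?_
    · rw [norm_smul, norm_sub_rev]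
      calc _ ≤ ‖gm (l ^ 2) 0 w‖ * (2 * (‖x‖ * ‖v‖) * |2 * π * w|) := by gcongr; exact lp _ v
        _ = 4 * π * (‖x‖ * ‖v‖) * (‖gm (l ^ 2) 0 w‖ * |w|) := by
          rw [abs_mul, abs_of_pos (by positivity : 0 < 2 * π)]; ring
        _ ≤ _ := mul_le_mul_of_nonneg_left (gm_mom l0 w) (by positivity)
    · rw [integral_const_mul, integral_const_mul, integral_gaussian]
      have h1 : √(l ^ 2 / π) * √(π / (l ^ 2 / 2)) ≤ 2 := by
        rw [← Real.sqrt_mul (by positivity), Real.sqrt_le_iff]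
        refine ⟨by norm_num, ?_⟩
        field_simp; norm_num
      calc _ = 4 * π / l * (‖x‖ * ‖v‖) * (√(l ^ 2 / π) * √(π / (l ^ 2 / 2))) := by ring
        _ ≤ 4 * π / l * (‖x‖ * ‖v‖) * 2 := by gcongr
        _ = _ := by rw [hl]; field_simp
  · obtain ⟨b1, m1, h1, n1⟩ := mir E hb (r4 x hx)
    obtain ⟨b2, m2, h2, n2⟩ := mir E hb (star_mem (r4 x hx))
    rw [e1] at n1
    rw [e1, norm_star] at n2
    refine ⟨b1, m1, b2, m2, (a2 Ω).trans h1, ?_, n1.trans (by gcongr; exact r3 x),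
      n2.trans (by gcongr; exact r3 x)⟩
    simp only [a6, gm_conj, h2]

end

end Vale.Agent.P352X.EB
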