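import Vale.Agent.P352X.EB.SG

/-!
# P352X, block EB, row LET: the letters
-/

set_option linter.all false

open MeasureTheory Filter Topology
open scoped SchwartzMap ComplexConjugate ContDiff

namespace Vale.Agent.P352X.EB

open Vale.Agent.P352 Vale.Agent.P352.GF Vale.Agent.P352.BW Vale.Agent.P352.H246
open Vale.Agent.P352.H496 Vale.Agent.P352.H755 Vale.Agent.P352.H15
open Vale.Agent.P352.SubConf (IsAdj)
open UniformSpace (Completion)

noncomputable section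

namespace Let

variable {D : Type*} [NormedAddCommGroup D] [InnerProductSpace ℂ D] {c : Ctx D}

lemma bb (f : Fn) : bar (bar f) = f := funext fun _ => star_star _

lemma adj_uniq {A B B' : Fld D} (h : IsAdj A B) (h' : IsAdj A B') {f : Fn} (hf : IsTest f)
    (v : D) : B f v = B' f v :=
  ext_inner_left ℂ fun w => by
    rw [← bb f, ← h _ _ _ (Ap.test_bar hf), h' _ _ _ (Ap.test_bar hf)]

lemma surj (t : E0 c) (g : Sg) (w : D) : ∃ v, c.Q.U g.s g.L g.a v = w := by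
  refine ⟨c.Q.U g.inv.s g.inv.L g.inv.a w, Completion.coe_injective D ?_⟩
  rw [← t.grp.coe _ _ _ _ g.hs g.hL, ← t.grp.coe _ _ _ _ g.inv.hs g.inv.hL]
  show (g.U c * g.inv.U c) w = w
  rw [t.sg.U_inv, (t.sg.uni g).2]
  rfl

/-- covariance passes to the adjoints -/
lemma cov_adj (t : E0 c) (g : Sg) {ι : Type} [Fintype ι] {B B' : Fld D} {Φ Φ' : ι → Fld D}
    {κ : ι → ℂ} (h : IsAdj B B') (h' : ∀ i, IsAdj (Φ i) (Φ' i))
    (e : ∀ f v, IsTest f → B f (c.Q.U g.s g.L g.a v) =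
      ∑ i, κ i • c.Q.U g.s g.L g.a (Φ i (g.pull f) v)) (f : Fn) (w : D) (hf : IsTest f) :
    B' f (c.Q.U g.s g.L g.a w) = ∑ i, conj (κ i) • c.Q.U g.s g.L g.a (Φ' i (g.pull f) w) := by
  refine ext_inner_left ℂ fun z => ?_
  obtain ⟨v, rfl⟩ := surj t g z
  rw [← bb f, ← h _ _ _ (Ap.test_bar hf), e _ _ (Ap.test_bar hf), sum_inner, inner_sum, bb]
  refine Finset.sum_congr rfl fun i _ => ?_
  rw [inner_smul_left, inner_smul_right, c.Q.U_inner _ _ _ _ _ g.hs g.hL,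
    c.Q.U_inner _ _ _ _ _ g.hs g.hL, h' i _ _ _ (t.sg.test g _ (Ap.test_bar hf))]
  exact congrArg (fun k => conj (κ i) * inner ℂ v (Φ' i k w)) (bb (g.pull f))

lemma cpow_conj {s : ℝ} (hs : 0 < s) (d : ℂ) : conj ((s : ℂ) ^ (4 - d)) = (s : ℂ) ^ (4 - conj d) := by
  have h := Complex.cpow_conj (s : ℂ) (4 - d) (by
    rw [Complex.arg_ofReal_of_nonneg hs.le]; exact Real.pi_ne_zero.symm)
  rw [Complex.conj_ofReal] at h
  rw [← h, map_sub, map_ofNat]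

lemma tc_adj (t : E0 c) {k : ℕ} {d : ℂ} {Φ : (Fin k → Ix) → Fld D} (h : IsTc c.Q k d Φ) :
    ∃ Φ', IsTc c.Q k (conj d) Φ' ∧ ∀ μ, IsAdj (Φ μ) (Φ' μ) := by
  choose Φ' h1 h2 using fun μ => c.Q.adj _ (h.1.1 μ)
  refine ⟨Φ', ⟨⟨h1, fun μ L f v hL hf => ?_⟩, fun μ s f v hs hf => ?_⟩, h2⟩
  · simpa only [Complex.conj_ofReal] using! cov_adj t ⟨1, L, 0, one_pos, hL⟩ (h2 μ) h2
      (fun f v hf => h.1.2 μ L f v hL hf) f v hf
  · simpa only [Finset.univ_unique, Finset.sum_singleton, cpow_conj hs] using!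
      cov_adj t ⟨s, GF.one, 0, hs, H496.isLor_one⟩ (ι := Unit) (κ := fun _ => (s : ℂ) ^ (4 - d)) (h2 μ)
        (fun _ => h2 μ) (fun f v hf => by simpa using! h.2 μ s f v hs hf) f v hf

lemma tra (t : E0 c) {B : Fld D} (h : c.Q.fld B) (y : V) {f : Fn} (hf : IsTest f) :
    ((B f c.Q.vac : D) : Completion D) =
      Ut c.Q y (B (fun x => f (sim 1 GF.one y x)) c.Q.vac : D) := by
  rw [Ut, t.grp.coe _ _ _ _ one_pos H496.isLor_one, ← c.Q.transl _ _ _ _ h hf,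
    c.Q.U_vac _ _ _ one_pos H496.isLor_one]

lemma dil (t : E0 c) {B : Fld D} {d : ℂ} (h : Dim c.Q d B) {s : ℝ} (hs : 0 < s) {f : Fn}
    (hf : IsTest f) : ((B f c.Q.vac : D) : Completion D) =
      (s : ℂ) ^ (4 - d) • Ug c.Q s GF.one 0 (B (fun x => f (sim s GF.one 0 x)) c.Q.vac : D) := by
  rw [t.grp.coe _ _ _ _ hs H496.isLor_one, ← Completion.coe_smul, ← h s f _ hs hf,
    c.Q.U_vac _ _ _ hs H496.isLor_one]

lemma cov (t : E0 c) {k : ℕ} {d : ℂ} {Φ : (Fin k → Ix) → Fld D} (h : IsTc c.Q k d Φ) (g : Sg)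
    (μ : Fin k → Ix) {f : Fn} (hf : IsTest f) : ((Φ μ f c.Q.vac : D) : Completion D) =
      ∑ ν, (((∏ i, g.L (ν i) (μ i) : ℝ) : ℂ) * (g.s : ℂ) ^ (4 - d)) •
        g.U c (Φ ν (g.pull f) c.Q.vac : D) := by
  let g1 : Sg := ⟨1, GF.one, g.a, one_pos, H496.isLor_one⟩
  let g2 : Sg := ⟨1, g.L, 0, one_pos, g.hL⟩
  let g3 : Sg := ⟨g.s, GF.one, 0, g.hs, H496.isLor_one⟩
  have e : g1.mul (g2.mul g3) = g := by
    obtain ⟨s, L, a, hs, hL⟩ := g
    simp only [Sg.mul, g1, g2, g3, Sg.mk.injEq]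
    refine ⟨by ring, ?_, ?_⟩
    · funext m n
      fin_cases m <;> fin_cases n <;> simp [sim, GF.one, bas, Fin.sum_univ_four]
    · funext n
      simp [sim]
  have f1 := t.sg.test g1 f hf
  have h1 := h.1.2 μ g.L _ c.Q.vac g.hL f1
  rw [c.Q.U_vac _ _ _ one_pos g.hL] at h1
  rw [tra t (h.1.1 μ) g.a hf]
  show g1.U c (Φ μ (g1.pull f) c.Q.vac : D) = _
  rw [h1, ← Completion.coe_toComplL (𝕜 := ℂ), map_sum, map_sum]
  refine Finset.sum_congr rfl fun ν _ => ?_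
  rw [map_smul, map_smul, Completion.coe_toComplL, ← t.grp.coe _ _ _ _ one_pos g.hL,
    dil t (h.2 ν) g.hs (Ap.test_sim one_pos g.hL 0 f1), map_smul, map_smul, smul_smul]
  congr 1
  conv_rhs => rw [← e, t.sg.U_mul, t.sg.U_mul]
  show g1.U c (g2.U c (g3.U c _)) = g1.U c (g2.U c (g3.U c _))
  congr 5
  funext x
  simp only [Sg.pull, Sg.act_mul]
  rfl

lemma pot (t : E0 c) (g : Sg) {f : Fn} (hf : IsTest f) :
    c.l f = ((g.s ^ 2 : ℝ) : ℂ) • g.U c (c.l (g.pull f)) := by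
  have h := t.grp.pot g.s g.L g.a f g.hs g.hL hf
  rw [Complex.coe_smul]
  exact ((smul_inv_smul₀ (pow_pos g.hs 2).ne' _).symm.trans (congrArg _ h.symm))

lemma fld {B : Fld D} (h : Comp c.Q B) : c.Q.fld B := by
  obtain ⟨k, d, Φ, μ, h, rfl⟩ := h
  exact h.1.1 μ

/-- the adjoint label -/
def dg : Lab c.Q → Lab c.Q
  | none => none
  | some p => some ⟨(p.1.2, p.1.1), p.2.2.1, p.2.1, p.2.2.2.2, p.2.2.2.1⟩

/-- the vectors of a label -/
def ph : Lab c.Q → Fn → Completion D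
  | none => c.l
  | some p => fun f => (p.1.1 f c.Q.vac : D)

end Let

open Let

variable {D : Type*} [NormedAddCommGroup D] [InnerProductSpace ℂ D] {c : Ctx D}

theorem let_row (t : E0 c) : LET c := by
  intro hl hf
  refine ⟨⟨Let.dg, Let.ph, ?_, ?_, ?_, ?_, ?_, ?_, ?_⟩, ?_, rfl, fun p => ?_, ?_⟩
  · rintro (_ | p) <;> rfl
  · rintro (_ | p) f g z h1 h2
    · exact c.hl.lin f g z h1 h2
    · show ((_ : D) : Completion D) = (_ : D) + z • ((_ : D) : Completion D)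
      rw [c.Q.lin _ f g z _ (fld p.2.1) h1 h2, Completion.coe_add, Completion.coe_smul]
  · rintro (_ | p)
    · exact c.hl.cont
    · exact (Completion.continuous_coe D).comp (c.Q.cont _ _ (fld p.2.1))
  · rintro (_ | ⟨⟨B, B'⟩, ⟨k, d, Φ, μ, h, e⟩, h1, h2, h3⟩) f h0
    · exact hl f h0
    · obtain rfl : B = Φ μ := e
      obtain ⟨Φ', a, b⟩ := tc_adj t h
      show Stm _ _ ((Φ μ f c.Q.vac : D) : Completion D) (B' (bar f) c.Q.vac : D)
      rw [adj_uniq (B := B') (show IsAdj (Φ μ) B' from h2) (b μ) (Ap.test_bar h0.1)]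
      exact hf k Φ Φ' h.1 (fun μ => ⟨a.1.1 μ, b μ⟩) μ f h0
  · rintro (_ | ⟨⟨B, B'⟩, ⟨k, d, Φ, μ, h, e⟩, h1, h2, h3⟩) g
    · refine ⟨1, fun _ => ((g.s ^ 2 : ℝ) : ℂ), fun _ => none, fun f h0 => ?_⟩
      simp only [Fin.sum_univ_one, Complex.conj_ofReal]
      exact ⟨pot t g h0, pot t g h0⟩
    · obtain rfl : B = Φ μ := e
      obtain ⟨Φ', a, b⟩ := tc_adj t h
      let e := (Fintype.equivFin (Fin k → Ix)).symm
      refine ⟨_, fun i => ((∏ j, g.L (e i j) (μ j) : ℝ) : ℂ) * (g.s : ℂ) ^ (4 - d),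
        fun i => some ⟨(Φ (e i), Φ' (e i)), ⟨k, d, Φ, _, h, rfl⟩, ⟨k, _, Φ', _, a, rfl⟩, b _,
          H755.adj_symm (b _)⟩, fun f h0 => ⟨(cov t h g μ h0).trans (e.sum_comp _).symm, ?_⟩⟩
      show ((B' f c.Q.vac : D) : Completion D) = _
      rw [adj_uniq (B := B') (show IsAdj (Φ μ) B' from h2) (b μ) h0, Let.cov t a g μ h0, ← e.sum_comp]
      simp only [map_mul, Complex.conj_ofReal, cpow_conj g.hs]
      rfl
  · rintro (_ | p) y f h0
    · simpa using! pot t ⟨1, GF.one, y, one_pos, H496.isLor_one⟩ h0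
    · exact tra t (fld p.2.1) y h0
  · rintro (_ | ⟨⟨B, B'⟩, ⟨k, d, Φ, μ, h, e⟩, h1, h2, h3⟩)
    · exact ⟨2, fun s hs => ⟨((s ^ 2 : ℝ) : ℂ), by simp [abs_of_pos (one_pos.trans_le hs)],
        fun f h0 => pot t ⟨s, GF.one, 0, one_pos.trans_le hs, H496.isLor_one⟩ h0⟩⟩
    · obtain rfl : B = Φ μ := e
      refine ⟨⌈(4 - d).re⌉₊, fun s hs => ⟨_, ?_, fun f h0 =>
        Let.dil t (h.2 μ) (one_pos.trans_le hs) h0⟩⟩
      rw [Complex.norm_cpow_eq_rpow_re_of_pos (one_pos.trans_le hs), ← Real.rpow_natCast]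
      exact Real.rpow_le_rpow_of_exponent_le hs (Nat.le_ceil _)
  · rfl
  · exact ⟨⟨fld p.2.1, fld p.2.2.1, p.2.2.2.1, fun _ _ => ⟨rfl, rfl⟩⟩, Option.some_ne_none _⟩
  · rintro B ⟨k, d, Φ, μ, h, rfl⟩
    obtain ⟨Φ', a, b⟩ := tc_adj t h
    exact ⟨⟨(Φ μ, Φ' μ), ⟨k, d, Φ, _, h, rfl⟩, ⟨k, _, Φ', _, a, rfl⟩, b _, H755.adj_symm (b _)⟩, rfl⟩

end

end Vale.Agent.P352X.EB
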