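import Vale.Agent.P352X.EB.Spec
import Vale.Agent.P352X.R.GRP.C
import Vale.Agent.P352X.Api2b

/-!
# P352X, block EB, row MB: the fields are tame
-/

set_option linter.all false

open MeasureTheory Filter Topology
open scoped SchwartzMap ComplexConjugate ContDiff

namespace Vale.Agent.P352X.EB

open Vale.Agent.P352 Vale.Agent.P352.GF Vale.Agent.P352.BW Vale.Agent.P352.H246
open Vale.Agent.P352.H496 Vale.Agent.P352.H755 Vale.Agent.P352.H15
open Vale.Agent.P352.SubConf (IsAdj)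
open UniformSpace (Completion)

noncomputable section

namespace Mb

lemma ev_dw (α : List Ix) (g : Sch) : ev (dw α g) = pw α (ev g) := by
  induction α with
  | nil => rfl
  | cons m α ih =>
    show ev (LineDeriv.lineDerivOp (bas m 1) (dw α g)) = pd m (pw α (ev g))
    rw [← ih, Grp.pd_ev]

lemma in_pw {O : Set V} {f : Fn} (α : List Ix) (h : In O f) : In O (pw α f) := by
  induction α with
  | nil => exact h
  | cons m α ih => exact Ap.in_pd m ih

lemma real1 {a e C : ℝ} (ha : 0 ≤ a) (he : 0 ≤ e)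
    (h : ∀ r, 0 ≤ r → r * (a * e) ≤ 1 → r * a ^ 2 ≤ C) : a ≤ C * e := by
  have hC : 0 ≤ C := by simpa using h 0 le_rfl (by simp)
  rcases ha.eq_or_lt with rfl | ha
  · positivity
  rcases he.eq_or_lt with rfl | he
  · have := h ((C + 1) / a ^ 2) (by positivity) (by simp)
    rw [div_mul_cancel₀ _ (by positivity)] at this
    linarith
  · have := h (1 / (a * e)) (by positivity) (by rw [one_div_mul_cancel (by positivity)])
    rw [show 1 / (a * e) * a ^ 2 = a / e by field_simp, div_le_iff₀ he] at this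
    exact this

lemma geo (J : ℕ) {P : ℝ} (hP : 0 ≤ P) : ∑ j ∈ Finset.range J, (1 / 2) ^ j * P ≤ 2 * P := by
  rw [← Finset.sum_mul]
  refine mul_le_mul_of_nonneg_right ?_ hP
  exact (summable_geometric_two.sum_le_tsum _ fun _ _ => by positivity).trans
    tsum_geometric_two.le

lemma err {H : Type*} [NormedAddCommGroup H] (φ : Sch →+ H) (F : Sch) (g : ℕ → Sch) (y : ℕ → H)
    (J : ℕ) {δ P : ℝ} (hP : 0 ≤ P) (h1 : ‖φ (F - ∑ j ∈ Finset.range J, g j)‖ ≤ δ)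
    (h2 : ∀ j, ‖φ (g j) - y j‖ ≤ (1 / 2) ^ j * P) :
    ‖φ F - ∑ j ∈ Finset.range J, y j‖ ≤ δ + 2 * P := by
  have e : φ F - ∑ j ∈ Finset.range J, y j =
      φ (F - ∑ j ∈ Finset.range J, g j) + ∑ j ∈ Finset.range J, (φ (g j) - y j) := by
    rw [map_sub, map_sum, Finset.sum_sub_distrib]
    abel
  rw [e]
  exact (norm_add_le _ _).trans (add_le_add h1 ((norm_sum_le _ _).trans
    ((Finset.sum_le_sum fun j _ => h2 j).trans (geo J hP))))

variable {D : Type*} [NormedAddCommGroup D] [InnerProductSpace ℂ D] {Q : Theory D}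
  {A : (V → V) → D → D} {B B' : Fld D} {k : ℕ}

/-- energy bounds for a smeared field and its adjoint -/
def Bd (Q : Theory D) (B B' : Fld D) (k : ℕ) (f : Fn) (C : ℝ) : Prop :=
  ∀ v, ‖B f v‖ ≤ C * en Q k v ∧ ‖B' (bar f) v‖ ≤ C * en Q k v

/-- the normalized matrix elements -/
def LL (hB : Q.fld B) (k : ℕ) : Set (Sch →L[ℂ] ℂ) :=
  {Λ | ∃ (v w : D) (r : ℝ), 0 ≤ r ∧ r * (‖w‖ * en Q k v) ≤ 1 ∧
    (Λ = (r : ℂ) • (innerSL ℂ w ∘L Grp.fC hB v) ∨ Λ = (r : ℂ) • (innerSL ℂ v ∘L Grp.fC hB w))}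

lemma nrmU (y : V) (v : D) : ‖Q.U 1 GF.one y v‖ = ‖v‖ := by
  rw [@norm_eq_sqrt_re_inner ℂ, Q.U_inner 1 _ y v v one_pos H496.isLor_one,
    ← @norm_eq_sqrt_re_inner ℂ]

lemma tra (W : WB D) (R : Rep Q A) (hB : Q.fld B) {f : Fn} (hf : IsTest f) {C : ℝ}
    (h : ∀ v, ‖B f v‖ ≤ C * en Q k v) (y : V) (v : D) :
    ‖B (fun x => f (x - y)) v‖ ≤ C * en Q k v := by
  have h1 := h (Q.U 1 GF.one (-y) v)
  rw [Q.transl B (-y) f v hB hf, nrmU, W.inv Q A R] at h1
  simpa only [HM.sim_tr, ← sub_eq_add_neg] using h1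

lemma adj_nrm (ad : IsAdj B B') {f : Fn} (hf : IsTest f) (v w : D) :
    ‖inner ℂ v (B f w)‖ = ‖inner ℂ w (B' (bar f) v)‖ := by
  rw [← ad f w v hf, ← inner_conj_symm, RCLike.norm_conj]

lemma bp_of (W : WB D) (R : Rep Q A) (hB : Q.fld B) (hB' : Q.fld B') (ad : IsAdj B B') {g : Sch}
    {C : ℝ} (hC : 0 ≤ C) (h : Bd Q B B' k (ev g) C) : Bp (LL hB k) g C := by
  rintro Λ ⟨v, w, r, hr, h1, h2⟩ y
  have key : ∀ u : D, ‖u‖ ≤ C * en Q k v → ‖(r : ℂ) • inner ℂ w u‖ ≤ C := fun u hu => by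
    rw [norm_smul, Complex.norm_real, Real.norm_of_nonneg hr]
    calc _ ≤ r * (‖w‖ * (C * en Q k v)) :=
          mul_le_mul_of_nonneg_left ((norm_inner_le_norm _ _).trans
            (mul_le_mul_of_nonneg_left hu (norm_nonneg _))) hr
      _ = C * (r * (‖w‖ * en Q k v)) := by ring
      _ ≤ C := mul_le_of_le_one_right hC h1
  rcases h2 with rfl | rfl
  · exact key _ (tra W R hB ⟨g, rfl⟩ (fun v => (h v).1) y v)
  · have := key _ (tra W R hB' (Ap.test_bar ⟨g, rfl⟩) (fun v => (h v).2) y v)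
    rw [norm_smul] at this
    show ‖(r : ℂ) • inner ℂ v (B (ev (ST.tsl y g)) w)‖ ≤ C
    rw [norm_smul, adj_nrm ad ⟨_, rfl⟩]
    exact this

lemma bd_of (W : WB D) (hB : Q.fld B) (ad : IsAdj B B') {g : Sch} {C : ℝ}
    (h : Bp (LL hB k) g C) : Bd Q B B' k (ev g) C := by
  have e : ST.tsl 0 g = g := by
    ext z
    rw [ST.tsl_apply, sub_zero]
  intro v
  have h0 := (norm_nonneg v).trans (W.le Q k v)
  refine ⟨real1 (norm_nonneg _) h0 fun r hr h1 => ?_, real1 (norm_nonneg _) h0 fun r hr h1 => ?_⟩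
  · have h2 := h _ ⟨v, _, r, hr, h1, .inl rfl⟩ 0
    rw [e] at h2
    change ‖(r : ℂ) • inner ℂ (B (ev g) v) (B (ev g) v)‖ ≤ C at h2
    rwa [norm_smul, Complex.norm_real, Real.norm_of_nonneg hr, inner_self_eq_norm_sq_to_K,
      norm_pow, RCLike.norm_ofReal, abs_norm] at h2
  · have h2 := h _ ⟨v, _, r, hr, h1, .inr rfl⟩ 0
    rw [e] at h2
    change ‖(r : ℂ) • inner ℂ v (B (ev g) (B' (bar (ev g)) v))‖ ≤ C at h2
    rwa [norm_smul, Complex.norm_real, Real.norm_of_nonneg hr, adj_nrm ad ⟨_, rfl⟩,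
      inner_self_eq_norm_sq_to_K, norm_pow, RCLike.norm_ofReal, abs_norm] at h2

/-- a field applied to the vacuum -/
def f1 (hB : Q.fld B) : Sch →+ Completion D :=
  AddMonoidHom.mk' (fun g => (B (ev g) Q.vac : D)) fun f g => by
    rw [← Completion.coe_add]
    exact congrArg _ (map_add (Grp.fC hB Q.vac) f g)

/-- the adjoint field applied to the vacuum -/
def f2 (hB : Q.fld B) : Sch →+ Completion D :=
  AddMonoidHom.mk' (fun g => (B (bar (ev g)) Q.vac : D)) fun f g => by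
    have := Q.lin B (bar (ev f)) (bar (ev g)) 1 Q.vac hB (Ap.test_bar ⟨f, rfl⟩)
      (Ap.test_bar ⟨g, rfl⟩)
    rw [← Completion.coe_add, ← one_smul ℂ (B (bar (ev g)) Q.vac), ← this]
    congr 2
    funext x
    simp [bar, ev]

lemma poly (k n : ℕ) {C : ℝ} (hC : 1 ≤ C) :
    C * (5 * (2 * n + 1) * (C * (((k * (2 * n + 1) : ℕ) : ℝ) + 1))) ^ k ≤
      C * (10 * C * (2 * k + 1)) ^ k * ((n : ℝ) + 1) ^ (2 * k) := by
  rw [mul_assoc C, pow_mul, ← mul_pow]
  refine mul_le_mul_of_nonneg_left (pow_le_pow_left₀ (by positivity) ?_ k) (by positivity)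
  push_cast
  have h1 : (0 : ℝ) ≤ k := k.cast_nonneg
  have h2 : (0 : ℝ) ≤ n := n.cast_nonneg
  have h3 : (2 * n + 1) * (k * (2 * n + 1) + 1) ≤ (2 * (n + 1)) * ((2 * k + 1) * (n + 1) : ℝ) :=
    mul_le_mul (by linarith) (by nlinarith) (by positivity) (by positivity)
  nlinarith

end Mb

open Mb

variable {D : Type*} [NormedAddCommGroup D] [InnerProductSpace ℂ D] {c : Ctx D}

theorem mb_row (t : E0 c) : MB c := by
  intro hE B B' hB hB' ad
  obtain ⟨k1, h1⟩ := hE B hB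
  obtain ⟨k2, h2⟩ := hE B' hB'
  have R := c.hN.toRep
  obtain ⟨k, hk1, hk2⟩ : ∃ k, k1 ≤ k ∧ k2 ≤ k := ⟨max k1 k2, le_max_left _ _, le_max_right _ _⟩
  refine ⟨2 * (2 * k + 1), fun O f hO hf => ?_⟩
  obtain ⟨F, rfl⟩ := hf.1
  obtain ⟨ε, hε, hs⟩ := IsCompact.exists_cthickening_subset_open hf.2.1 hO hf.2.2
  obtain ⟨C, hC, hd⟩ := t.dec (LL hB k) F ε k hε hf.2.1 fun β => by
    have h3 := in_pw β (Ap.in_univ' hf)
    obtain ⟨C1, h4⟩ := h1 _ h3
    obtain ⟨C2, h5⟩ := h2 _ (Ap.in_bar h3)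
    refine ⟨|C1| + |C2|, bp_of t.wb R hB hB' ad (by positivity) fun v => ?_⟩
    have h6 := fun k => (norm_nonneg v).trans (t.wb.le c.Q k v)
    rw [ev_dw]
    exact ⟨(h4 v).trans (mul_le_mul ((le_abs_self _).trans (le_add_of_nonneg_right (abs_nonneg _)))
      (t.wb.mono _ _ _ v hk1) (h6 _) (by positivity)),
      (h5 v).trans (mul_le_mul ((le_abs_self _).trans (le_add_of_nonneg_left (abs_nonneg _)))
        (t.wb.mono _ _ _ v hk2) (h6 _) (by positivity))⟩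
  refine t.tmb.of4 _ _ _ _ _ (1 + 4 * (C * (10 * C * (2 * k + 1)) ^ k)) fun n => ?_
  obtain ⟨g, hg, hJ⟩ := hd (k * (2 * n + 1))
  obtain ⟨J, hJ⟩ := hJ ((1 / 4) ^ n) (by positivity)
  have hp := poly k n hC
  generalize hP : C * (5 * (2 * n + 1) * (C * (((k * (2 * n + 1) : ℕ) : ℝ) + 1))) ^ k = P at hp
  have P0 : 0 < P := hP ▸ by positivity
  have key : ∀ j, ∃ a ∈ c.N O, ‖a‖ ≤ (1 / 2) ^ j * (2 * n * P) ∧
      ‖f1 hB (g j) - a c.Om‖ ≤ (1 / 2) ^ j * (P * (1 / 4) ^ n) ∧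
      ‖f2 hB' (g j) - star a c.Om‖ ≤ (1 / 2) ^ j * (P * (1 / 4) ^ n) := fun j => by
    obtain ⟨s1, s2, s3⟩ := hg j
    have hin : In O (ev (g j)) := ⟨⟨_, rfl⟩, s1, s2.trans hs⟩
    have af := t.grp.affa O _ _ (Al.fld B B' _ _ _ hB hB' ad hin Al.one)
    have w := t.wb.wb c.Q c.A R B B' hB hB' ad k n _ _ (ev (g j)) ⟨_, rfl⟩ (by positivity)
      (one_le_mul_of_one_le_of_one_le (one_le_mul_of_one_le_of_one_le hC
        (one_le_pow₀ one_le_two)) (le_add_of_nonneg_left (Nat.cast_nonneg _)))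
      fun α hα => ev_dw α (g j) ▸ bd_of t.wb hB ad (s3 α hα)
    have e : C * (1 / 2) ^ (j * (k + 1)) * (5 * (2 * n + 1) *
        (C * 2 ^ j * (((k * (2 * n + 1) : ℕ) : ℝ) + 1))) ^ k = (1 / 2) ^ j * P := by
      have e1 : ((1 : ℝ) / 2) ^ (j * (k + 1)) * (2 ^ j) ^ k = (1 / 2) ^ j := by
        rw [pow_mul, pow_succ, mul_right_comm, ← mul_pow, ← mul_pow]
        norm_num
      rw [← hP, ← e1]
      simp only [mul_pow]
      ring
    rw [e] at w
    generalize hq : (1 / 2 : ℝ) ^ j * P = q at w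
    have q0 : 0 < q := hq ▸ by positivity
    obtain ⟨a, ha, a1, a2, a3⟩ := t.mom _ _ _ af (1 / (2 * q)) n c.Q.vac (by positivity)
    have e2 : (1 / (2 * q)) ^ (2 * n) * q ^ (2 * n + 1) = q * (1 / 4) ^ n := by
      rw [pow_succ, ← mul_assoc, ← mul_pow, pow_mul, mul_comm q]
      congr 2
      field_simp
      norm_num
    refine ⟨a, ha, a1.trans_eq ?_, ?_, ?_⟩
    · rw [div_div_eq_mul_div, div_one, ← hq]
      ring
    · rw [← mul_assoc, hq, ← e2]
      exact a2.trans (mul_le_mul_of_nonneg_left w.1 (by positivity))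
    · rw [← mul_assoc, hq, ← e2]
      exact a3.trans (mul_le_mul_of_nonneg_left w.2 (by positivity))
  choose a ha a1 a2 a3 using key
  have r := bd_of t.wb hB ad hJ c.Q.vac
  rw [t.wb.vac, mul_one] at r
  have n1 : (1 : ℝ) ≤ n + 1 := le_add_of_nonneg_left n.cast_nonneg
  have n2 : (1 : ℝ) ≤ ((n : ℝ) + 1) ^ (2 * k) := one_le_pow₀ n1
  generalize hK : C * (10 * C * (2 * k + 1)) ^ k = K at hp ⊢
  have K0 : 0 ≤ K := hK ▸ by positivity
  have fin : (1 / 4) ^ n + 2 * (P * (1 / 4) ^ n) ≤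
      (1 + 4 * K) * ((n : ℝ) + 1) ^ (2 * k + 1) * (1 / 4) ^ n := by
    rw [show (1 / 4 : ℝ) ^ n + 2 * (P * (1 / 4) ^ n) = (1 + 2 * P) * (1 / 4) ^ n by ring, pow_succ]
    refine mul_le_mul_of_nonneg_right ?_ (by positivity)
    generalize ((n : ℝ) + 1) ^ (2 * k) = x at *
    nlinarith [mul_nonneg K0 (zero_le_one.trans n2), mul_le_mul_of_nonneg_left n1
      (mul_nonneg K0 (zero_le_one.trans n2))]
  refine ⟨∑ j ∈ Finset.range J, a j, sum_mem fun j _ => ha j, ?_, ?_, ?_⟩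
  · refine (norm_sum_le _ _).trans ((Finset.sum_le_sum fun j _ => a1 j).trans
      ((geo J (by positivity)).trans ?_))
    rw [pow_succ]
    generalize ((n : ℝ) + 1) ^ (2 * k) = x at *
    nlinarith [mul_le_mul_of_nonneg_left hp (n.cast_nonneg (α := ℝ)),
      mul_nonneg K0 (zero_le_one.trans n2), n.cast_nonneg (α := ℝ)]
  · rw [ContinuousLinearMap.sum_apply]
    exact (err (f1 hB) F g _ J (by positivity) ((Completion.norm_coe _).trans_le r.1) a2).trans fin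
  · rw [star_sum, ContinuousLinearMap.sum_apply]
    exact (err (f2 hB') F g _ J (by positivity) ((Completion.norm_coe _).trans_le r.2) a3).trans fin

end

end Vale.Agent.P352X.EB
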