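import Vale.Agent.P352X.EB.Spec
import Vale.Agent.P352X.TR0

/-!
# P352X, block EB, row MOM: truncations whose errors are moments
-/

open WithLp
open UniformSpace (Completion)

noncomputable section

namespace Vale.Agent.P352X.EB

namespace Mom

open TR

variable {H : Type*} [NormedAddCommGroup H] [InnerProductSpace ℂ H] [CompleteSpace H] {D : Type*}

omit [CompleteSpace H] in
lemma pow_le {e : D → H} {Y : D → D} {P : H →L[ℂ] H} {t : ℝ} (h : ∀ x, ‖(1 - P) x‖ ≤ ‖x‖)
    (k : ∀ u, P (e u) = ((t : ℂ) * t) • (1 - P) (e (Y u))) (n : ℕ) (u : D) :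
    ‖e u - (∑ i ∈ Finset.range n, P ^ i) ((1 - P) (e u))‖ ≤ t ^ (2 * n) * ‖e (Y^[n] u)‖ := by
  rw [← mul_apply_eq_comp, geom_sum_mul_neg, sub_apply, one_apply_eq_self,
    sub_sub_cancel]
  induction n generalizing u with
  | zero => simp
  | succ n ih =>
    rw [pow_succ, mul_apply_eq_comp, k, map_smul, ← mul_apply_eq_comp,
      (((Commute.one_right P).sub_right (Commute.refl P)).pow_left n).eq, norm_smul,
      mul_apply_eq_comp, Function.iterate_succ_apply, mul_add, pow_add,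
      mul_comm (t ^ (2 * n)), mul_assoc, ← Complex.ofReal_mul, Complex.norm_real,
      Real.norm_of_nonneg (mul_self_nonneg t), mul_one, sq]
    exact mul_le_mul_of_nonneg_left ((h _).trans (ih _)) (mul_self_nonneg t)

theorem blocks (M : VonNeumannAlgebra H) (e : D → H) (X X' : D → D)
    (h : ∀ Y ∈ M.commutant, ∀ v w, inner ℂ (e (X' w)) (Y (e v)) = inner ℂ (e w) (Y (e (X v))))
    (t : ℝ) (ht : 0 < t) : ∃ Z ∈ M, ∃ P ∈ M, ∃ P' : H →L[ℂ] H, ‖Z‖ ≤ t⁻¹ ∧ ‖P‖ ≤ 1 ∧ star P = P ∧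
      star Z * P = P' * star Z ∧ (∀ x, ‖(1 - P) x‖ ≤ ‖x‖) ∧ (∀ x, ‖(1 - P') x‖ ≤ ‖x‖) ∧
      (∀ v, Z (e v) = (1 - P) (e (X v))) ∧ (∀ v, star Z (e v) = (1 - P') (e (X' v))) ∧
      (∀ u, P (e u) = ((t : ℂ) * t) • (1 - P) (e ((X ∘ X') u))) ∧
      ∀ u, P' (e u) = ((t : ℂ) * t) • (1 - P') (e ((X' ∘ X) u)) := by
  set N := NN M e (fun v => e (X v)) t with hN
  set R := N.starProjection with hR
  have ht' : (t : ℂ) ≠ 0 := by exact_mod_cast ht.ne'
  have hRn : ∀ z, ‖R z‖ ≤ ‖z‖ := N.norm_starProjection_apply_le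
  have hRo : ∀ z, ‖z - R z‖ ≤ ‖z‖ := fun z =>
    N.starProjection_orthogonal_val z ▸ Nᗮ.norm_starProjection_apply_le z
  have h0 : ∀ v, R (i1 (e v)) = -((t : ℂ) • R (i2 (e (X v)))) := by
    intro v
    rw [eq_neg_iff_add_eq_zero, ← map_smul, ← map_smul, ← map_add, ← pair_eq, hR,
      Submodule.starProjection_apply_eq_zero_iff, Submodule.mem_orthogonal']
    intro u hu
    simpa using mem_NN.1 hu 1 (one_mem _) v
  have h1 : ∀ u, R (i2 (e u)) = toLp 2 (-((t : ℂ) • e (X' u)), e u) + (t : ℂ) • R (i1 (e (X' u))) := by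
    intro u
    rw [← sub_eq_iff_eq_add, ← map_smul, ← map_smul, sub_eq_neg_add, ← map_neg, ← map_neg,
      ← map_add, ← pair_eq, hR, Submodule.starProjection_eq_self_iff, hN, mem_NN]
    intro Y hY v
    rw [inner_pair]
    show inner ℂ (Y (e v)) (-((t : ℂ) • e (X' u))) + inner ℂ ((t : ℂ) • Y (e (X v))) (e u) = 0
    rw [inner_neg_right, inner_smul_right, inner_smul_left, ← inner_conj_symm (Y (e v)), h Y hY,
      inner_conj_symm]
    simp
  refine ⟨Xt M e (fun v => e (X v)) t, Xt_mem M e _ t, 1 - sndL 2 ℂ H H ∘L R ∘L i2, ?_,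
    fstL 2 ℂ H H ∘L R ∘L i1,
    ContinuousLinearMap.opNorm_le_bound _ (by positivity) fun x => ?_,
    ContinuousLinearMap.opNorm_le_bound _ zero_le_one fun x => ?_, ?_, ?_, fun x => ?_, fun x => ?_,
    fun v => ?_, fun v => ?_, fun v => ?_, fun v => ?_⟩
  · refine sub_mem (one_mem _) ?_
    rw [← M.commutant_commutant, VonNeumannAlgebra.mem_commutant_iff]
    intro Y hY
    ext x
    have h1 : (i2 (Y x) : HH H) = TR.dg Y (i2 x) := by
      rw [dg_apply, i2_apply, i2_apply]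
      simp
    show Y (R (i2 x)).snd = (R (i2 (Y x))).snd
    rw [h1, comm_NN e _ t hY, dg_apply]
    rfl
  · rw [Xt_apply, norm_smul, norm_neg, norm_inv, Complex.norm_real, Real.norm_of_nonneg ht.le]
    gcongr
    exact (WithLp.norm_snd_le _ _).trans ((hRn _).trans (norm_i1 x).le)
  · rw [one_mul]
    exact (WithLp.norm_snd_le _ (i2 x - R (i2 x))).trans ((hRo _).trans (norm_i2 x).le)
  · rw [star_sub, star_one, ContinuousLinearMap.star_eq_adjoint, sub_right_inj]
    refine ((ContinuousLinearMap.eq_adjoint_iff _ _).2 fun x y => ?_).symm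
    have k := N.inner_starProjection_left_eq_right (i2 x) (i2 y)
    rw [prod_inner_apply, prod_inner_apply] at k
    simpa [i2_apply] using k
  · ext x
    have k : R (i1 (R (i2 x)).fst) + R (i2 (R (i2 x)).snd) = R (i2 x) := by
      rw [← map_add, ← pair_eq]
      exact Submodule.starProjection_eq_self_iff.2 (N.starProjection_apply_mem _)
    rw [mul_apply_eq_comp, mul_apply_eq_comp, star_Xt, star_Xt, map_smul]
    congr 1
    show (R (i2 (x - (R (i2 x)).snd))).fst = (R (i1 (R (i2 x)).fst)).fst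
    rw [map_sub, map_sub, ← eq_sub_iff_add_eq.2 k]
  · rw [sub_sub_cancel]
    exact (WithLp.norm_snd_le _ _).trans ((hRn _).trans (norm_i2 x).le)
  · exact (WithLp.norm_fst_le _ (i1 x - R (i1 x))).trans' (by simp [i1_apply]) |>.trans
      ((hRo _).trans (norm_i1 x).le)
  · rw [Xt_apply, h0, sub_sub_cancel]
    simp [-Complex.coe_smul, smul_smul, ht']
  · rw [star_Xt, h1]
    simp [-Complex.coe_smul, smul_smul, ht', sub_eq_add_neg]
  · show e v - (R (i2 (e v))).snd = _
    rw [h1, h0, sub_sub_cancel]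
    simp [-Complex.coe_smul, smul_smul]
  · show (R (i1 (e v))).fst = _
    rw [h0, h1]
    simp [-Complex.coe_smul, smul_smul, sub_eq_add_neg, add_comm]

end Mom

/-- **row MOM** -/
theorem mom_row (D : Type*) [NormedAddCommGroup D] [InnerProductSpace ℂ D] : MOM D := by
  intro M X X' h t n v ht
  obtain ⟨Z, hZ, P, hP, P', n1, n2, s1, s2, c1, c2, z1, z2, p1, p2⟩ :=
    Mom.blocks M (fun v : D => (v : Completion D)) X X' h.2 t ht
  refine ⟨(∑ i ∈ Finset.range n, P ^ i) * Z, mul_mem (sum_mem fun i _ => pow_mem hP i) hZ,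
    (norm_mul_le _ _).trans (mul_le_mul ((norm_sum_le _ _).trans ?_) n1 (norm_nonneg _)
      n.cast_nonneg), ?_, ?_⟩
  · refine (Finset.sum_le_card_nsmul _ _ 1 fun i _ => ?_).trans (by simp)
    induction i with
    | zero => exact ContinuousLinearMap.norm_id_le
    | succ i _ => exact (norm_pow_le' _ i.succ_pos).trans (pow_le_one₀ (norm_nonneg _) n2)
  · simpa only [mul_apply_eq_comp, z1, Completion.norm_coe] using
      Mom.pow_le c1 p1 n (X v)
  · have e : star ((∑ i ∈ Finset.range n, P ^ i) * Z) = (∑ i ∈ Finset.range n, P' ^ i) * star Z := by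
      simp only [star_mul, star_sum, star_pow, s1, Finset.sum_mul]
      exact Finset.sum_congr rfl fun i _ => SemiconjBy.pow_right s2 i
    simpa only [e, mul_apply_eq_comp, z2, Completion.norm_coe] using
      Mom.pow_le c2 p2 n (X' v)

end Vale.Agent.P352X.EB
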