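import Vale.Agent.P352X.EB.Spec

/-!
# P352X, block EB, row MU1: the product of local pairs
-/

set_option linter.all false

open MeasureTheory Filter Topology
open scoped SchwartzMap ComplexConjugate ContDiff

namespace Vale.Agent.P352X.EB

open Vale.Agent.P352 Vale.Agent.P352.GF Vale.Agent.P352.BW
open UniformSpace (Completion)
open Bornology (IsBounded)

variable {D : Type*} [NormedAddCommGroup D] [InnerProductSpace ℂ D] {c : Ctx D}

namespace Mu1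

variable {K : Set V} {A B ζ ζ' : Completion D} {g h : Sg}

lemma ss (s : SG c) (g : Sg) (v : Completion D) : star (g.U c) (g.U c v) = v :=
  DFunLike.congr_fun (s.uni g).1 v

lemma ss' (s : SG c) (g : Sg) (v : Completion D) : g.U c (star (g.U c) v) = v :=
  DFunLike.congr_fun (s.uni g).2 v

lemma inj (s : SG c) (g : Sg) (e : g.U c ζ = g.U c ζ') : ζ = ζ' := by
  rw [← ss s g ζ, e, ss s]

lemma prd_uniq (s : SG c) (p : Prd (M0 c) c.Om A B ζ) (q : Prd (M0 c) c.Om A B ζ') : ζ = ζ' :=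
  s.dense.eq_of_inner_right ℂ (by
    rintro _ ⟨x, hx, rfl⟩
    rw [p x hx, q x hx])

lemma back (s : SG c) (p : Prd (M0 c) c.Om (g.U c A) (g.U c B) ζ)
    {X : Completion D →L[ℂ] Completion D} (hX : X ∈ c.N g.Op) :
    inner ℂ (X c.Om) (star (g.U c) ζ) = inner ℂ (X A) B := by
  have := p _ (s.com g X hX)
  simp only [ContinuousLinearMap.mul_apply, (s.vac g).2, ss s] at this
  rw [inner_star, this, ← inner_star, ss s]

lemma step (t : E0 c) (n : (g.Op ∩ h.Op).Nonempty) (p : Prd (M0 c) c.Om (g.U c A) (g.U c B) ζ)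
    (q : Prd (M0 c) c.Om (h.U c A) (h.U c B) ζ') : star (g.U c) ζ = star (h.U c) ζ' :=
  (t.grp.rs _ ((t.sg.opn g).inter (t.sg.opn h)) n).eq_of_inner_right ℂ (by
    rintro _ ⟨X, hX, rfl⟩
    rw [back t.sg p (c.hN.mono _ _ Set.inter_subset_left _ hX),
      back t.sg q (c.hN.mono _ _ Set.inter_subset_right _ hX)])

lemma glue (t : E0 c) (hK : IsBounded K)
    (e : ∀ g : Sg, g.Adm K → ∃ ζ, Prd (M0 c) c.Om (g.U c A) (g.U c B) ζ) : ∃ ζ, Rl c K A B ζ := by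
  obtain ⟨g, hg⟩ := t.sg.ex K hK
  obtain ⟨ζ, p⟩ := e g hg
  refine ⟨star (g.U c) ζ, fun h hh => ?_⟩
  obtain ⟨g3, g4, h3, h4, a, b, d⟩ := t.geo.chain K g h hK hg hh
  obtain ⟨ζ3, p3⟩ := e g3 h3
  obtain ⟨ζ4, p4⟩ := e g4 h4
  obtain ⟨ζ', q⟩ := e h hh
  rwa [step t a p p3, step t b p3 p4, step t d p4 q, ss' t.sg]

lemma eq (s : SG c) (hK : IsBounded K) (r : Rl c K A B ζ) : ml c A B = ζ := by
  have h : ∃ ζ, ∃ K, IsBounded K ∧ Rl c K A B ζ := ⟨ζ, K, hK, r⟩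
  obtain ⟨K', hK', r'⟩ := h.choose_spec
  obtain ⟨g, hg⟩ := s.ex _ (hK.union hK')
  rw [ml, dif_pos h]
  exact inj s g (prd_uniq s (r' g fun x a => hg x (.inr a)) (r g fun x a => hg x (.inl a)))

end Mu1

open Mu1

theorem mu1_row (t : E0 c) : MU1 c := by
  have s := t.sg
  refine ⟨fun K K' ξ ξ' e l g a => l g fun x b => a x (e b), fun K ξ ξ' g l h a => ?_,
    ⟨∅, Bornology.isBounded_empty, fun g _ => by rw [(s.vac g).1]; exact t.stb.vac _ _⟩,
    ⟨∅, Bornology.isBounded_empty, fun g _ => by rw [map_zero]; exact t.stb.zero _ _⟩, ?_, ?_,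
    fun K ξ ξ' l g a => t.stb.symm _ _ _ _ (l g a), ?_, fun K ξ' η ζ => eq s,
    fun K ξ ξ' η η' hK l l' => ?_⟩
  · have := l (h.mul g) fun x b => by rw [s.act_mul]; exact a _ ⟨x, b, rfl⟩
    rwa [s.U_mul] at this
  · rintro ξ ξ' η η' ⟨K, hK, l⟩ ⟨K', hK', l'⟩
    refine ⟨K ∪ K', hK.union hK', fun g a => ?_⟩
    rw [map_add, map_add]
    exact t.stb.add _ _ _ _ _ _ (l g fun x b => a x (.inl b)) (l' g fun x b => a x (.inr b))
  · rintro z ξ ξ' ⟨K, hK, l⟩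
    refine ⟨K, hK, fun g a => ?_⟩
    rw [map_smul, map_smul]
    exact t.stb.smul _ _ _ _ _ (l g a)
  · rintro ξ ξ' ξ'' ⟨K, hK, l⟩ ⟨K', hK', l'⟩
    obtain ⟨g, a⟩ := s.ex _ (hK.union hK')
    refine inj s g (s.dense.eq_of_inner_left ℂ ?_)
    rintro _ ⟨x, hx, rfl⟩
    rw [← t.stb.pr _ _ _ _ (l g fun x b => a x (.inl b)) x hx,
      t.stb.pr _ _ _ _ (l' g fun x b => a x (.inr b)) x hx]
  · have P := fun (g : Sg) a => t.prod _ _ _ _ _ _ s.dense (l g a) (l' g a)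
    obtain ⟨ζ, r⟩ := glue t hK fun g a => (P g a).imp fun _ ⟨_, q⟩ => q.2.1
    obtain ⟨ζ', r'⟩ := glue t hK fun g a => (P g a).elim fun _ q => q.imp fun _ q => q.2.2.1
    rw [eq s hK r, eq s hK r']
    refine ⟨fun g a => ?_, r, fun g a => ?_⟩ <;> obtain ⟨z, z', q1, q2, q3, q4⟩ := P g a
    · rwa [prd_uniq s (r g a) q2, prd_uniq s (r' g a) q3]
    · rwa [prd_uniq s (r g a) q2]

end Vale.Agent.P352X.EB
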