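import Vale.Agent.P352X.EB.Spec
import Vale.Agent.P352X.Api2b
import Vale.Agent.P352.H246.Compl

/-!
# P352X, block EB, row OPS: the letters act on the local vectors
-/

set_option linter.all false

open MeasureTheory Filter Topology
open scoped SchwartzMap ComplexConjugate ContDiff

namespace Vale.Agent.P352X.EB

open Vale.Agent.P352 Vale.Agent.P352.GF Vale.Agent.P352.BW Vale.Agent.P352.H246
open Vale.Agent.P352.H496 Vale.Agent.P352.H755 Vale.Agent.P352.H15
open UniformSpace (Completion)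
open Bornology (IsBounded)

noncomputable section

variable {D : Type*} [NormedAddCommGroup D] [InnerProductSpace ℂ D] {c : Ctx D} {Λ : Type*}

namespace Ops

theorem U_inv_app (t : E0 c) (g : Sg) (z : Completion D) : g.U c (g.inv.U c z) = z := by
  have h := (Unitary.mem_iff.1 (t.sg.uni g)).2
  rw [t.sg.U_inv, ← ContinuousLinearMap.mul_apply, h, ContinuousLinearMap.one_apply]

theorem inv_U_app (t : E0 c) (g : Sg) (z : Completion D) : g.inv.U c (g.U c z) = z := by
  have h := (Unitary.mem_iff.1 (t.sg.uni g)).1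
  rw [t.sg.U_inv, ← ContinuousLinearMap.mul_apply, h, ContinuousLinearMap.one_apply]

theorem loc_phi (t : E0 c) (x : Lt c Λ) (a : Λ) {K : Set V} {f : Fn} (hf : In K f) :
    Loc c K (x.φ a f) (x.φ (x.dag a) (bar f)) := by
  intro g hg
  obtain ⟨n, κ, b, h⟩ := x.cov a g.inv
  have hin : In W0 (g.inv.pull f) := by
    refine Ap.in_mono (t.sg.inn g.inv K f hf) fun y hy => ?_
    have := hg _ hy
    rwa [t.sg.act_inv] at this
  rw [(h f hf.1).1, (h (bar f) (Ap.test_bar hf.1)).2]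
  simp only [map_sum, map_smul, U_inv_app t]
  exact t.stb.sum _ _ (Fin n) Finset.univ _ _ fun i _ => t.stb.smul _ _ _ _ _ (x.st (b i) _ hin)

theorem bdd_supp {O : Set V} {f : Fn} (hf : In O f) : IsBounded (tsupport f) :=
  IsCompact.isBounded hf.2.1

theorem in_self {O : Set V} {f : Fn} (hf : In O f) : In (tsupport f) f := ⟨hf.1, hf.2.1, le_rfl⟩

theorem lp_phi (t : E0 c) (x : Lt c Λ) (a : Λ) {O : Set V} {f : Fn} (hf : In O f) :
    Lp c (x.φ a f) (x.φ (x.dag a) (bar f)) :=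
  ⟨_, bdd_supp hf, loc_phi t x a (in_self hf)⟩

theorem lp_symm (m : MU1 c) {ξ ξ' : Completion D} (h : Lp c ξ ξ') : Lp c ξ' ξ := by
  obtain ⟨K, hK, h⟩ := h
  exact ⟨K, hK, m.symm _ _ _ h⟩

theorem lp_U (t : E0 c) (m : MU1 c) (g : Sg) {ξ ξ' : Completion D} (h : Lp c ξ ξ') :
    Lp c (g.U c ξ) (g.U c ξ') := by
  obtain ⟨K, hK, h⟩ := h
  exact ⟨_, t.sg.bdd g K hK, m.U _ _ _ g h⟩

theorem d_ml (m : MU1 c) {ξ ξ' η : Completion D} (h : Lp c ξ ξ') (hη : D1 c η) :
    D1 c (ml c ξ' η) := by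
  obtain ⟨K, hK, h⟩ := h
  obtain ⟨η', K', hK', h'⟩ := hη
  exact ⟨_, K ∪ K', hK.union hK', (m.prod _ _ _ _ _ (hK.union hK')
    (m.mono _ _ _ _ Set.subset_union_left h) (m.mono _ _ _ _ Set.subset_union_right h')).1⟩

theorem ml_zero (m : MU1 c) (m' : MU2 c) {η : Completion D} (hη : D1 c η) : ml c 0 η = 0 := by
  have := m'.smul_l 0 0 η 0 m.zero hη
  simpa using this

theorem ml_sum (m : MU1 c) (m' : MU2 c) {ι : Type*} (s : Finset ι) (κ : ι → ℂ)
    (ξ ξ' : ι → Completion D) {η : Completion D} (h : ∀ i ∈ s, Lp c (ξ i) (ξ' i)) (hη : D1 c η) :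
    Lp c (∑ i ∈ s, κ i • ξ i) (∑ i ∈ s, conj (κ i) • ξ' i) ∧
      ml c (∑ i ∈ s, conj (κ i) • ξ' i) η = ∑ i ∈ s, κ i • ml c (ξ' i) η := by
  classical
  induction s using Finset.induction_on with
  | empty => simpa using ⟨m.zero, ml_zero m m' hη⟩
  | insert i s hi ih =>
    obtain ⟨h1, h2⟩ := ih fun j hj => h j (Finset.mem_insert_of_mem hj)
    have h0 := h i (Finset.mem_insert_self _ _)
    have h3 := m.smul (κ i) _ _ h0
    simp only [Finset.sum_insert hi]
    exact ⟨m.add _ _ _ _ h3 h1, by rw [m'.add_l _ _ _ _ _ h3 h1 hη, m'.smul_l _ _ _ _ h0 hη, h2]⟩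

theorem op_lin (t : E0 c) (m : MU1 c) (m' : MU2 c) (x : Lt c Λ) (a : Λ) {f g : Fn} (z : ℂ)
    {v : Completion D} (hf : In Set.univ f) (hg : In Set.univ g) (hv : D1 c v) :
    x.op a (fun y => f y + z * g y) v = x.op a f v + z • x.op a g v := by
  have e : bar (fun y => f y + z * g y) = fun y => bar f y + conj z * bar g y := by
    funext y; simp [bar]
  unfold Lt.op
  rw [e, x.lin _ _ _ _ (Ap.test_bar hf.1) (Ap.test_bar hg.1),
    m'.add_l _ _ _ _ _ (lp_phi t x a hf) (m.smul z _ _ (lp_phi t x a hg)) hv,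
    m'.smul_l _ _ _ _ (lp_phi t x a hg) hv]

theorem op_add (t : E0 c) (m : MU1 c) (m' : MU2 c) (x : Lt c Λ) (a : Λ) {f g : Fn}
    {v : Completion D} (hf : In Set.univ f) (hg : In Set.univ g) (hv : D1 c v) :
    x.op a (fun y => f y + g y) v = x.op a f v + x.op a g v := by
  simpa using op_lin t m m' x a 1 hf hg hv

theorem op_smul (t : E0 c) (m' : MU2 c) (x : Lt c Λ) (a : Λ) {g : Fn} (z : ℂ)
    {v : Completion D} (hg : In Set.univ g) (hv : D1 c v) :
    x.op a (fun y => z * g y) v = z • x.op a g v := by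
  have h0 : x.φ (x.dag a) (fun _ => 0) = 0 := by
    have := x.lin (x.dag a) (fun _ => 0) (fun _ => 0) 1 (Ap.in_zero (O := Set.univ)).1
      (Ap.in_zero (O := Set.univ)).1
    simpa using this
  have e : bar (fun y => z * g y) = fun y => (fun _ => (0 : ℂ)) y + conj z * bar g y := by
    funext y; simp [bar]
  unfold Lt.op
  rw [e, x.lin _ _ _ _ (Ap.in_zero (O := Set.univ)).1 (Ap.test_bar hg.1), h0, zero_add,
    m'.smul_l _ _ _ _ (lp_phi t x a hg) hv]

theorem op_loc (t : E0 c) (m : MU1 c) (m' : MU2 c) (x : Lt c Λ) (a b : Λ) {f g : Fn}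
    {v : Completion D} (hf : In Set.univ f) (hg : In Set.univ g) (hs : Sep f g) (hv : D1 c v) :
    x.op a f (x.op b g v) = x.op b g (x.op a f v) := by
  have hm : ∀ a f, In Set.univ f → D1 c (x.op a f v) := fun a f hf => d_ml m (lp_phi t x a hf) hv
  refine sub_eq_zero.1 (t.pou (fun f g => x.op a f (x.op b g v) - x.op b g (x.op a f v))
    ?_ ?_ ?_ f g hf hg hs)
  · intro f f' g hf hf' hg
    have e : x.op b g (x.op a f v + x.op a f' v) = x.op b g (x.op a f v) + x.op b g (x.op a f' v) :=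
      m'.add_r _ _ _ _ (lp_phi t x b hg) (hm a f hf) (hm a f' hf')
    rw [op_add t m m' x a hf hf' (hm b g hg), op_add t m m' x a hf hf' hv, e]
    abel
  · intro f g g' hf hg hg'
    have e : x.op a f (x.op b g v + x.op b g' v) = x.op a f (x.op b g v) + x.op a f (x.op b g' v) :=
      m'.add_r _ _ _ _ (lp_phi t x a hf) (hm b g hg) (hm b g' hg')
    rw [op_add t m m' x b hg hg' (hm a f hf), op_add t m m' x b hg hg' hv, e]
    abel
  · intro p q hpq
    obtain ⟨ε, hε, hK⟩ := t.geo.sep p q hpq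
    refine ⟨ε, hε, fun f g hf hg => sub_eq_zero.2 ?_⟩
    exact m'.loc _ _ _ _ _ _ _ Metric.isBounded_ball Metric.isBounded_ball hK (loc_phi t x a hf)
      (loc_phi t x b hg) hv

theorem op_cont (t : E0 c) (m : MU1 c) (m' : MU2 c) (x : Lt c Λ) (a : Λ) (R : ℕ)
    {v : Completion D} (hv : D1 c v) : Continuous fun f : Sch => x.op a (cutf R (ev f)) v := by
  have hi : ∀ f : Sch, In (Metric.closedBall 0 (2 * ((R : ℝ) + 1))) (cutf R (ev f)) := fun f =>
    Ap.in_mono (t.ana.inn R _ (Ap.test_ev f)) Set.inter_subset_right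
  let Ψ : Sch →ₗ[ℂ] Completion D :=
    { toFun := fun f => x.op a (cutf R (ev f)) v
      map_add' := fun f g => by
        have e : cutf R (ev (f + g)) = fun y => cutf R (ev f) y + cutf R (ev g) y := by
          funext y; simp [cutf, ev, mul_add]
        rw [e, op_add t m m' x a (Ap.in_univ' (hi f)) (Ap.in_univ' (hi g)) hv]
      map_smul' := fun z g => by
        have e : cutf R (ev (z • g)) = fun y => z * cutf R (ev g) y := by
          funext y; simp [cutf, ev]; ring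
        rw [e, op_smul t m' x a z (Ap.in_univ' (hi g)) hv]
        rfl }
  obtain ⟨v', K, hK, hL⟩ := hv
  have hK' : IsBounded (Metric.closedBall (0 : V) (2 * ((R : ℝ) + 1)) ∪ K) :=
    Metric.isBounded_closedBall.union hK
  obtain ⟨g, hg⟩ := t.sg.ex _ hK'
  have hZ : Dense (g.inv.U c '' {z | ∃ Y ∈ (M0 c).commutant, Y c.Om = z}) := by
    refine DenseRange.dense_image (Function.Surjective.denseRange fun z => ⟨_, inv_U_app t g z⟩)
      (g.inv.U c).continuous t.sg.dense
  haveI := t.ana.barr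
  refine cont_of_weak Ψ hZ ?_
  rintro _ ⟨_, ⟨Y, hY, rfl⟩, rfl⟩
  obtain ⟨P, hP⟩ := t.ana.clm R
  let B : Sch →L[ℝ] Sch := SchwartzMap.postcompCLM (𝕜 := ℝ) Complex.conjCLE.toContinuousLinearMap
  have hB : ∀ f, ev (B f) = bar (ev f) := fun f => rfl
  have e : ∀ f : Sch, inner ℂ (g.inv.U c (Y c.Om)) (Ψ f) =
      inner ℂ (Y (g.U c (x.φ (x.dag a) (ev (B (P f)))))) (g.U c v) := by
    intro f
    have h1 := (m.prod _ _ _ _ _ hK' (loc_phi t x a (Ap.in_mono (hi f) Set.subset_union_left))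
      (m.mono _ _ _ _ Set.subset_union_right hL)).2.1 g hg Y hY
    rw [hB, hP, ← h1, t.sg.U_inv, ContinuousLinearMap.star_eq_adjoint,
      ContinuousLinearMap.adjoint_inner_left]
    rfl
  simp only [e]
  exact (Y.continuous.comp ((g.U c).continuous.comp ((x.cont (x.dag a)).comp
    (B.continuous.comp P.continuous)))).inner continuous_const

end Ops

open Ops in
/-- row OPS -/
theorem ops_row (t : E0 c) (m : MU1 c) (m' : MU2 c) (x : Lt c Λ) : OPS x where
  d_vac := ⟨_, m.vac⟩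
  d_zero := ⟨_, m.zero⟩
  d_add := fun v w ⟨_, hv⟩ ⟨_, hw⟩ => ⟨_, m.add _ _ _ _ hv hw⟩
  d_smul := fun z v ⟨_, hv⟩ => ⟨_, m.smul z _ _ hv⟩
  d_U := fun g v ⟨_, hv⟩ => ⟨_, lp_U t m g hv⟩
  mem := fun a f v hf hv => d_ml m (lp_phi t x a hf) hv
  vac := fun a f hf => m'.one _ _ (lp_phi t x a hf)
  add := fun a f v w hf hv hw => m'.add_r _ _ _ _ (lp_phi t x a hf) hv hw
  smul := fun a f z v hf hv => m'.smul_r _ _ _ _ (lp_phi t x a hf) hv
  lin := fun a f g z v hf hg hv => op_lin t m m' x a z hf hg hv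
  herm := fun a f v w hf hv hw => by
    unfold Lt.op
    rw [m'.herm _ _ _ _ (lp_phi t x a hf) hv hw, x.dag2, Ap.bar_bar]
  cov := fun a g n κ b f v h hf hv => by
    have hin : In Set.univ (g.pull f) := Ap.in_univ' (t.sg.inn g _ f hf)
    have hv' : D1 c (g.U c v) := by
      obtain ⟨_, hv⟩ := hv
      exact ⟨_, lp_U t m g hv⟩
    have h1 := (ml_sum m m' Finset.univ κ _ _
      (fun i _ => lp_U t m g (lp_phi t x (b i) hin)) hv').2
    unfold Lt.op
    rw [h (bar f) (Ap.test_bar hf.1)]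
    refine h1.trans (Finset.sum_congr rfl fun i _ => ?_)
    rw [m'.cov _ _ _ g (lp_phi t x (b i) hin) hv]
  loc := fun a b f g v hf hg hs hv => op_loc t m m' x a b hf hg hs hv
  aff := fun a B B' f v w h hf hv => by
    obtain ⟨hB, hB', hA, h⟩ := h
    have h1 := lp_phi t x a hf
    unfold Lt.op
    rw [(h f hf.1).1, (h (bar f) (Ap.test_bar hf.1)).2] at h1
    rw [(h (bar f) (Ap.test_bar hf.1)).2]
    exact m'.aff (tsupport f) (fun v => B f v) (fun v => B' (bar f) v) v w (bdd_supp hf)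
      (t.grp.affa _ _ _ (Al.fld B B' f _ _ hB hB' hA (in_self hf) Al.one)) h1 hv
  zero := fun n κ b f v hf h hv => by
    obtain ⟨h1, h2⟩ := ml_sum m m' Finset.univ κ _ _ (fun i _ => lp_phi t x (b i) (hf i)) hv
    obtain ⟨-, h3⟩ := ml_sum m m' Finset.univ (fun i => conj (κ i)) _ _
      (fun i _ => lp_symm m (lp_phi t x (b i) (hf i))) hv
    rw [h] at h1
    rw [m.uniq _ _ _ h1 m.zero, ml_zero m m' hv] at h2
    simp only [Complex.conj_conj] at h3
    rw [h, ml_zero m m' hv] at h3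
    refine ⟨h2.symm, Eq.trans ?_ h3.symm⟩
    refine Finset.sum_congr rfl fun i _ => ?_
    unfold Lt.op
    rw [x.dag2, Ap.bar_bar]
  cont := fun a R v hv => op_cont t m m' x a R hv

end

end Vale.Agent.P352X.EB
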