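import Vale.Agent.P352X.EB.Spec

/-!
# P352X, block EB, row PROD: smooth tame pairs can be multiplied
-/

set_option linter.all false

open Filter Topology

namespace Vale.Agent.P352X.EB

noncomputable section

namespace Prodr

section seq

variable {E : Type*} [NormedAddCommGroup E] {u v : ℕ → E} {e e' : ℝ}

/-- superexponentially small vectors -/
def SV (v : ℕ → E) : Prop := SE fun n => ‖v n‖

/-- geometric bounds -/
def GB (v : ℕ → E) : Prop := ∃ K c : ℝ, 0 < c ∧ ∀ n, ‖v n‖ ≤ K * c ^ n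

/-- polynomial bounds -/
def PB (e : ℝ) (v : ℕ → E) : Prop := ∃ C : ℝ, 0 ≤ C ∧ ∀ n, ‖v n‖ ≤ C * ((n : ℝ) + 1) ^ e

theorem SV.add (hu : SV u) (hv : SV v) : SV fun n => u n + v n := fun r hr => by
  obtain ⟨C, hC⟩ := hu r hr
  obtain ⟨C', hC'⟩ := hv r hr
  exact ⟨C + C', fun n => (norm_add_le _ _).trans (by linarith [hC n, hC' n])⟩

theorem SV.sub (hu : SV u) (hv : SV v) : SV fun n => u n - v n := by
  simpa only [sub_eq_add_neg] using hu.add (v := fun n => -v n) (by simpa [SV] using hv)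

theorem SV.succ (hu : SV u) : SV fun n => u (n + 1) := fun r hr =>
  (hu r hr).imp' (· * r) fun C hC n => (hC (n + 1)).trans_eq (by ring)

theorem SV.diff {ξ : E} (h : SV fun n => ξ - u n) : SV fun n => u (n + 1) - u n := by
  simpa using h.sub h.succ

theorem SV.zero (hu : SV u) : Tendsto u atTop (𝓝 0) := by
  obtain ⟨C, hC⟩ := hu (1 / 2) one_half_pos
  refine squeeze_zero_norm hC ?_
  simpa using (tendsto_pow_atTop_nhds_zero_of_lt_one (r := (1 / 2 : ℝ)) (by norm_num)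
    (by norm_num)).const_mul C

theorem SV.tend {ξ : E} (h : SV fun n => ξ - u n) : Tendsto u atTop (𝓝 ξ) := by
  simpa using h.zero.const_sub ξ

theorem SV.lim [CompleteSpace E] (h : SV fun n => u (n + 1) - u n) :
    ∃ ζ, SV fun n => ζ - u n := by
  have h1 (r : ℝ) (hr : 0 < r) : ∃ C, ∀ n, dist (u n) (u (n + 1)) ≤ C * r ^ n :=
    (h r hr).imp fun C hC n => by rw [dist_comm, dist_eq_norm]; exact hC n
  obtain ⟨C, hC⟩ := h1 (1 / 2) one_half_pos
  obtain ⟨ζ, hζ⟩ := cauchySeq_tendsto_of_complete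
    (cauchySeq_of_le_geometric (1 / 2) C one_half_lt_one hC)
  refine ⟨ζ, fun r hr => ?_⟩
  have h2 : 0 < min r (1 / 2) := lt_min hr one_half_pos
  have h3 : min r (1 / 2) < 1 := (min_le_right _ _).trans_lt one_half_lt_one
  obtain ⟨K, hK⟩ := h1 _ h2
  have h4 : 0 ≤ K := by simpa using dist_nonneg.trans (hK 0)
  refine ⟨K / (1 - min r (1 / 2)), fun n => ?_⟩
  have := dist_le_of_le_geometric_of_tendsto _ K h3 hK hζ n
  rw [dist_comm, dist_eq_norm, mul_div_right_comm] at this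
  refine this.trans (mul_le_mul_of_nonneg_left (pow_le_pow_left₀ h2.le (min_le_left _ _) n) ?_)
  exact div_nonneg h4 (by linarith)

theorem GB.succ (h : GB u) : GB fun n => u (n + 1) := by
  obtain ⟨K, c, hc, h⟩ := h
  exact ⟨K * c, c, hc, fun n => (h (n + 1)).trans_eq (by ring)⟩

theorem one_le (n : ℕ) : (1 : ℝ) ≤ (n : ℝ) + 1 := by simp

theorem pos (n : ℕ) : (0 : ℝ) < (n : ℝ) + 1 := by positivity

theorem PB.mono (h : PB e u) (he : e ≤ e') : PB e' u := h.imp fun C hC => ⟨hC.1, fun n =>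
  (hC.2 n).trans (mul_le_mul_of_nonneg_left (Real.rpow_le_rpow_of_exponent_le (one_le n) he) hC.1)⟩

theorem PB.add (hu : PB e u) (hv : PB e v) : PB e fun n => u n + v n := by
  obtain ⟨C, h0, hC⟩ := hu
  obtain ⟨C', h0', hC'⟩ := hv
  exact ⟨C + C', by positivity, fun n => (norm_add_le _ _).trans (by linarith [hC n, hC' n])⟩

theorem PB.sub (hu : PB e u) (hv : PB e v) : PB e fun n => u n - v n := by
  simpa only [sub_eq_add_neg] using hu.add (v := fun n => -v n) (by simpa [PB] using hv)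

theorem rp (e : ℝ) {q c : ℝ} (h1 : 1 ≤ q) (h2 : q ≤ c) : q ^ e ≤ c ^ |e| :=
  (Real.rpow_le_rpow_of_exponent_le h1 (le_abs_self e)).trans
    (Real.rpow_le_rpow (by linarith) h2 (abs_nonneg e))

theorem PB.succ (h : PB e u) : PB e fun n => u (n + 1) := by
  obtain ⟨C, h0, hC⟩ := h
  refine ⟨C * 2 ^ |e|, by positivity, fun n => (hC (n + 1)).trans ?_⟩
  have h1 := pos n
  have : ((n + 1 : ℕ) : ℝ) + 1 = (n + 2) / (n + 1) * (n + 1) := by push_cast; field_simp; ring
  rw [this, Real.mul_rpow (by positivity) h1.le, mul_assoc]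
  gcongr
  exact rp e (by rw [le_div_iff₀ h1]; linarith) (by rw [div_le_iff₀ h1]; linarith [one_le n])

theorem PB.gb (h : PB e u) : GB u := by
  obtain ⟨C, h0, hC⟩ := h
  refine ⟨C, 2 ^ |e|, by positivity, fun n => (hC n).trans (mul_le_mul_of_nonneg_left ?_ h0)⟩
  rw [← Real.rpow_natCast, ← Real.rpow_mul zero_le_two, mul_comm, Real.rpow_mul zero_le_two,
    Real.rpow_natCast]
  exact rp e (one_le n) (by exact_mod_cast Nat.lt_two_pow_self)

theorem PB.zero (h : PB e u) (he : e < 0) : Tendsto u atTop (𝓝 0) := by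
  obtain ⟨C, -, hC⟩ := h
  refine squeeze_zero_norm hC ?_
  have := (tendsto_rpow_neg_atTop (neg_pos.2 he)).comp
    (tendsto_atTop_add_const_right atTop 1 tendsto_natCast_atTop_atTop)
  simpa using this.const_mul C

theorem PB.tail [CompleteSpace E] (h : PB (e - 2) u) (he : e ≤ 0) :
    Summable u ∧ PB e fun n => ∑' m, u (m + n) := by
  obtain ⟨C, h0, hC⟩ := h
  have hs : Summable fun m : ℕ => ((m : ℝ) + 1) ^ (-2 : ℝ) := by
    simpa using (summable_nat_add_iff 1).2 (Real.summable_nat_rpow.2 (show (-2 : ℝ) < -1 by norm_num))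
  have h1 (n m : ℕ) : ‖u (m + n)‖ ≤ C * ((n : ℝ) + 1) ^ e * ((m : ℝ) + 1) ^ (-2 : ℝ) := by
    refine (hC _).trans ?_
    rw [sub_eq_add_neg, Real.rpow_add (pos _), mul_assoc]
    have := pos n
    have := pos m
    push_cast
    gcongr C * (?_ * ?_)
    · exact Real.rpow_le_rpow_of_nonpos (pos n) (by linarith) he
    · exact Real.rpow_le_rpow_of_nonpos (pos m) (by linarith) (by norm_num)
  refine ⟨.of_norm_bounded (hs.mul_left _) (h1 0), C * ∑' m : ℕ, ((m : ℝ) + 1) ^ (-2 : ℝ),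
    mul_nonneg h0 (tsum_nonneg fun m => by positivity), fun n => ?_⟩
  exact (tsum_of_norm_bounded (hs.hasSum.mul_left _) (h1 n)).trans_eq (by ring)

theorem PB.mul {R : Type*} [NormedRing R] {u v : ℕ → R} (hu : PB e u) (hv : PB e' v) {f : ℝ}
    (h : e + e' ≤ f) : PB f fun n => u n * v n := by
  obtain ⟨C, h0, hC⟩ := hu
  obtain ⟨C', h0', hC'⟩ := hv
  refine PB.mono ⟨C * C', by positivity, fun n => (norm_mul_le _ _).trans ?_⟩ h
  rw [Real.rpow_add (pos n), mul_mul_mul_comm]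
  exact mul_le_mul (hC n) (hC' n) (norm_nonneg _) (by positivity)

end seq

variable {H : Type*} [NormedAddCommGroup H] [InnerProductSpace ℂ H] [CompleteSpace H]
  {M : VonNeumannAlgebra H} {Ω ξ ξ' η η' ζ : H}

theorem SV.op {T : ℕ → H →L[ℂ] H} {v : ℕ → H} (hT : GB T) (hv : SV v) :
    SV fun n => T n (v n) := fun r hr => by
  obtain ⟨K, c, hc, hK⟩ := hT
  obtain ⟨C, hC⟩ := hv (r / c) (div_pos hr hc)
  refine ⟨K * C, fun n => ((T n).le_opNorm _).trans ((mul_le_mul (hK n) (hC n) (norm_nonneg _)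
    ((norm_nonneg _).trans (hK n))).trans_eq ?_)⟩
  rw [div_pow]; field_simp

theorem app0 {T : ℕ → H →L[ℂ] H} (h : Tendsto T atTop (𝓝 0)) (v : H) :
    Tendsto (fun n => T n v) atTop (𝓝 0) :=
  ((ContinuousLinearMap.apply ℂ H v).continuous.tendsto' 0 0 (map_zero _)).comp h

theorem prd_of {A B T : ℕ → H →L[ℂ] H} (hA : ∀ n, A n ∈ M)
    (h1 : Tendsto (fun n => star (A n) Ω) atTop (𝓝 ξ')) (h2 : Tendsto (fun n => B n Ω) atTop (𝓝 η))
    (h3 : Tendsto T atTop (𝓝 0)) (h4 : Tendsto (fun n => (A n * B n + T n) Ω) atTop (𝓝 ζ)) :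
    Prd M Ω ξ' η ζ := fun x hx => by
  have h5 := (((x.continuous.tendsto _).comp h1).inner (𝕜 := ℂ) h2).add
    ((tendsto_const_nhds (x := x Ω)).inner (𝕜 := ℂ) (app0 h3 Ω))
  rw [inner_zero_right, add_zero] at h5
  refine tendsto_nhds_unique (tendsto_const_nhds.inner h4) (h5.congr fun n => ?_)
  rw [Function.comp, ← comm_apply (star_mem (hA n)) hx, star_inner, ← inner_add_right]
  rfl

theorem step {N N' k : ℕ} (h1 : QT M Ω N (N + N' + k + 3) ξ ξ')
    (h2 : QT M Ω N' (N + N' + k + 3) η η') :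
    ∃ ζ ζ', QT M Ω (N + N') k ζ ζ' ∧ Prd M Ω ξ' η ζ ∧ Prd M Ω η ξ' ζ' ∧ Core M Ω η ξ ζ := by
  obtain ⟨C, a, h, hC, ha, sa, sa'⟩ := h1
  obtain ⟨C', b, g, hC', hb, sb, sb'⟩ := h2
  choose aM hM an hn a1 m1 a2 m2 e1 e2 n1 n2 using ha
  choose bM gM bn gn b1 m1' b2 m2' e1' e2' n1' n2' using hb
  have z1 : (0 : ℝ) ≤ N := N.cast_nonneg
  have z2 : (0 : ℝ) ≤ N' := N'.cast_nonneg
  have z3 : (0 : ℝ) ≤ k := k.cast_nonneg
  have pb {K : ℝ} {T : ℕ → H →L[ℂ] H} (hK : 1 ≤ K)
      (hT : ∀ n, ‖T n‖ ≤ K / ((n : ℝ) + 1) ^ (N + N' + k + 3)) : PB (-(N + N' + k + 3)) T :=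
    ⟨K, by linarith, fun n => (hT n).trans_eq (by
      rw [Real.rpow_neg (pos n).le, div_eq_mul_inv, ← Real.rpow_natCast]; push_cast; rfl)⟩
  have gb {K : ℝ} {T : ℕ → H →L[ℂ] H} (hK : 1 ≤ K) (hT : ∀ n, ‖T n‖ ≤ K ^ (n + 1)) : GB T :=
    ⟨K, K, by linarith, fun n => (hT n).trans_eq (by ring)⟩
  have pa : PB N a := ⟨C, by linarith, by simpa using an⟩
  have pb' : PB N' b := ⟨C', by linarith, by simpa using bn⟩
  have ph := pb hC hn
  have pg := pb hC' gn
  set A := fun n => a n + h n with hA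
  set B := fun n => b n + g n with hB
  have AM (n : ℕ) : A n ∈ M := add_mem (aM n) (hM n)
  have BM (n : ℕ) : B n ∈ M := add_mem (bM n) (gM n)
  have pA : PB N A := pa.add (ph.mono (by linarith))
  have pB : PB N' B := pb'.add (pg.mono (by linarith))
  let r := fun n => (A (n + 1) - A n) * g (n + 1) + h n * (B (n + 1) - B n)
  obtain ⟨rs, pT⟩ := PB.tail (e := -(k + 1)) (u := r) (((pA.succ.sub pA).mul pg.succ
    (by linarith)).add (ph.mul (pB.succ.sub pB) (by linarith))) (by linarith)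
  set T := fun n => ∑' m, r (m + n) with hT
  have TM (n : ℕ) : T n ∈ M := mem_of_tendsto (.of_forall fun s => sum_mem fun m _ =>
    add_mem (mul_mem (sub_mem (AM _) (AM _)) (gM _)) (mul_mem (hM _) (sub_mem (BM _) (BM _))))
    ((summable_nat_add_iff n).2 rs).hasSum.tendsto_sum_nat
  have T0 := pT.zero (by linarith)
  have eT (n : ℕ) : T n = r n + T (n + 1) := by
    simpa only [zero_add, add_assoc, add_comm 1 n] using
      ((summable_nat_add_iff n).2 rs).tsum_eq_zero_add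
  let P := fun n => A n * B n + T n
  have eP (n : ℕ) : P (n + 1) - P n =
      (A (n + 1) - A n) * b (n + 1) + a n * (B (n + 1) - B n) := by
    simp only [P, eT n, r, hA, hB]; noncomm_ring
  obtain ⟨ζ, hζ⟩ := SV.lim (u := fun n => P n Ω) <| by
    convert (SV.op (gb hC' n1').succ (SV.diff sa)).add (SV.op pa.gb (SV.diff sb)) using 2 with n
    rw [← ContinuousLinearMap.sub_apply, eP, ← ContinuousLinearMap.sub_apply,
      ← comm_apply (sub_mem (AM _) (AM _)) (m1' _), ← e1']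
    rfl
  obtain ⟨ζ', hζ'⟩ := SV.lim (u := fun n => star (P n) Ω) <| by
    have : GB fun n => star (b n) := by simpa only [GB, norm_star] using pb'.gb
    convert (SV.op this.succ (SV.diff sa')).add (SV.op (gb hC n2) (SV.diff sb')) using 2 with n
    rw [← ContinuousLinearMap.sub_apply, ← star_sub, eP, ← ContinuousLinearMap.sub_apply,
      ← ContinuousLinearMap.sub_apply, ← star_sub, ← star_sub,
      ← comm_apply (star_mem (sub_mem (BM _) (BM _))) (m2 _), ← e2, star_add, star_mul, star_mul]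
    rfl
  have eP' (n : ℕ) : a n * b n + (a n * g n + h n * B n + T n) = P n := by
    simp only [P, hA, hB]; noncomm_ring
  refine ⟨ζ, ζ', ?_, prd_of AM (SV.tend sa') (SV.tend sb) T0 hζ.tend,
    prd_of (B := fun n => star (A n)) (T := fun n => star (T n)) (fun n => star_mem (BM n))
      (by simpa only [star_star] using SV.tend sb) (SV.tend sa') (by simpa using T0.star)
      (by simpa only [P, star_add, star_mul] using hζ'.tend), b1, m1', ?_, ?_⟩
  · obtain ⟨K, hK, hK'⟩ := ((pa.mul pg (f := -k) (by linarith)).add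
      (ph.mul pB (by linarith))).add (pT.mono (by linarith))
    have c1 : 1 ≤ C * C' := one_le_mul_of_one_le_of_one_le hC hC'
    have c2 (n : ℕ) {x y : H →L[ℂ] H} (hx : ‖x‖ ≤ C ^ (n + 1)) (hy : ‖y‖ ≤ C' ^ (n + 1)) :
        ‖x‖ * ‖y‖ ≤ (C * C' + K) ^ (n + 1) :=
      (mul_le_mul hx hy (norm_nonneg _) (by positivity)).trans (by
        rw [← mul_pow]; gcongr; linarith)
    refine ⟨C * C' + K, fun n => a n * b n, fun n => a n * g n + h n * B n + T n, by linarith,
      fun n => ⟨mul_mem (aM n) (bM n), add_mem (add_mem (mul_mem (aM n) (gM n))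
        (mul_mem (hM n) (BM n))) (TM n), (norm_mul_le _ _).trans ((mul_le_mul (an n) (bn n)
          (norm_nonneg _) (by positivity)).trans ?_), (hK' n).trans ?_, b1 n * a1 n,
        mul_mem (m1' n) (m1 n), a2 n * b2 n, mul_mem (m2 n) (m2' n), ?_, ?_,
        (norm_mul_le _ _).trans (mul_comm ‖b1 n‖ _ ▸ c2 n (n1 n) (n1' n)),
        (norm_mul_le _ _).trans (c2 n (n2 n) (n2' n))⟩, by simpa only [Apx, eP'] using ⟨hζ, hζ'⟩⟩
    · rw [mul_mul_mul_comm, ← pow_add]; gcongr; linarith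
    · rw [Real.rpow_neg (pos n).le, Real.rpow_natCast, ← div_eq_mul_inv]; gcongr; linarith
    · simp only [ContinuousLinearMap.mul_apply]
      rw [e1', comm_apply (aM n) (m1' n), e1]
    · simp only [star_mul, ContinuousLinearMap.mul_apply]
      rw [e2, comm_apply (star_mem (bM n)) (m2 n), e2']
  · simpa [← e1', hB] using (SV.tend sb).sub (app0 (pg.zero (by linarith)) Ω)
  · have := (SV.op (gb hC' n1') sa).zero.add (hζ.tend.sub (app0 (((pA.mul pg (f := -1)
      (by linarith)).add (pT.mono (by linarith))).zero (by norm_num)) Ω))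
    rw [zero_add, sub_zero] at this
    refine this.congr fun n => ?_
    rw [map_sub, ← comm_apply (AM n) (m1' n), ← e1']
    simp [P, hB]

end Prodr

open Prodr in
theorem prod_row (H : Type*) [NormedAddCommGroup H] [InnerProductSpace ℂ H] [CompleteSpace H] :
    PROD H := fun M Ω ξ ξ' η η' hd ⟨N, h1⟩ ⟨N', h2⟩ => by
  choose ζ ζ' h3 h4 h5 h6 using fun k => step (k := k) (h1 _) (h2 _)
  have u {x y z z' : H} (h : Prd M Ω x y z) (h' : Prd M Ω x y z') : z = z' :=
    hd.eq_of_inner_right (𝕜 := ℂ) fun _ ⟨Y, hY, e⟩ => by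
      subst e; exact (h Y hY).trans (h' Y hY).symm
  exact ⟨ζ 0, ζ' 0, ⟨N + N', fun k => by
    rw [u (h4 0) (h4 k), u (h5 0) (h5 k)]; exact h3 k⟩, h4 0, h5 0, h6 0⟩

end

end Vale.Agent.P352X.EB
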