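import Vale.Agent.P352X.EB.Spec

/-!
# P352X, block EB, row REC: the new theory
-/

set_option linter.all false

open MeasureTheory Filter Topology
open scoped SchwartzMap ComplexConjugate ContDiff

namespace Vale.Agent.P352X.EB

open Vale.Agent.P352 Vale.Agent.P352.GF Vale.Agent.P352.BW Vale.Agent.P352.H246
open UniformSpace (Completion)

noncomputable section

variable {D : Type*} [NormedAddCommGroup D] [InnerProductSpace ℂ D] {c : Ctx D} {Λ : Type*}
  {x : Lt c Λ}

namespace RECr

theorem ud (v : CV x) {s : ℝ} {L : Ix → V} (hs : 0 < s) (hL : IsLor L) (a : V) (w : x.Dn) :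
    (x.Ud s L a w : Completion D) = Ug c.Q s L a w := by
  have h : Ug c.Q s L a w ∈ x.Dn := v.mem ⟨s, L, a, hs, hL⟩ w w.2
  rw [Lt.Ud, dif_pos h]

theorem o_sum (f : FS x) (a : Λ) (g : Fn) {n : ℕ} (w : Fin n → x.Dn) :
    x.o a g (∑ i, w i) = ∑ i, x.o a g (w i) :=
  map_sum (AddMonoidHom.mk' (x.o a g) (f.add a g)) w _

theorem fs_one {P : Λ → Prop} {a : Λ} (h : P a) : x.Fs P (x.o a) :=
  ⟨1, fun _ => a, fun _ => h, by simp⟩

theorem tra (v : CV x) (a : Λ) (y : V) {f : Fn} (hf : IsTest f) (w : x.Dn) :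
    (x.o a f (x.Ud 1 GF.one y w) : Completion D) =
      Ug c.Q 1 GF.one y (x.o a (fun z => f (sim 1 GF.one y z)) w) := by
  have := v.cov a ⟨1, GF.one, y, one_pos, H496.isLor_one⟩ 1 (fun _ => 1) (fun _ => a) f w _
    (fun g hg => by
      rw [Fin.sum_univ_one, map_one, one_smul]
      exact x.tra (x.dag a) y g hg) hf (ud v one_pos H496.isLor_one y w)
  rwa [Fin.sum_univ_one, one_smul] at this

end RECr

open RECr in
theorem rec_row (t : E0 c) (f : FS x) (v : CV x) : REC x := fun P hP hc =>
  ⟨{  vac := ⟨c.Om, f.vac⟩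
      fld := x.Fs P
      bose := x.Fs P
      U := x.Ud
      norm_vac := (Completion.norm_coe c.Q.vac).trans c.Q.norm_vac
      cyclic := fun S h0 h => hc S (fun w hw => by rwa [show w = ⟨c.Om, f.vac⟩ from Subtype.ext hw])
        fun a g w ha => h _ g w (fs_one ha)
      lin := by
        rintro _ g k z w ⟨n, b, -, rfl⟩ hg hk
        simp only [f.lin _ g k z w hg hk, Finset.sum_add_distrib, Finset.smul_sum]
      cont := by
        rintro _ w ⟨n, b, -, rfl⟩
        exact continuous_finset_sum _ fun i _ => f.cont _ w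
      adj := by
        rintro _ ⟨n, b, hb, rfl⟩
        refine ⟨_, ⟨n, fun i => x.dag (b i), fun i => hP _ (hb i), rfl⟩, fun g w w' hg => ?_⟩
        simp only [sum_inner, inner_sum, f.herm _ g w w' hg]
      bose_fld := fun _ h => h
      loc := by
        rintro _ _ g k w ⟨n, b, -, rfl⟩ ⟨m, b', -, rfl⟩ hg hk hs
        simp only [o_sum f, f.loc _ _ g k w hg hk hs]
        exact Finset.sum_comm
      U_inner := fun s L a w w' hs hL => by
        rw [Submodule.coe_inner, Submodule.coe_inner, ud v hs hL, ud v hs hL]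
        exact ContinuousLinearMap.inner_map_map_of_mem_unitary (t.sg.uni ⟨s, L, a, hs, hL⟩) _ _
      U_vac := fun s L a hs hL =>
        Subtype.ext ((ud v hs hL a _).trans (t.sg.vac ⟨s, L, a, hs, hL⟩).1)
      transl := by
        rintro _ a g w ⟨n, b, -, rfl⟩ hg
        refine Subtype.ext ?_
        simp only [ud v one_pos H496.isLor_one, Submodule.coe_sum, map_sum, tra v _ a hg]
      spectrum := fun w => ⟨c.nu w, c.bt.fin _, t.bas.cone _, fun a => by
        rw [Submodule.coe_inner, ud v one_pos H496.isLor_one]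
        refine (congrArg _ (c.bt.Phi_ch a w).symm).trans (c.bt.inner (SN.Bd.expI ?_) _)
        unfold GF.mdot
        fun_prop⟩ }, rfl, rfl, fun _ => Iff.rfl, fun _ => Iff.rfl⟩

end

end Vale.Agent.P352X.EB
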