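import Vale.Agent.P352X.EB.Spec
import Vale.Agent.P352.H496.Enl2
import Vale.Agent.P352.H746.Chg2
import Vale.Agent.P352.H755.ChJ

/-!
# P352X, block EB, row SCAL: a scalar potential of the trace gives conformal invariance
-/

set_option linter.all false

namespace Vale.Agent.P352X.EB

open Vale.Agent.P352 Vale.Agent.P352.GF Vale.Agent.P352.H246
open Vale.Agent.P352.H496 Vale.Agent.P352.H755 Vale.Agent.P352.H15

namespace SCALr

variable {D : Type*} [NormedAddCommGroup D] [InnerProductSpace ℂ D]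

lemma eta_sq (m : Ix) : (eta m : ℂ) * (eta m : ℂ) = 1 := by
  fin_cases m <;> simp [eta, o]

lemma test_pd {m : Ix} {f : Fn} (hf : IsTest f) : IsTest (pd m f) := by
  obtain ⟨F, rfl⟩ := exists_fl hf
  rw [pd_fl]
  exact isTest_fl _

/-- the trace of the improved tensor -/
lemma tr_imp {T : Ix → Ix → Fld D} {L : Fld D}
    (hlin : ∀ f g (c : ℂ) v, IsTest f → IsTest g →
      L (fun x => f x + c * g x) v = L f v + c • L g v) {f : Fn} (hf : IsTest f) (v : D) :
    GF.tr (improve T L) f v = GF.tr T f v - (3 : ℂ) • L (box f) v := by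
  have hz : L (fun _ => 0) v = 0 := by
    have h0 : IsTest (fun _ : V => (0 : ℂ)) := ⟨0, rfl⟩
    have := hlin (fun _ => 0) (fun _ => 0) 1 v h0 h0
    simp at this
    exact this
  have h2 : ∀ k, IsTest (pd k (pd k f)) := fun k => test_pd (test_pd hf)
  have hsm : ∀ (c : ℂ) g, IsTest g → L (fun x => c * g x) v = c • L g v := by
    intro c g hg
    have := hlin (fun _ => 0) g c v ⟨0, rfl⟩ hg
    simpa [hz] using this
  have hbox : L (box f) v = ∑ k, (eta k : ℂ) • L (pd k (pd k f)) v := by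
    have e : box f = fun x => ((eta 0 : ℂ) * pd 0 (pd 0 f) x) + 1 * (((eta 1 : ℂ) * pd 1 (pd 1 f) x)
        + 1 * (((eta 2 : ℂ) * pd 2 (pd 2 f) x) + 1 * ((eta 3 : ℂ) * pd 3 (pd 3 f) x))) := by
      funext x
      simp only [box, Fin.sum_univ_four]
      ring
    have ht : ∀ (c : ℂ) g, IsTest g → IsTest (fun x => c * g x) := by
      rintro c g ⟨G, rfl⟩
      exact ⟨c • G, rfl⟩
    have ha : ∀ (c : ℂ) g g', IsTest g → IsTest g' → IsTest (fun x => g x + c * g' x) := by
      rintro c g g' ⟨G, rfl⟩ ⟨G', rfl⟩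
      exact ⟨G + c • G', rfl⟩
    have h3 := ht (eta 3) _ (h2 3)
    have h23 := ha 1 _ _ (ht (eta 2) _ (h2 2)) h3
    have h123 := ha 1 _ _ (ht (eta 1) _ (h2 1)) h23
    rw [e, hlin _ _ 1 v (ht _ _ (h2 0)) h123, hlin _ _ 1 v (ht _ _ (h2 1)) h23,
      hlin _ _ 1 v (ht _ _ (h2 2)) h3, hsm _ _ (h2 0), hsm _ _ (h2 1), hsm _ _ (h2 2),
      hsm _ _ (h2 3), Fin.sum_univ_four]
    simp only [one_smul]
    abel
  rw [hbox]
  unfold GF.tr improve
  simp only [smul_sub, smul_add, Finset.sum_sub_distrib, Finset.sum_add_distrib]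
  have e1 : ∑ m : Ix, (eta m : ℂ) • ((eta m * eta m : ℂ) • L (pd m (pd m f)) v) =
      ∑ k, (eta k : ℂ) • L (pd k (pd k f)) v := by
    refine Finset.sum_congr rfl fun m _ => ?_
    rw [eta_sq, one_smul]
  have e2 : ∀ w : D, ∑ m : Ix, (eta m : ℂ) • ((bas m (eta m) m : ℂ) • w) = (4 : ℂ) • w := by
    intro w
    have : ∀ m : Ix, (eta m : ℂ) • ((bas m (eta m) m : ℂ) • w) = w := by
      intro m
      rw [smul_smul]
      simp [bas, eta_sq]
    simp only [this]
    rw [Finset.sum_const]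
    simp [← Nat.cast_smul_eq_nsmul ℂ]
  rw [e1, e2]
  module

end SCALr

/-- row SCAL -/
theorem scal_row (D : Type*) [NormedAddCommGroup D] [InnerProductSpace ℂ D] : SCAL D := by
  intro Q T L hT hL htr Q' hE
  have h0 : ∀ f v, IsTest f → GF.tr (improve T L) f v = 0 := fun f v hf => by
    rw [SCALr.tr_imp (fun f g c v hf hg => Q.lin L f g c v (Q.bose_fld L hL.1) hf hg) hf,
      htr f v hf, sub_self]
  have h1 := isImpr hT hE (scalar_enl hE hL) h0
  exact ⟨h1, conf_act (isT_of_impr h1 (Vale.Agent.P352.H746.isStress_enl hE hT))⟩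

end Vale.Agent.P352X.EB
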