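import Vale.Agent.P352X.EB.Spec
import Vale.Agent.P352X.Api2d
import Vale.Agent.P352X.Api3b

/-!
# P352X, block EB, row SG: the group of similitudes
-/

set_option linter.all false

open MeasureTheory Filter Topology
open scoped SchwartzMap ComplexConjugate ContDiff

namespace Vale.Agent.P352X.EB

open Vale.Agent.P352 Vale.Agent.P352.GF Vale.Agent.P352.BW Vale.Agent.P352.H246
open Vale.Agent.P352.H496 Vale.Agent.P352.H755 Vale.Agent.P352.H15
open UniformSpace (Completion)
open Bornology (IsBounded)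

lemma open_Wdg (a b v : V) : IsOpen (Wdg a b v) :=
  (isOpen_lt (f := fun x => GF.mdot a (x - v)) (by fun_prop) continuous_const).inter
    (isOpen_lt (g := fun x => GF.mdot b (x - v)) continuous_const (by fun_prop))

namespace Sg

lemma act_eq (g : Sg) (x : V) : g.act x = g.s • sim 1 g.L 0 x + g.a := by
  rw [act, sim_zero, sim_smul]

lemma act_mul (g h : Sg) (x : V) : (g.mul h).act x = g.act (h.act x) := by
  funext k
  simp only [act, mul, sim, Pi.zero_apply, zero_add, one_mul, Fin.sum_univ_four]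
  ring

lemma inv_act (g : Sg) (x : V) : g.inv.act (g.act x) = x := by
  have h := (conf_sim (inv_pos.2 g.hs) (isLor_linv g.hL)).lin
  show sim g.s⁻¹ (linv g.L) (-sim g.s⁻¹ (linv g.L) 0 g.a) (sim g.s g.L g.a x) = x
  rw [sim_zero, sim_zero (s := g.s) g.a, h.map_add, add_neg_cancel_right, sim_smul (s := g.s),
    h.map_smul, sim_smul, linv_sim _ g.hL, smul_smul, mul_inv_cancel₀ g.hs.ne', one_smul]

lemma act_inv (g : Sg) (x : V) : g.act (g.inv.act x) = x := by
  have h := (conf_lor g.hL).lin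
  rw [act_eq, act_eq]
  show g.s • sim 1 g.L 0 (g.s⁻¹ • sim 1 (linv g.L) 0 x + -sim g.s⁻¹ (linv g.L) 0 g.a) + g.a = x
  rw [sim_smul (s := g.s⁻¹), h.map_add, h.map_neg, h.map_smul, h.map_smul, sim_linv g.hL,
    sim_linv g.hL, smul_add, smul_neg, smul_smul, smul_smul, mul_inv_cancel₀ g.hs.ne', one_smul,
    one_smul, neg_add_cancel_right]

lemma cont (g : Sg) : Continuous g.act := by
  have : g.act = fun x => sim g.s g.L 0 x + g.a := funext fun x => sim_zero _ _
  rw [this]
  exact (conf_sim g.hs g.hL).cont.add continuous_const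

lemma img_pre (g : Sg) (O : Set V) : g.act '' (g.act ⁻¹' O) = O :=
  Set.image_preimage_eq _ fun x => ⟨_, g.act_inv x⟩

end Sg

variable {D : Type*} [NormedAddCommGroup D] [InnerProductSpace ℂ D]

theorem sg_row (c : Ctx D) (t : T2 c) : SG c := by
  have G := t.grp
  have uni : ∀ g : Sg, g.U c ∈ unitary (Completion D →L[ℂ] Completion D) := fun g => G.uni _ _ _
  have um : ∀ g h : Sg, (g.mul h).U c = g.U c * h.U c := fun g h =>
    (G.mul _ _ _ _ _ _ g.hs h.hs g.hL h.hL).symm
  have ui : ∀ g : Sg, g.inv.U c = star (g.U c) := fun g => by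
    have h1 : (g.mul g.inv).U c = 1 := by
      have e0 : g.act (g.inv.act 0) = 0 := g.act_inv 0
      have e1 : g.inv.act 0 = g.inv.a := by
        rw [Sg.act_eq, (conf_lor g.inv.hL).lin.map_zero, smul_zero, zero_add]
      rw [e1] at e0
      show Ug c.Q (g.s * g.s⁻¹) (fun m => sim 1 g.L 0 (linv g.L m)) (g.act g.inv.a) = 1
      rw [mul_inv_cancel₀ g.hs.ne', linv_id g.hL, e0]
      exact G.ut0
    rw [um] at h1
    rw [← one_mul (g.inv.U c), ← (uni g).1, mul_assoc, h1, mul_one]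
  have vac : ∀ g : Sg, g.U c c.Om = c.Om := fun g => G.vac _ _ _
  have dual : (M0 c).commutant = c.N W1 := t.jc.dual va vb 0 G.na G.nb (by rw [G.nab]; exact one_pos)
  have alg : ∀ (g : Sg) O X, X ∈ c.N O ↔ g.U c * X * star (g.U c) ∈ c.N (g.act '' O) :=
    fun g O X => G.alg _ _ _ O g.hs g.hL X
  refine ⟨Sg.act_mul, Sg.inv_act, Sg.act_inv, um, ui, uni, fun g => ⟨vac g, ui g ▸ vac g.inv⟩,
    fun g f hf => Ap.test_sim g.hs g.hL g.a hf, fun g O f hf => Ap.in_sim g.hs g.hL g.a hf,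
    fun g => ⟨(SchwartzMap.compCLMOfContinuousLinearEquiv ℂ (conf_sim g.hs g.hL).cle).comp
      (ST.tsl (-g.a)), fun f => funext fun x => ?_⟩, fun g K hK => ?_, fun K hK => ?_,
    fun g => (open_Wdg _ _ _).preimage g.cont, fun g X hX => ?_, fun g K hK X hX => ?_,
    fun g X hX => ?_, ?_⟩
  · show f (sim g.s g.L 0 x - -g.a) = f (sim g.s g.L g.a x)
    rw [sim_zero g.a, sub_neg_eq_add]
  · have h1 := ((conf_sim g.hs g.hL).cle : V →L[ℝ] V).lipschitz.isBounded_image hK
    have h2 := (LipschitzWith.of_dist_le_mul (K := 1) (f := fun x : V => x + g.a)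
      fun x y => by simp).isBounded_image h1
    refine h2.subset ?_
    rintro _ ⟨x, hx, rfl⟩
    exact ⟨_, ⟨x, hx, rfl⟩, (sim_zero _ _).symm⟩
  · obtain ⟨R, hR⟩ := hK.exists_norm_le
    refine ⟨⟨1, GF.one, pt (R + 1) (-(2 * R + 1)) 0, one_pos, H496.isLor_one⟩, fun z hz => ?_⟩
    have h1 := abs_le.1 ((abs_be_le z).trans (mul_le_mul_of_nonneg_left (hR z hz) zero_le_two))
    have h2 := abs_le.1 ((abs_al_le z).trans (hR z hz))
    have e : sim 1 GF.one (pt (R + 1) (-(2 * R + 1)) 0) z = z + pt (R + 1) (-(2 * R + 1)) 0 := by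
      funext k
      fin_cases k <;> simp [sim, GF.one, bas, Fin.sum_univ_four, add_comm]
    show sim 1 GF.one _ z ∈ W0
    rw [e, Ap.mem_W]
    simp only [be_add, be_pt, al_add, al_pt, be_zero, al_zero]
    constructor <;> linarith [h1.2, h2.1]
  · have := (alg g _ X).1 hX
    rwa [Sg.Op, g.img_pre, ← dual] at this
  · exact c.hN.mono _ _ (by rintro _ ⟨x, hx, rfl⟩; exact hK x hx) _ ((alg g K X).1 hX)
  · refine (alg g _ _).2 ?_
    rw [g.img_pre, ← mul_assoc, ← mul_assoc, (uni g).2, one_mul, mul_assoc, (uni g).2, mul_one]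
    exact hX
  · rw [dual]
    refine G.rs _ (open_Wdg _ _ _) ⟨pt (-1) 1 0, ?_⟩
    rw [Ap.mem_W']
    simp

end Vale.Agent.P352X.EB
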