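import Vale.Agent.P352X.EB.PROD

/-!
# P352X, block EB, row SMO: tame pairs with tame modular derivatives are smooth tame
-/

set_option linter.all false

open Filter Topology

namespace Vale.Agent.P352X.EB

noncomputable section

namespace Smor

open Prodr

section seq

variable {E : Type*} [NormedAddCommGroup E] {u v : ℕ → E} {e : ℝ}

theorem gb_iff : GB u ↔ ∃ C : ℝ, 1 ≤ C ∧ ∀ n, ‖u n‖ ≤ C ^ (n + 1) := by
  refine ⟨fun ⟨K, c, hc, h⟩ => ⟨(|K| + 1) * (c + 1), ?_, fun n => (h n).trans ?_⟩,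
    fun ⟨C, hC, h⟩ => ⟨C, C, by linarith, fun n => (h n).trans_eq (by ring)⟩⟩
  · nlinarith [abs_nonneg K]
  · have h1 : 1 ≤ |K| + 1 := by linarith [abs_nonneg K]
    rw [mul_pow]
    exact mul_le_mul ((le_abs_self K).trans ((le_add_of_nonneg_right zero_le_one).trans
      (le_self_pow₀ h1 n.succ_ne_zero))) ((pow_le_pow_left₀ hc.le (by linarith) n).trans
        (pow_le_pow_right₀ (by linarith) n.le_succ)) (by positivity) (by positivity)

theorem gb_add (hu : GB u) (hv : GB v) : GB fun n => u n + v n := by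
  obtain ⟨C, hC, h⟩ := gb_iff.1 hu
  obtain ⟨C', hC', h'⟩ := gb_iff.1 hv
  exact gb_iff.2 ⟨C + C', by linarith, fun n => (norm_add_le _ _).trans
    ((add_le_add (h n) (h' n)).trans (pow_add_pow_le (by linarith) (by linarith) n.succ_ne_zero))⟩

theorem gb_le (hv : GB v) (h : ∀ n, ‖u n‖ ≤ ‖v n‖) : GB u := by
  obtain ⟨K, c, hc, hK⟩ := hv
  exact ⟨K, c, hc, fun n => (h n).trans (hK n)⟩

theorem gb_exp (hv : GB v) (h : ∀ n : ℕ, ‖u n‖ ≤ Real.exp (1 / (4 * ((n : ℝ) + 1)⁻¹)) * ‖v n‖) :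
    GB u := by
  obtain ⟨K, c, hc, hK⟩ := hv
  refine ⟨Real.exp (1 / 4) * K, Real.exp (1 / 4) * c, by positivity, fun n => (h n).trans
    ((mul_le_mul_of_nonneg_left (hK n) (Real.exp_pos _).le).trans_eq ?_)⟩
  rw [mul_pow, mul_mul_mul_comm, ← pow_succ', ← Real.exp_nat_mul]
  congr 2
  push_cast
  field_simp

theorem pb_le (hv : PB e v) (h : ∀ n, ‖u n‖ ≤ ‖v n‖) : PB e u :=
  hv.imp fun C hC => ⟨hC.1, fun n => (h n).trans (hC.2 n)⟩

theorem pb_sqrt (hv : PB e v) {C : ℝ} (hC : 0 ≤ C)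
    (h : ∀ n : ℕ, ‖u n‖ ≤ C * √((n : ℝ) + 1)⁻¹ * ‖v n‖) : PB (e - 1 / 2) u := by
  obtain ⟨K, h0, hK⟩ := hv
  refine ⟨C * K, by positivity, fun n => (h n).trans
    ((mul_le_mul_of_nonneg_left (hK n) (by positivity)).trans_eq ?_)⟩
  rw [Real.rpow_sub (pos n), Real.sqrt_inv, Real.sqrt_eq_rpow]
  ring

end seq

variable {H : Type*} [NormedAddCommGroup H] [InnerProductSpace ℂ H] [CompleteSpace H]
  {M : VonNeumannAlgebra H} {Ω ξ ξ' : H}

/-- the statement of the induction -/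
def St (M : VonNeumannAlgebra H) (Ω : H) (N : ℕ) (e : ℝ) (ξ ξ' : H) : Prop :=
  ∃ a h a1 a2 : ℕ → H →L[ℂ] H, (∀ n, a n ∈ M ∧ h n ∈ M ∧ a1 n ∈ M.commutant ∧
    a2 n ∈ M.commutant ∧ a n Ω = a1 n Ω ∧ star (a n) Ω = a2 n Ω) ∧ PB N a ∧ PB e h ∧ GB a1 ∧
    GB a2 ∧ Apx Ω ξ ξ' fun n => a n + h n

theorem St.qt {N k : ℕ} (h : St M Ω N (-k) ξ ξ') : QT M Ω N k ξ ξ' := by
  obtain ⟨a, h, a1, a2, h1, ⟨K, hK, pa⟩, ⟨K', hK', ph⟩, g1, g2, hx⟩ := h
  obtain ⟨C, hC, g1⟩ := gb_iff.1 g1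
  obtain ⟨C', hC', g2⟩ := gb_iff.1 g2
  refine ⟨K + K' + C + C', a, h, by linarith, fun n => ⟨(h1 n).1, (h1 n).2.1, (pa n).trans ?_,
    (ph n).trans ?_, a1 n, (h1 n).2.2.1, a2 n, (h1 n).2.2.2.1, (h1 n).2.2.2.2.1, (h1 n).2.2.2.2.2,
    (g1 n).trans ?_, (g2 n).trans ?_⟩, hx⟩
  · rw [Real.rpow_natCast]; gcongr; linarith
  · rw [Real.rpow_neg (pos n).le, Real.rpow_natCast, ← div_eq_mul_inv]; gcongr; linarith
  · gcongr; linarith
  · gcongr; linarith

end Smor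

open Prodr Smor in
theorem smo_row (H : Type*) [NormedAddCommGroup H] [InnerProductSpace ℂ H] [CompleteSpace H]
    (key : KEY H) : SMO H := fun M Ω E P N hP => by
  obtain ⟨R, Rh, C, hC, hR, ad, hx, hd, hs⟩ := key M Ω E
  choose n1 st om mm mc using hx
  have main (j : ℕ) : ∀ ξ ξ', P ξ ξ' → St M Ω N (N - j / 2) ξ ξ' := by
    induction j with
    | zero =>
      intro ξ ξ' h
      obtain ⟨K, c, h1, h2⟩ := (hP ξ ξ' h).1
      have g0 : GB fun _ : ℕ => (0 : H →L[ℂ] H) := ⟨0, 1, one_pos, by simp⟩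
      refine ⟨fun _ => 0, c, fun _ => 0, fun _ => 0, fun n => ⟨zero_mem _, (h1 n).1, zero_mem _,
        zero_mem _, rfl, by simp⟩, ⟨0, le_rfl, by simp⟩, ⟨K, ?_, fun n => ?_⟩, g0, g0,
        by simpa using h2⟩
      · simpa using (norm_nonneg _).trans (h1 0).2
      · simpa using (h1 n).2
    | succ j ih =>
      intro ξ ξ' h
      obtain ⟨η, η', h1, h2, h3⟩ := (hP ξ ξ' h).2
      obtain ⟨a, h, a1, a2, h4, pa, ph, g1, g2, x1, x2⟩ := ih η η' h1
      choose aM hM m1 m2 e1 e2 using h4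
      choose b bM bn bh b1 m1' b2 m2' e1' e2' b1n b2n using
        fun n : ℕ => hs ((n : ℝ) + 1)⁻¹ (inv_pos.2 (pos n)) (h n) (hM n)
      have se {v : H} {u : ℕ → H} (h : SE fun n => ‖v - u n‖) : SE fun n => ‖Rh v - Rh (u n)‖ :=
        fun r hr => (h r hr).imp fun K hK n => by
          simp only [← map_sub]; exact (Rh.le_of_opNorm_le hR _).trans (by simpa using hK n)
      refine ⟨fun n => R (a n) + b n, fun n => R (h n) - b n, fun n => R (a1 n) + b1 n,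
        fun n => R (a2 n) + b2 n, fun n => ⟨add_mem (mm _ (aM n)) (bM n),
          sub_mem (mm _ (hM n)) (bM n), add_mem (mc _ (m1 n)) (m1' n),
          add_mem (mc _ (m2 n)) (m2' n), ?_, ?_⟩, (pb_le pa fun n => n1 _).add
          ((pb_le ph bn).mono (sub_le_self _ (by positivity))),
        (pb_sqrt ph hC bh).mono (by push_cast; linarith),
        gb_add (gb_le g1 fun n => n1 _) (gb_exp ph.gb b1n),
        gb_add (gb_le g2 fun n => n1 _) (gb_exp ph.gb b2n), ?_⟩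
      · simp only [ContinuousLinearMap.add_apply, om, e1, e1']
      · simp only [star_add, ContinuousLinearMap.add_apply, st, om, e2, e2']
      · simp only [Apx, add_add_sub_cancel, ← ad, st, om, ← hd _ _ h2, ← hd _ _ h3]
        exact ⟨se x1, se x2⟩
  exact fun ξ ξ' h => ⟨N, fun k => St.qt (by
    convert main (2 * (k + N)) ξ ξ' h using 1; push_cast; ring)⟩

end

end Vale.Agent.P352X.EB
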