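import Vale.Agent.P352X.EB.Spec
import Vale.Agent.P352X.R.GEN
import Vale.Agent.P352X.Api2d

/-!
# P352X, block EB, row STF: the potential and the tensor fields are smooth tame
-/

set_option linter.all false

open MeasureTheory Filter Topology
open scoped SchwartzMap ComplexConjugate ContDiff

namespace Vale.Agent.P352X.EB

open Vale.Agent.P352 Vale.Agent.P352.GF Vale.Agent.P352.BW Vale.Agent.P352.H246
open Vale.Agent.P352.H496 Vale.Agent.P352.H755 Vale.Agent.P352.H15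
open Vale.Agent.P352.SubConf (IsAdj)
open H148 (Od)
open UniformSpace (Completion)
open Complex (I)

noncomputable section

variable {D : Type*} [NormedAddCommGroup D] [InnerProductSpace ℂ D]

namespace Stf

variable {Q : Theory D} {A : (V → V) → D → D} {k : ℕ} {Φ Φ' : (Fin k → Ix) → Fld D}

theorem bar_Bc {f : Fn} (hf : GF.IsTest f) : Bc (bar f) = bar (Bc f) := by
  funext z
  have h := Ap.sw_diff hf z
  simp only [Bc, Ap.dv_bar h]
  simp [bar, Bc]

theorem lin1 {B : Fld D} (hB : Q.fld B) {f : Fn} (hf : GF.IsTest f) (a : ℂ) (v : D) :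
    B (fun x => a * f x) v = a • B f v := by
  have h0 : B (fun _ => 0) v = 0 := by
    have := Q.lin B _ _ 1 v hB Ap.sw_zero Ap.sw_zero
    simpa using this
  have := Q.lin B _ _ a v hB Ap.sw_zero hf
  simpa [h0] using this

/-- the adjoints of a tensor multiplet form a tensor multiplet -/
theorem isTf_adj (R : Rep Q A) (h : IsTf Q k Φ) (h' : ∀ μ, Q.fld (Φ' μ) ∧ IsAdj (Φ μ) (Φ' μ)) :
    IsTf Q k Φ' := by
  refine ⟨fun μ => (h' μ).1, fun μ L f w hL hf => ext_inner_left ℂ fun v => ?_⟩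
  obtain ⟨v, rfl⟩ : ∃ v', Q.U 1 L 0 v' = v := ⟨_, U_linv' R one_pos hL v⟩
  have hb := Ap.test_bar hf
  have e := (h' μ).2 (bar f) (Q.U 1 L 0 v) (Q.U 1 L 0 w) hb
  rw [Ap.bar_bar] at e
  rw [← e, h.2 μ L _ v hL hb, sum_inner, inner_sum]
  refine Finset.sum_congr rfl fun ν _ => ?_
  rw [inner_smul_left, inner_smul_right, Complex.conj_ofReal, Q.U_inner _ _ _ _ _ one_pos hL,
    Q.U_inner _ _ _ _ _ one_pos hL, (h' ν).2 _ _ _ (Ap.test_sim one_pos hL 0 hb)]
  congr 3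
  funext x
  simp [bar]

/-- covariance on the vacuum -/
theorem cov (R : Rep Q A) (h : IsTf Q k Φ) (μ : Fin k → Ix) {L : Ix → V} (hL : IsLor L) (a : V)
    {f : Fn} (hf : GF.IsTest f) : Q.U 1 L a (Φ μ (fun x => f (sim 1 L a x)) Q.vac) =
      ∑ ν : Fin k → Ix, ((∏ i, linv L (ν i) (μ i) : ℝ) : ℂ) • Φ ν f Q.vac := by
  have h1 := H496.isLor_one
  have hf1 := Ap.test_sim one_pos h1 a hf
  have e1 : ∀ v, Q.U 1 L a v = Q.U 1 GF.one a (Q.U 1 L 0 v) := fun v => by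
    rw [R.mul _ _ _ _ _ _ _ one_pos one_pos h1 hL]
    simp [sim_one]
  have e2 : (fun x => f (sim 1 L a x)) = fun x => f (sim 1 GF.one a (sim 1 L 0 x)) := by
    funext x
    congr 1
    funext n
    rw [sim_one]
    simp [sim]
  have e3 := h.2 μ (linv L) _ Q.vac (isLor_linv hL) (Ap.test_sim one_pos hL 0 hf1)
  rw [Q.U_vac _ _ _ one_pos (isLor_linv hL)] at e3
  simp only [sim_linv hL] at e3
  rw [e1, e2, e3, H246.U_sum one_pos hL, H246.U_sum one_pos h1]
  refine Finset.sum_congr rfl fun ν _ => ?_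
  have e4 := U_linv' R one_pos hL (Φ ν (fun x => f (sim 1 GF.one a x)) Q.vac)
  rw [inv_one] at e4
  rw [U_smul one_pos hL, e4, U_smul one_pos h1, ← Q.transl _ a f _ (h.1 ν) hf,
    Q.U_vac _ _ _ one_pos h1]

/-- a field applied to the vacuum as a continuous linear map -/
theorem clm {B : Fld D} (hB : Q.fld B) : ∃ l : 𝓢(Mink, ℂ) →L[ℂ] Completion D,
    ∀ F, l F = (B (fl F) Q.vac : D) := by
  obtain ⟨B', -, hB'⟩ := Q.adj B hB
  have od : Od B B' := ⟨fun f g a v hf hg => Q.lin _ f g a v hB hf hg, fun v => Q.cont _ v hB, hB'⟩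
  exact ⟨{ toFun := fun F => (B (fl F) Q.vac : D)
           map_add' := fun F G => by rw [od.addf, Completion.coe_add]
           map_smul' := fun a F => by rw [od.smulf, Completion.coe_smul, RingHom.id_apply]
           cont := (Completion.continuous_coe D).comp (od.contS _) }, fun _ => rfl⟩

/-- the boost generator on tensor multiplets -/
theorem gen_tf {c : Ctx D} (g : GRP c) (k : ℕ) : ∃ r : (Fin k → Ix) → (Fin k → Ix) → ℝ,
    ∀ Φ, IsTf c.Q k Φ → ∀ μ f, GF.IsTest f → Gn (Bo c.Q) (Φ μ f c.Q.vac : D)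
      (I • (((Φ μ (Bc f) c.Q.vac : D) : Completion D) -
        ∑ ν, (r ν μ : ℂ) • ((Φ ν f c.Q.vac : D) : Completion D))) := by
  classical
  set X : V → V := fun z => al z • va - be z • vb
  refine ⟨fun ν μ => ∑ i, (∏ j ∈ Finset.univ.erase i, linv GF.one (ν j) (μ j)) •
    (eta (ν i) * eta (μ i) * (X (GF.one (μ i)) - X 0) (ν i)), fun Φ h μ f hf => ?_⟩
  obtain ⟨l, hl⟩ := clm (h.1 μ)
  rw [← Gen.vf_bo]
  refine (Gen.fl_bo g).core g (fun f => (Φ μ f c.Q.vac : D)) l hl hf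
    (fun L => ∑ ν : Fin k → Ix, ((∏ i, linv L (ν i) (μ i) : ℝ) : ℂ) •
      ((Φ ν f c.Q.vac : D) : Completion D)) (fun L a hL => ?_) fun L L0 hd => ?_
  · rw [g.coe _ _ _ _ one_pos hL, cov c.hN.toRep h μ hL a hf,
      ← Completion.coe_toComplL (𝕜 := ℂ)]
    simp only [map_sum, map_smul]
  · refine HasDerivAt.fun_sum fun ν _ => ?_
    simp only [Complex.coe_smul]
    refine HasDerivAt.smul_const ?_ _
    have := HasDerivAt.fun_finsetProd (u := Finset.univ) (x := (0 : ℝ))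
      (f := fun i e => linv (L e) (ν i) (μ i)) fun i _ => by
        have := (hd (GF.one (μ i)) (ν i)).const_mul (eta (ν i) * eta (μ i))
        simp only [Gen.sim_bas] at this
        exact this
    simpa only [L0] using this

theorem der {c : Ctx D} {ξ κ : Completion D} (h : Gn (Bo c.Q) ξ (I • κ)) :
    HasDerivAt (fun t => c.E.U t ξ) (ξ - (ξ + ((-(2 * Real.pi) : ℝ) : ℂ) • κ)) 0 := by
  simp only [c.bw]
  have h1 : HasDerivAt (fun t : ℝ => -(2 * Real.pi * t)) (-(2 * Real.pi)) 0 := by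
    simpa using ((hasDerivAt_id' (0 : ℝ)).const_mul (2 * Real.pi)).fun_neg
  have h2 : HasDerivAt (fun t => Bo c.Q t ξ) (I • I • κ) (-(2 * Real.pi * 0)) := by
    simpa [Gn] using h
  refine (h2.scomp (0 : ℝ) h1).congr_deriv ?_
  rw [smul_smul I, Complex.I_mul_I, Complex.coe_smul]
  simp

theorem bar_lin (f g : Fn) (a : ℝ) :
    bar (fun x => f x + (a : ℂ) * g x) = fun x => bar f x + (a : ℂ) * bar g x := by
  funext x
  simp [bar]

theorem bar_rm (g : Fn) (a : ℝ) : bar (fun x => (a : ℂ) * g x) = fun x => (a : ℂ) * bar g x := by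
  funext x
  simp [bar]

end Stf

open Stf

theorem stl_row {c : Ctx D} (t : E0 c) : STL c := by
  rintro ⟨N, hN⟩ f hf
  refine t.smo _ _ c.E (fun ξ ξ' => ∃ f, In W0 f ∧ ξ = c.l f ∧ ξ' = c.l (bar f)) N ?_ _ _
    ⟨f, hf, rfl, rfl⟩
  rintro _ _ ⟨f, hf, rfl, rfl⟩
  refine ⟨hN f hf, _, _, ⟨_, Ap.in_lin ((-(2 * Real.pi) : ℝ) : ℂ) hf (Ap.in_Bc hf), rfl, rfl⟩,
    ?_, ?_⟩
  · rw [c.hl.lin _ _ _ hf.1 (Ap.test_Bc hf.1)]
    exact der (t.gen.bol f hf.1)
  · rw [bar_lin, c.hl.lin _ _ _ (Ap.test_bar hf.1) (Ap.test_bar (Ap.test_Bc hf.1)), ← bar_Bc hf.1]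
    exact der (t.gen.bol _ (Ap.test_bar hf.1))

theorem stf_row {c : Ctx D} (t : E0 c) : STF c := by
  intro hM k Φ Φ' h h' μ f hf
  have hT' := isTf_adj c.hN.toRep h h'
  choose N hN using fun μ => hM (Φ μ) (Φ' μ) (h.1 μ) (h' μ).1 (h' μ).2
  obtain ⟨r, hr⟩ := gen_tf t.grp k
  set S := AddSubmonoid.closure {p : Completion D × Completion D | ∃ μ f, In W0 f ∧
    p = (((Φ μ f c.Q.vac : D) : Completion D), ((Φ' μ (bar f) c.Q.vac : D) : Completion D))}
  have hS : ∀ μ f, In W0 f → (((Φ μ f c.Q.vac : D) : Completion D),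
      ((Φ' μ (bar f) c.Q.vac : D) : Completion D)) ∈ S := fun μ f hf =>
    AddSubmonoid.subset_closure ⟨μ, f, hf, rfl⟩
  refine t.smo _ _ c.E (fun ξ ξ' => (ξ, ξ') ∈ S) (Finset.univ.sup N) ?_ _ _ (hS μ f hf)
  suffices H : ∀ p ∈ S, Tm (M0 c) c.Om (Finset.univ.sup N) p.1 p.2 ∧ ∃ η η', (η, η') ∈ S ∧
      HasDerivAt (fun t => c.E.U t p.1) (p.1 - η) 0 ∧
      HasDerivAt (fun t => c.E.U t p.2) (p.2 - η') 0 from fun ξ ξ' hp => H _ hp
  intro p hp
  induction hp using AddSubmonoid.closure_induction with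
  | mem p hp =>
    obtain ⟨μ, f, hf, rfl⟩ := hp
    have hb := Ap.test_bar hf.1
    refine ⟨t.tmb.mono _ _ _ _ _ _ (Finset.le_sup (Finset.mem_univ μ))
      (hN μ _ f (Ap.open_wdg _ _ _) hf), _, _, ?_, der (hr Φ h μ f hf.1), der (hr Φ' hT' μ _ hb)⟩
    have h1 := S.add_mem (hS μ _ (Ap.in_lin ((-(2 * Real.pi) : ℝ) : ℂ) hf (Ap.in_Bc hf)))
      (S.sum_mem fun ν (_ : ν ∈ Finset.univ) =>
        hS ν _ (Ap.in_cmul ((2 * Real.pi * r ν μ : ℝ) : ℂ) hf))
    convert h1 using 1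
    rw [bar_lin, ← bar_Bc hf.1, c.Q.lin _ _ _ _ _ (h.1 μ) hf.1 (Ap.test_Bc hf.1),
      c.Q.lin _ _ _ _ _ (h' μ).1 hb (Ap.test_Bc hb)]
    simp only [bar_rm, fun ν => lin1 (h.1 ν) hf.1, fun ν => lin1 (h' ν).1 hb, Completion.coe_add,
      Completion.coe_smul, Prod.ext_iff, Prod.fst_add, Prod.snd_add, Prod.fst_sum, Prod.snd_sum,
      smul_sub, Finset.smul_sum, smul_smul]
    push_cast
    simp only [neg_mul, neg_smul, Finset.sum_neg_distrib]
    constructor <;> abel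
  | zero =>
    exact ⟨t.tmb.zero _ _ _, 0, 0, S.zero_mem, by simpa using hasDerivAt_const _ _,
      by simpa using hasDerivAt_const _ _⟩
  | add p q _ _ hp hq =>
    obtain ⟨a1, η, η', a2, a3, a4⟩ := hp
    obtain ⟨b1, θ, θ', b2, b3, b4⟩ := hq
    refine ⟨t.tmb.add _ _ _ _ _ _ _ a1 b1, η + θ, η' + θ', S.add_mem a2 b2, ?_, ?_⟩
    · simp only [Prod.fst_add, map_add]
      exact (a3.fun_add b3).congr_deriv (by abel)
    · simp only [Prod.snd_add, map_add]
      exact (a4.fun_add b4).congr_deriv (by abel)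

end

end Vale.Agent.P352X.EB
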