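import Vale.Agent.P352X.EB.Spec

/-!
# P352X, row EB.tmb: tame pairs and smooth tame pairs
-/

set_option linter.all false

open Filter Topology
open scoped ComplexConjugate

namespace Vale.Agent.P352X.EB

open Vale.Agent.P132 (jconj)

noncomputable section

namespace TMB'

variable {H : Type*} [NormedAddCommGroup H] [InnerProductSpace ℂ H] [CompleteSpace H]
  {M : VonNeumannAlgebra H} {Ω ξ ξ' η η' : H} {ε δ : ℕ → ℝ} {a b : ℕ → H →L[ℂ] H}
  {x y : H →L[ℂ] H} {κ κ' : ℝ} {N N' k : ℕ}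

theorem se_mono (h : SE δ) (e : ∀ n, ε n ≤ δ n) : SE ε := fun r hr =>
  (h r hr).imp fun _ k n => (e n).trans (k n)

theorem se_zero : SE fun _ => 0 := fun _ _ => ⟨0, by simp⟩

theorem se_add (h : SE ε) (h' : SE δ) : SE fun n => ε n + δ n := fun r hr =>
  let ⟨C, k⟩ := h r hr
  let ⟨C', k'⟩ := h' r hr
  ⟨C + C', fun n => add_mul C C' _ ▸ add_le_add (k n) (k' n)⟩

theorem se_mul (h : SE ε) {c : ℝ} (hc : 0 ≤ c) : SE fun n => c * ε n := fun r hr =>
  let ⟨C, k⟩ := h r hr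
  ⟨c * C, fun n => mul_assoc c C _ ▸ mul_le_mul_of_nonneg_left (k n) hc⟩

theorem se_lim {f : ℕ → H} (h : SE fun n => ‖ξ - f n‖) : Tendsto f atTop (𝓝 ξ) := by
  obtain ⟨C, k⟩ := h (1 / 2) one_half_pos
  refine tendsto_iff_norm_sub_tendsto_zero.2 (squeeze_zero (fun _ => norm_nonneg _)
    (fun n => (norm_sub_rev _ ξ).trans_le (k n)) ?_)
  simpa using (tendsto_pow_atTop_nhds_zero_of_lt_one one_half_pos.le one_half_lt_one).const_mul C

theorem se_four (N : ℕ) : SE fun n => (((n * n : ℕ) : ℝ) + 1) ^ N * (1 / 4) ^ (n * n) := by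
  intro r hr
  obtain ⟨B, hB⟩ := (tendsto_pow_const_mul_const_pow_of_abs_lt_one N
    (r := 1 / 2) (by norm_num [abs_lt])).bddAbove_range
  obtain ⟨K, hK⟩ := exists_pow_lt_of_lt_one hr one_half_lt_one
  refine ⟨2 * B * 2 ^ (K * K), fun n => ?_⟩
  have h1 : (((n * n : ℕ) : ℝ) + 1) ^ N * (1 / 2) ^ (n * n) ≤ 2 * B := by
    have := hB ⟨n * n + 1, rfl⟩
    simp only [Nat.cast_succ, pow_succ] at this
    linarith
  have h2 : (1 / 2 : ℝ) ^ (n * n) ≤ 2 ^ (K * K) * r ^ n := by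
    rw [← inv_mul_le_iff₀ (by positivity), ← inv_pow, ← one_div, ← pow_add]
    exact (pow_le_pow_of_le_one one_half_pos.le one_half_lt_one.le (show K * n ≤ _ by
      nlinarith)).trans ((pow_mul _ K n).trans_le (pow_le_pow_left₀ (by positivity) hK.le n))
  beta_reduce
  rw [show (1 / 4 : ℝ) = 1 / 2 * (1 / 2) by norm_num, mul_pow, ← mul_assoc, mul_assoc (2 * B)]
  exact mul_le_mul h1 h2 (by positivity) (le_trans (by positivity) h1)

theorem apx_of (h : ∀ n, a n Ω = ξ) (h' : ∀ n, star (a n) Ω = ξ') : Apx Ω ξ ξ' a :=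
  ⟨se_mono se_zero fun n => by simp [h], se_mono se_zero fun n => by simp [h']⟩

theorem apx_add (h : Apx Ω ξ ξ' a) (h' : Apx Ω η η' b) :
    Apx Ω (ξ + η) (ξ' + η') fun n => a n + b n :=
  ⟨se_mono (se_add h.1 h'.1) fun n => by
    rw [ContinuousLinearMap.add_apply, add_sub_add_comm]; exact norm_add_le _ _,
  se_mono (se_add h.2 h'.2) fun n => by
    rw [star_add, ContinuousLinearMap.add_apply, add_sub_add_comm]; exact norm_add_le _ _⟩

theorem apx_smul (z : ℂ) (h : Apx Ω ξ ξ' a) : Apx Ω (z • ξ) (conj z • ξ') fun n => z • a n :=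
  ⟨se_mono (se_mul h.1 (norm_nonneg z)) fun n => by
    rw [ContinuousLinearMap.smul_apply, ← smul_sub, norm_smul],
  se_mono (se_mul h.2 (norm_nonneg z)) fun n => by
    rw [star_smul, ContinuousLinearMap.smul_apply, Complex.star_def, ← smul_sub, norm_smul,
      Complex.norm_conj]⟩

theorem le_poly {C t : ℝ} (n : ℕ) (e : N ≤ N') (h0 : 0 ≤ t) (h : t ≤ C * ((n : ℝ) + 1) ^ N) :
    t ≤ C * ((n : ℝ) + 1) ^ N' :=
  h.trans (mul_le_mul_of_nonneg_left (pow_le_pow_right₀ (by simp) e)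
    (nonneg_of_mul_nonneg_left (h0.trans h) (by positivity)))

theorem mir_mono (h : Mir M Ω x κ) (e : κ ≤ κ') : Mir M Ω x κ' :=
  let ⟨a, h1, b, h2, h3, h4, h5, h6⟩ := h
  ⟨a, h1, b, h2, h3, h4, h5.trans e, h6.trans e⟩

theorem mir_add (h : Mir M Ω x κ) (h' : Mir M Ω y κ') : Mir M Ω (x + y) (κ + κ') :=
  let ⟨a, h1, b, h2, h3, h4, h5, h6⟩ := h
  let ⟨a', k1, b', k2, k3, k4, k5, k6⟩ := h'
  ⟨a + a', add_mem h1 k1, b + b', add_mem h2 k2, by simp [h3, k3], by simp [h4, k4],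
    norm_add_le_of_le h5 k5, norm_add_le_of_le h6 k6⟩

theorem mir_smul (z : ℂ) (h : Mir M Ω x κ) : Mir M Ω (z • x) (‖z‖ * κ) :=
  let ⟨a, h1, b, h2, h3, h4, h5, h6⟩ := h
  ⟨z • a, smul_mem_vn z h1, conj z • b, smul_mem_vn _ h2, by simp [h3], by simp [h4],
    norm_smul z a ▸ mul_le_mul_of_nonneg_left h5 (norm_nonneg z), by
      rw [norm_smul, Complex.norm_conj]; exact mul_le_mul_of_nonneg_left h6 (norm_nonneg z)⟩

theorem qt_mono (h : QT M Ω N k ξ ξ') (e : N ≤ N') : QT M Ω N' k ξ ξ' :=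
  let ⟨C, a, b, h1, h2, h3⟩ := h
  ⟨C, a, b, h1, fun n => ⟨(h2 n).1, (h2 n).2.1, le_poly n e (norm_nonneg _) (h2 n).2.2.1,
    (h2 n).2.2.2⟩, h3⟩

theorem tm_zero : Tm M Ω N 0 0 :=
  ⟨0, 0, fun _ => ⟨zero_mem _, by simp⟩, apx_of (by simp) (by simp)⟩

theorem tm_add (h : Tm M Ω N ξ ξ') (h' : Tm M Ω N η η') : Tm M Ω N (ξ + η) (ξ' + η') :=
  let ⟨C, _, h1, h2⟩ := h
  let ⟨C', _, k1, k2⟩ := h'
  ⟨C + C', _, fun n => ⟨add_mem (h1 n).1 (k1 n).1,
    add_mul C C' _ ▸ norm_add_le_of_le (h1 n).2 (k1 n).2⟩, apx_add h2 k2⟩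

theorem stm_smul (z : ℂ) (h : Stm M Ω ξ ξ') : Stm M Ω (z • ξ) (conj z • ξ') :=
  h.imp fun N h k => by
    obtain ⟨C, a, b, h1, h2, h3⟩ := h k
    have z0 := norm_nonneg z
    have z1 : ‖z‖ ≤ ‖z‖ + 1 := by simp
    refine ⟨(‖z‖ + 1) * C, fun n => z • a n, fun n => z • b n, by nlinarith, fun n =>
      ⟨smul_mem_vn z (h2 n).1, smul_mem_vn z (h2 n).2.1, ?_, ?_,
        mir_mono (mir_smul z (h2 n).2.2.2.2) ?_⟩, by simpa only [smul_add] using apx_smul z h3⟩
    · rw [norm_smul, mul_assoc]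
      exact mul_le_mul z1 (h2 n).2.2.1 (norm_nonneg _) (by positivity)
    · rw [norm_smul, mul_div_assoc]
      exact mul_le_mul z1 (h2 n).2.2.2.1 (norm_nonneg _) (by positivity)
    · rw [mul_pow]
      exact mul_le_mul_of_nonneg_right (z1.trans (le_self_pow₀ (by simp) n.succ_ne_zero))
        (by positivity)

theorem stm_vac : Stm M Ω Ω Ω :=
  have e : ‖(1 : H →L[ℂ] H)‖ ≤ 1 := ContinuousLinearMap.norm_id_le
  ⟨0, fun k => ⟨1, 1, 0, le_rfl, fun n => ⟨one_mem _, zero_mem _, by simpa using e,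
    by simp; positivity, 1, one_mem _, 1, one_mem _, rfl, by simp, by simpa using e,
    by simpa using e⟩, apx_of (by simp) (by simp)⟩⟩

theorem stm_zero : Stm M Ω 0 0 := by simpa using stm_smul 0 (stm_vac (M := M) (Ω := Ω))

theorem stm_add (h : Stm M Ω ξ ξ') (h' : Stm M Ω η η') : Stm M Ω (ξ + η) (ξ' + η') := by
  obtain ⟨N, h⟩ := h
  obtain ⟨N', h'⟩ := h'
  refine ⟨max N N', fun k => ?_⟩
  obtain ⟨C, a, b, h1, h2, h3⟩ := qt_mono (h k) (le_max_left N N')
  obtain ⟨C', a', b', k1, k2, k3⟩ := qt_mono (h' k) (le_max_right N N')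
  exact ⟨C + C', fun n => a n + a' n, fun n => b n + b' n, by linarith, fun n =>
    ⟨add_mem (h2 n).1 (k2 n).1, add_mem (h2 n).2.1 (k2 n).2.1,
      add_mul C C' _ ▸ norm_add_le_of_le (h2 n).2.2.1 (k2 n).2.2.1,
      add_div C C' _ ▸ norm_add_le_of_le (h2 n).2.2.2.1 (k2 n).2.2.2.1,
      mir_mono (mir_add (h2 n).2.2.2.2 (k2 n).2.2.2.2)
        (pow_add_pow_le (by linarith) (by linarith) n.succ_ne_zero)⟩,
    by simpa only [add_add_add_comm] using apx_add h3 k3⟩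

end TMB'

open TMB'

variable (H : Type*) [NormedAddCommGroup H] [InnerProductSpace ℂ H] [CompleteSpace H]

theorem tmb_row : TMB H where
  zero _ _ _ := tm_zero
  add _ _ _ _ _ _ _ := tm_add
  smul _ _ _ z _ _ := fun ⟨C, a, h1, h2⟩ => ⟨‖z‖ * C, _, fun n => ⟨smul_mem_vn z (h1 n).1, by
    rw [norm_smul, mul_assoc]
    exact mul_le_mul_of_nonneg_left (h1 n).2 (norm_nonneg z)⟩, apx_smul z h2⟩
  sum M Ω N ι s ξ ξ' h := by
    classical
    induction s using Finset.induction_on with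
    | empty => exact tm_zero
    | insert i s hi ih =>
      rw [Finset.sum_insert hi, Finset.sum_insert hi]
      exact tm_add (h i (by simp)) (ih fun j hj => h j (by simp [hj]))
  mono _ _ _ _ _ _ e := fun ⟨C, a, h1, h2⟩ =>
    ⟨C, a, fun n => ⟨(h1 n).1, le_poly n e (norm_nonneg _) (h1 n).2⟩, h2⟩
  ucj M M' Ω N ξ ξ' U hU e hM := fun ⟨C, a, h1, h2⟩ => by
    have e' : star U Ω = Ω := by
      rw [← e, ← ContinuousLinearMap.mul_apply, (Unitary.mem_iff.1 hU).1, e]; rfl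
    refine ⟨C, fun n => U * a n * star U, fun n => ⟨hM _ (h1 n).1, ?_⟩,
      se_mono h2.1 fun n => ?_, se_mono h2.2 fun n => ?_⟩
    · rw [CStarRing.norm_mul_mem_unitary _ (Unitary.star_mem hU),
        CStarRing.norm_mem_unitary_mul _ hU]
      exact (h1 n).2
    all_goals
      simp only [star_mul, star_star, ContinuousLinearMap.mul_apply, e', ← map_sub,
        ContinuousLinearMap.norm_map_of_mem_unitary hU, le_refl]
  anti M M' Ω N ξ ξ' J hJ e hM := fun ⟨C, a, h1, h2⟩ => by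
    refine ⟨C, fun n => jconj J (a n), fun n => ⟨hM _ (h1 n).1, le_trans
      (ContinuousLinearMap.opNorm_le_bound _ (norm_nonneg _) fun v => ?_) (h1 n).2⟩,
      se_mono h2.1 fun n => ?_, se_mono h2.2 fun n => ?_⟩
    · simpa using (a n).le_opNorm (J v)
    all_goals simp only [jconj_star J hJ, P132.jconj_apply, e, ← map_sub, J.norm_map, le_refl]
  of4 M Ω N ξ ξ' C h := by
    choose a h1 h2 h3 h4 using h
    have C0 : 0 ≤ C := by simpa using (norm_nonneg _).trans (h2 0)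
    refine ⟨C, fun n => a (n * n), fun n => ⟨h1 _, (h2 _).trans ?_⟩,
      se_mono (se_mul (se_four N) C0) fun n => (h3 _).trans_eq (mul_assoc _ _ _),
      se_mono (se_mul (se_four N) C0) fun n => (h4 _).trans_eq (mul_assoc _ _ _)⟩
    rw [pow_mul]
    refine mul_le_mul_of_nonneg_left (pow_le_pow_left₀ (by positivity) ?_ N) C0
    push_cast
    nlinarith [n.cast_nonneg (α := ℝ)]

theorem stb_row : STB H where
  zero _ _ := stm_zero
  vac _ _ := stm_vac
  add _ _ _ _ _ _ := stm_add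
  smul _ _ z _ _ := stm_smul z
  sum M Ω ι s ξ ξ' h := by
    classical
    induction s using Finset.induction_on with
    | empty => exact stm_zero
    | insert i s hi ih =>
      rw [Finset.sum_insert hi, Finset.sum_insert hi]
      exact stm_add (h i (by simp)) (ih fun j hj => h j (by simp [hj]))
  symm _ _ _ _ h := h.imp fun N h k => by
    obtain ⟨C, a, b, h1, h2, h3⟩ := h k
    refine ⟨C, fun n => star (a n), fun n => star (b n), h1, fun n => ?_,
      by simpa only [star_add] using h3.2, by simpa only [star_add, star_star] using h3.1⟩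
    obtain ⟨k1, k2, k3, k4, c, k5, d, k6, k7, k8, k9, k0⟩ := h2 n
    exact ⟨star_mem k1, star_mem k2, norm_star (a n) ▸ k3, norm_star (b n) ▸ k4, d, k6, c, k5, k8,
      by rwa [star_star], k0, k9⟩
  pr _ _ _ _ := fun ⟨N, h⟩ => by
    obtain ⟨C, a, b, -, h2, h3⟩ := h 0
    exact Pr.closed (.of_forall fun n => Pr.of_mem (add_mem (h2 n).1 (h2 n).2.1)) (se_lim h3.1)
      (se_lim h3.2)

end

end Vale.Agent.P352X.EB
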