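import Vale.Agent.P352X.EB.Spec
import Vale.Agent.P352X.TPD.Ten3
import Vale.Agent.P352X.Api1C
import Vale.Agent.P352X.Api2b
import Vale.Agent.P352X.R.KD.B
import Vale.Agent.P352X.R.JC.A2

/-!
# P352X, block EB: row TML
-/

set_option linter.all false

noncomputable section

open scoped ComplexConjugate ContDiff

namespace Vale.Agent.P352X.EB

open Vale.Agent.P352 Vale.Agent.P352.GF Vale.Agent.P352.BW Vale.Agent.P352.H496 Ap
open Vale.Agent.P352.H246 (In box)
open UniformSpace (Completion)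

variable {D : Type*} [NormedAddCommGroup D] [InnerProductSpace ℂ D] {c : Ctx D}

namespace Tml

variable {N : ℕ} {f g : Fn}

/-- the potential is tame on `f` -/
def TT (c : Ctx D) (N : ℕ) (f : Fn) : Prop :=
  IsTest f ∧ Tm (M0 c) c.Om N (c.l f) (c.l (bar f))

lemma mem_W {z : V} : z ∈ W0 ↔ be z < 0 ∧ 0 < al z := by
  simp only [Wdg, sub_zero, Set.mem_setOf_eq, md_va, md_vb]

lemma box_bar (hf : ContDiff ℝ ∞ f) : bar (box f) = box (bar f) := by
  have k : ∀ {f : Fn}, ContDiff ℝ ∞ f → ∀ h, dv h (bar f) = bar (dv h f) := fun hf h =>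
    funext fun z => dv_bar (hf.differentiable (by simp) z) h
  funext z
  rw [box_eq (f := bar f) (Complex.conjCLE.contDiff.comp hf)]
  simp only [k hf, k (smooth_dv hf _)]
  simp [bar, box_eq hf]

/-- the reflection that exchanges the null directions and preserves the wedge -/
def ta (z : V) : V := jr (sim 1 TPD.sw 0 z)

lemma sw_eq (z : V) : sim 1 TPD.sw 0 z = pt (be z) (al z) ![-tx z 0, tx z 1] := by
  conv_lhs => rw [← pt_eta z, TPD.ten3_row.sw.2]

lemma conf_ta : Conf ta (1 * 1) := conf_jr.comp (conf_lor TPD.ten3_row.sw.1)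

lemma sw_sw (z : V) : sim 1 TPD.sw 0 (sim 1 TPD.sw 0 z) = z := by
  rw [sw_eq, sw_eq]
  exact null_ext (by simp) (by simp) (by ext i; fin_cases i <;> simp [-tx_0, -tx_1])

lemma ta_ta (z : V) : ta (ta z) = z := by
  rw [ta, ta, sw_eq, sw_eq]
  exact null_ext (by simp) (by simp) (by ext i; fin_cases i <;> simp [-tx_0, -tx_1])

lemma ta_va : ta va = -vb := by
  rw [ta, sw_eq]
  exact null_ext (by simp) (by simp) (by ext i; fin_cases i <;> simp [-tx_0, -tx_1])

lemma TT.cast (h : TT c N f) (e : ∀ x, g x = f x) : TT c N g := funext e ▸ h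

variable (t : E0 c)
include t

lemma lin (z : ℂ) (h : TT c N f) (h' : TT c N g) : TT c N fun x => f x + z * g x := by
  refine ⟨sw_lin z h.1 h'.1, ?_⟩
  rw [show (bar fun x => f x + z * g x) = fun x => bar f x + conj z * bar g x from
    funext fun x => by simp [bar], c.hl.lin _ _ _ h.1 h'.1,
    c.hl.lin _ _ _ (test_bar h.1) (test_bar h'.1)]
  exact t.tmb.add _ _ _ _ _ _ _ h.2 (t.tmb.smul _ _ _ _ _ _ h'.2)

lemma zero : TT c N fun _ => 0 := by
  have : c.l (fun _ => 0) = 0 := by simpa using c.hl.lin _ _ 1 sw_zero sw_zero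
  refine ⟨sw_zero, ?_⟩
  rw [show (bar fun _ => 0) = fun _ => 0 from funext fun _ => star_zero _, this]
  exact t.tmb.zero _ _ _

lemma comb (a b : ℂ) (h : TT c N f) (h' : TT c N g) : TT c N fun x => a * f x + b * g x :=
  (lin t b (lin t a (zero t) h) h').cast fun x => by rw [zero_add]

lemma tbox (m : MB0 c) : ∃ N, ∀ g, In W0 g → TT c N (box g) := by
  choose n hn using fun k => m _ _ (c.Q.bose_fld _ (c.hT.bose k k))
    (c.Q.bose_fld _ (c.hT.bose k k)) (c.hT.herm k k)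
  refine ⟨Finset.univ.sup n, fun g hg => ⟨test_box hg.1, ?_⟩⟩
  have e : ∀ f, IsTest f → c.l (box f) = ∑ k, (3⁻¹ * eta k : ℂ) •
      ((c.T k k f c.Q.vac : D) : Completion D) := fun f hf => by
    rw [← inv_smul_smul₀ (three_ne_zero (α := ℂ)) (c.l _), c.hl.trace f hf, GF.tr,
      ← Completion.coe_toComplL (𝕜 := ℂ)]
    simp only [map_sum, map_smul, Finset.smul_sum, smul_smul]
  rw [box_bar (in_dc hg).1, e _ hg.1, e _ (test_bar hg.1)]
  refine t.tmb.sum _ _ _ _ _ _ _ fun k _ => ?_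
  simpa [map_ofNat] using t.tmb.smul _ _ _ (3⁻¹ * eta k) _ _ (t.tmb.mono _ _ _ _ _ _
    (Finset.le_sup (Finset.mem_univ k)) (hn k _ g (wdg_open _ _ _) hg))

lemma flow (F : FLOW c) (hf : In W0 f) (h : TT c N f) {s : ℝ} (hs : 0 ≤ s) :
    TT c N (pb 2 s f) := by
  have k : W0 ⊆ {z | be z < 0} := fun z hz => (mem_W.1 hz).1
  obtain ⟨U, -, u, -, v⟩ := t.ch0.fam f (in_mono hf k)
  refine ⟨(v s (u hs)).1.1, ?_⟩
  rw [show bar (pb 2 s f) = pb 2 s (bar f) from funext fun z => by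
    simp only [bar, pb]; split_ifs <;> simp, ← F f s (in_mono hf k) hs,
    ← F _ s (in_mono (in_bar hf) k) hs]
  refine t.tmb.ucj _ _ _ _ _ _ _ (t.grp.S_uni va s null_va) (c.K_vac s) (fun X hX => ?_) h.2
  have := (t.grp.geo 0 s X le_rfl hs).1 (by rwa [KDa.rc_zero])
  rw [sub_zero, zero_sub, ← c.ugK.star_eq] at this
  exact c.N_mono ((KDa.rc_sub t.grp le_rfl hs 0).trans KDa.rc_zero.subset) _ this

lemma ug {L : Ix → V} {a : V} {O : Set V} (hL : IsLor L) (e : ∀ z ∈ O, sim 1 L a z ∈ W0)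
    (hf : IsTest f) (h : Tm (c.N O) c.Om N (c.l fun x => f (sim 1 L a x))
      (c.l fun x => bar f (sim 1 L a x))) : TT c N f := by
  have := t.tmb.ucj _ _ _ _ _ _ _ (t.grp.uni 1 L a) (t.grp.vac 1 L a)
    (fun X hX => t.grp.mem_ug hX a one_pos hL e) h
  rw [t.grp.pot _ _ _ _ one_pos hL hf, t.grp.pot _ _ _ _ one_pos hL (test_bar hf)] at this
  exact ⟨hf, by simpa using this⟩

lemma refl (j : JL c) (h : TT c N f) : TT c N (bar fun z => f (ta z)) := by
  have := t.tmb.anti _ _ _ _ _ _ c.J c.J_J c.J_Om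
    (t.jc.alg va vb 0 null_va null_vb (md_ab ▸ one_pos)) h.2
  rw [j f h.1, j _ (test_bar h.1), JCa.jr_wdg] at this
  refine ug t (a := 0) (O := W1) TPD.ten3_row.sw.1 (fun z hz => ?_)
    (test_bar (test_conf0 conf_ta h.1)) ?_
  · simpa [sw_eq, Wdg, md_va, md_vb] using hz
  · simp only [bar, ta, sw_sw]
    exact this

lemma tra (y : R2) (h : TT c N f) : TT c N fun z => f (z + tv y) :=
  ug t (a := -tv y) (O := W0) H496.isLor_one (fun z hz => by simpa [sim_ut, mem_W] using hz)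
    (sw_tr _ h.1) (by
      simp only [sim_ut, bar, neg_add_cancel_right]
      exact h.2)

end Tml

open Tml in
/-- **row TML** -/
theorem tml_row (t : E0 c) (F : FLOW c) (j : JL c) : TML c := fun m => by
  obtain ⟨N, hb⟩ := tbox t m
  have h1 : ∀ h, In W0 h → TT c N (dv va h) := fun h hh => by
    obtain ⟨s, g, G, hs, hg, hG, e⟩ := t.chn.s1 h hh
    refine (comb t ((4 * s : ℝ) : ℂ)⁻¹ (-((4 * s : ℝ) : ℂ)⁻¹) (hb G hG)
      (flow t F (in_box hg) (hb g hg) hs.le)).cast fun x => ?_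
    have : ((4 * s : ℝ) : ℂ) ≠ 0 := Complex.ofReal_ne_zero.2 (by positivity)
    rw [e]
    field_simp
    ring
  have h2 : ∀ h, In W0 h → TT c N (dv vb h) := fun h hh => by
    refine (comb t (-1) 0 (refl t j (h1 _ (in_bar (in_mono (in_conf0 conf_ta hh) fun z hz => by
      simpa [mem_W, ta, sw_eq, and_comm] using hz)))) (zero t)).cast fun x => ?_
    have d := sw_diff hh.1
    have := dv_aff (conf_ta.cle : V →L[ℝ] V) 0 (d (conf_ta.cle (ta x) + 0)) va
    simp only [add_zero, ContinuousLinearEquiv.coe_coe, Conf.cle_apply, ta_ta, ta_va,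
      dv_neg_l] at this
    simp [bar, dv_bar (sw_diff (test_conf0 conf_ta hh.1) (ta x)) va, this]
  have h3 : ∀ k, In W0 k → TT c N (Eu k) := fun k hk => by
    obtain ⟨s, g, G, G', hs, hg, hG, hG', e⟩ := t.chn.s2 k hk
    refine (comb t ((2 * s : ℝ) : ℂ)⁻¹ (-((2 * s : ℝ) : ℂ)⁻¹)
      (flow t F (in_dv _ hg) (h2 g hg) hs.le)
      (lin t ((2 * s ^ 2 : ℝ) : ℂ) (h2 G hG) (h1 G' hG'))).cast fun x => ?_
    have : ((2 * s : ℝ) : ℂ) ≠ 0 := Complex.ofReal_ne_zero.2 (by positivity)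
    rw [e]
    field_simp
    ring
  have h4 : ∀ i k, In W0 k → TT c N (dv (ex i) k) := fun i k hk => by
    refine (comb t 1 (-1) (h3 k hk) (tra t (-e2 i) (h3 _ (in_mono (in_tr (ex i) hk)
      fun z hz => by simpa [mem_W] using hz)))).cast fun x => ?_
    have : x + tv (-e2 i) + ex i = x := null_ext (by simp) (by simp) (by simp)
    simp only [Eu, dv_tr, this, tx_add, tx_tv]
    fin_cases i <;> simp [e2, -tx_0, -tx_1] <;> ring
  refine ⟨N, fun k hk => ?_⟩
  have u : ∀ i, In W0 fun z => (tx z i : ℂ) * k z := fun i =>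
    in_rmul (contDiff_pi.1 txL.contDiff i) hk
  refine ((comb t 2⁻¹ (-2⁻¹) (lin t 1 (h4 0 _ (u 0)) (h4 1 _ (u 1))) (h3 k hk)).cast
    fun x => ?_).2
  have d : ∀ i, DifferentiableAt ℝ (fun z => (tx z i : ℂ)) x := fun i =>
    ((smooth_cx (contDiff_pi.1 txL.contDiff i)).differentiable (by simp)) x
  simp only [dv_mul (d _) (sw_diff hk.1 x), dv_tx, tx_ex, e2_self, Eu, Fin.sum_univ_two]
  push_cast
  ring

end Vale.Agent.P352X.EB

end
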