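import Vale.Agent.P352X.EB.Spec
import Vale.Agent.P352.H246.Words

/-!
# P352X, block EB, row WB: energy norms, bounds on words
-/

set_option linter.all false

open MeasureTheory Filter Topology
open scoped SchwartzMap ComplexConjugate LineDeriv

namespace Vale.Agent.P352X.EB

open Vale.Agent.P352 Vale.Agent.P352.GF Vale.Agent.P352.BW Vale.Agent.P352.H246
open Vale.Agent.P352.H15
open Vale.Agent.P352.SubConf (IsAdj)
open Complex (I)

noncomputable section

namespace Wb

variable {D : Type*} [NormedAddCommGroup D] [InnerProductSpace ℂ D] {Q : Theory D}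
  {A : (V → V) → D → D}

theorem der (R : Rep Q A) (m : Ix) (v : D) :
    HasDerivAt (fun t : ℝ => U1 Q (t • eb m) v) (Dv Q m v) 0 := by
  have h := R.der (fun _ => 1) (fun _ => GF.one) (fun t => bas m t) (fun _ => bas m 1) v rfl rfl
    (by funext n; simp [bas]) (fun _ => ⟨one_pos, isLor_one⟩) fun n x => by
      simp only [sim, bas]
      split_ifs
      · exact (hasDerivAt_id _).add_const _
      · exact hasDerivAt_const _ _
  simp only [bas_eq m] at h
  rwa [Dv_eq h]

theorem Dv_U (R : Rep Q A) (m : Ix) (a : Mink) (v : D) : Dv Q m (U1 Q a v) = U1 Q a (Dv Q m v) := by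
  apply Dv_eq
  refine (hasDerivAt_U1 (Q := Q) a (der R m v)).congr_of_eventuallyEq (.of_forall fun t => ?_)
  simp only [U1, H755.Uadd1, add_comm]

/-- the derivative as an additive map -/
def DvA (R : Rep Q A) (m : Ix) : D →+ D := AddMonoidHom.mk' (Dv Q m) fun v w => Dv_eq (by
  simp only [U1_add]
  exact (der R m v).add (der R m w))

/-- Leibniz rule -/
theorem Dv_fld (R : Rep Q A) (m : Ix) {B : Fld D} (hB : Q.fld B) {f : Fn} (hf : IsTest f) (v : D) :
    Dv Q m (B f v) = -B (pd m f) v + B f (Dv Q m v) := by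
  obtain ⟨g, rfl⟩ := exists_fl hf
  obtain ⟨B', hB', hadj⟩ := Q.adj B hB
  have adj : ∀ (h : 𝓢(Mink, ℂ)) (z u : D), inner ℂ z (B (fl h) u) =
      inner ℂ (B' (fl (conjS h)) z) u := fun h z u => by
    rw [← inner_conj_symm, hadj _ _ _ (isTest_fl h), bar_fl, inner_conj_symm]
  have U0 : ∀ u, U1 Q 0 u = u := H755.Uone
  refine ext_inner_left ℂ fun z => ?_
  have h1 : HasDerivAt (fun t : ℝ => B' (fl (conjS (tauS (t • eb m) g))) z)
      (B' (fl (conjS (-(∂_{eb m} g : 𝓢(Mink, ℂ))))) z) 0 := by
    rw [hasDerivAt_iff_tendsto_slope]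
    refine ((((fld_cont hB' z).comp continuous_conjS).tendsto _).comp
      (tendsto_shift g (eb m))).congr fun t => ?_
    have e : (t⁻¹ : ℝ) • (B' (fl (conjS (tauS (t • eb m) g))) z - B' (fl (conjS g)) z) =
        ((t : ℂ)⁻¹) • (B' (fl (conjS (tauS (t • eb m) g))) z - B' (fl (conjS g)) z) := by
      rw [← Complex.ofReal_inv]
      rfl
    rw [slope_def_module, sub_zero, zero_smul, tauS_zero', e, ← fld_subf hB', ← fld_smulf hB']
    simp only [Function.comp_apply]
    congr 2
    ext x
    simp
  have h2 := h1.inner ℂ (der R m v)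
  have h3 := (hasDerivAt_const (0 : ℝ) z).inner ℂ (der R m (B (fl g) v))
  simp only [U_fld hB, adj] at h3
  have h4 := h3.unique h2
  simp only [U0, zero_smul, tauS_zero', inner_zero_left, add_zero, ← adj] at h4
  rw [h4, inner_add_right, pd_fl, fld_negf hB, add_comm]

theorem en_mono (v : D) : Monotone fun k => en Q k v :=
  monotone_nat_of_le_succ fun k => le_add_of_nonneg_right (Finset.sum_nonneg fun m _ => en_nonneg _ _)

/-- the energy norms as seminorms -/
def enS (R : Rep Q A) (k : ℕ) : AddGroupSeminorm D where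
  toFun := en Q k
  map_zero' := en_zero k
  add_le' v w := by
    induction k generalizing v w with
    | zero => exact norm_add_le v w
    | succ k ih =>
      have := Finset.sum_le_sum (s := Finset.univ) fun m _ => ih (Dv Q m v) (Dv Q m w)
      have e : ∀ m, Dv Q m (v + w) = Dv Q m v + Dv Q m w := fun m => (DvA R m).map_add v w
      simp only [en, e, Finset.sum_add_distrib] at this ⊢
      linarith [ih v w]
  neg' v := by
    induction k generalizing v with
    | zero => exact norm_neg v
    | succ k ih =>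
      have e : ∀ m, Dv Q m (-v) = -Dv Q m v := fun m => (DvA R m).map_neg v
      simp only [en, e, ih]

section words

variable (T : Bool → List Ix → D →+ D) (Ω : D)

/-- words in the derivatives of two operators -/
def wd : List (Bool × List Ix) → D
  | [] => Ω
  | p :: w => T p.1 p.2 (wd w)

/-- the total number of derivatives -/
def tot (w : List (Bool × List Ix)) : ℕ := (w.map fun p => p.2.length).sum

variable {T} (R : Rep Q A)
  (hT : ∀ m c α v, Dv Q m (T c α v) = -T c (m :: α) v + T c α (Dv Q m v))
include hT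

theorem dv_wd (m : Ix) (M : ℝ) (w : List (Bool × List Ix)) (q : AddGroupSeminorm D)
    (h : ∀ u, u.length = w.length → tot u = tot w + 1 → q (wd T Q.vac u) ≤ M) :
    q (Dv Q m (wd T Q.vac w)) ≤ w.length * M := by
  induction w generalizing q with
  | nil => simp [wd, Dv_vac]
  | cons p w ih =>
    have h1 := h ((p.1, m :: p.2) :: w) rfl (by simp [tot]; ring)
    have h2 := ih (q.comp (T p.1 p.2)) fun u h3 h4 =>
      h (p :: u) (by simp [h3]) (by simp only [tot, List.map_cons, List.sum_cons] at h4 ⊢; omega)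
    rw [wd, hT]
    refine (map_add_le_add q _ _).trans ?_
    rw [map_neg_eq_map]
    simp only [wd, AddGroupSeminorm.comp_apply, List.length_cons] at h1 h2 ⊢
    push_cast
    linarith

include R in
theorem en_wd {k L : ℕ} {b κ : ℝ} (hb : 0 ≤ b) (hκ : 1 ≤ κ) (hL : 1 ≤ L)
    (h : ∀ c α v, α.length ≤ k * L → ‖T c α v‖ ≤ b * κ ^ α.length * en Q k v) (l : ℕ) (hl : l ≤ L)
    (j : ℕ) (w : List (Bool × List Ix)) (hw : w.length = l) (ht : tot w + j + k * l ≤ k * L) :
    en Q j (wd T Q.vac w) ≤ (5 * L * κ) ^ j * ((b * (5 * L * κ) ^ k) ^ l * κ ^ tot w) := by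
  have hL' : (1 : ℝ) ≤ L := by exact_mod_cast hL
  induction l generalizing j w with
  | zero =>
    obtain rfl := List.length_eq_zero_iff.1 hw
    have : en Q j Q.vac = 1 := by
      clear ht
      induction j with
      | zero => exact Q.norm_vac
      | succ j ih => simp [en, Dv_vac, en_zero, ih]
    simp only [wd, this, tot, List.map_nil, List.sum_nil, pow_zero, mul_one]
    exact one_le_pow₀ (by nlinarith)
  | succ l ih =>
    induction j generalizing w with
    | zero =>
      obtain ⟨p, w, rfl⟩ := List.exists_cons_of_length_eq_add_one hw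
      have e : tot (p :: w) = p.2.length + tot w := by simp [tot]
      rw [e, mul_add] at ht
      refine (h p.1 p.2 _ (by omega)).trans ((mul_le_mul_of_nonneg_left
        (ih (by omega) k w (by simpa using hw) (by omega)) (by positivity)).trans_eq ?_)
      rw [e]
      ring
    | succ j ih' =>
      have h1 := ih' w hw (by omega)
      have h2 := Finset.sum_le_sum (s := Finset.univ) fun m _ => dv_wd hT m
        ((5 * L * κ) ^ j * ((b * (5 * L * κ) ^ k) ^ (l + 1) * κ ^ (tot w + 1))) w (enS R j)
        fun u h3 h4 => h4 ▸ ih' u (h3.trans hw) (by omega)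
      have h3 : (w.length : ℝ) ≤ L := by exact_mod_cast hw ▸ hl
      have h4 : 0 ≤ (5 * L * κ) ^ j * ((b * (5 * L * κ) ^ k) ^ (l + 1) * κ ^ tot w) := by positivity
      refine (add_le_add h1 h2).trans ?_
      simp only [Finset.sum_const, Finset.card_univ, Fintype.card_fin, nsmul_eq_mul]
      generalize (b * (5 * L * κ) ^ k) ^ (l + 1) = β at *
      have h5 : 1 + 4 * w.length * κ ≤ 5 * L * κ := by nlinarith
      calc _ = (1 + 4 * w.length * κ) * ((5 * L * κ) ^ j * (β * κ ^ tot w)) := by push_cast; ring
        _ ≤ (5 * L * κ) * ((5 * L * κ) ^ j * (β * κ ^ tot w)) := by gcongr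
        _ = _ := by ring

end words

theorem isTest_pw {g : Fn} (hg : IsTest g) (α : List Ix) : IsTest (pw α g) := by
  induction α with
  | nil => exact hg
  | cons m α ih => exact H15.isTest_pd ih

/-- a smeared field as an additive map -/
def fA {B : Fld D} (hB : Q.fld B) {f : Fn} (hf : IsTest f) : D →+ D :=
  AddMonoidHom.mk' (B f) fun v w => by
    obtain ⟨g, rfl⟩ := exists_fl hf
    exact fld_add hB g v w

theorem ex_wd (T : Bool → List Ix → D →+ D) (Ω : D) (c : Bool) (n : ℕ) :
    ∃ w, w.length = 2 * n + 1 ∧ tot w = 0 ∧ wd T Ω w = (T c [] ∘ T (!c) [])^[n] (T c [] Ω) := by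
  induction n with
  | zero => exact ⟨[(c, [])], rfl, rfl, rfl⟩
  | succ n ih =>
    obtain ⟨w, h1, h2, h3⟩ := ih
    exact ⟨(c, []) :: (!c, []) :: w, by simp [h1]; ring, by simpa [tot] using h2, by
      rw [Function.iterate_succ_apply', ← h3]; rfl⟩

end Wb

open Wb in
theorem wb_row (D : Type*) [NormedAddCommGroup D] [InnerProductSpace ℂ D] : WB D where
  inv Q A R k y v := by
    induction k generalizing v with
    | zero => exact U1_norm (Q := Q) (WithLp.toLp 2 y) v
    | succ k ih =>
      have e : ∀ m, Dv Q m (Q.U 1 GF.one y v) = Q.U 1 GF.one y (Dv Q m v) := fun m =>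
        Dv_U R m (WithLp.toLp 2 y) v
      simp only [en, e, ih]
  vac Q k := by
    induction k with
    | zero => exact Q.norm_vac
    | succ j ih => simp [en, Dv_vac, en_zero, ih]
  le Q k v := en_mono v (Nat.zero_le k)
  mono Q k k' v h := en_mono v h
  wb Q A R B B' hB hB' _ k n b κ g hg hb hκ h := by
    let T : Bool → List Ix → D →+ D := fun c α =>
      if c then fA hB (isTest_pw hg α) else fA hB' (isTest_bar (isTest_pw hg α))
    have key : ∀ c, ‖(T c [] ∘ T (!c) [])^[n] (T c [] Q.vac)‖ ≤
        (b * (5 * (2 * n + 1) * κ) ^ k) ^ (2 * n + 1) := fun c => by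
      obtain ⟨w, h1, h2, h3⟩ := ex_wd T Q.vac c n
      refine le_trans (le_of_eq ?_) ((en_wd (T := T) (k := k) R (fun m c α v => ?_) hb hκ
        (L := 2 * n + 1) (by omega) (fun c α v hα => ?_) _ le_rfl 0 w h1 (by omega)).trans_eq ?_)
      · rw [h3]; rfl
      · cases c
        · refine (Dv_fld R m hB' (isTest_bar (isTest_pw hg α)) v).trans ?_
          rw [← H755.bar_pd (isTest_pw hg α)]
          rfl
        · exact Dv_fld R m hB (isTest_pw hg α) v
      · cases c
        · exact (h α hα v).2
        · exact (h α hα v).1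
      · simp [h2]
    exact ⟨key true, key false⟩

end

end Vale.Agent.P352X.EB
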