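import Vale.Agent.P352X.EB.Wire0
import Vale.Agent.P352X.EB.TD
import Vale.Agent.P352X.EB.ANA
import Vale.Agent.P352X.EB.CH0
import Vale.Agent.P352X.EB.CHN
import Vale.Agent.P352X.EB.CV
import Vale.Agent.P352X.EB.DEC
import Vale.Agent.P352X.EB.DY
import Vale.Agent.P352X.EB.EXT
import Vale.Agent.P352X.EB.FLOW
import Vale.Agent.P352X.EB.FS
import Vale.Agent.P352X.EB.GEO
import Vale.Agent.P352X.EB.JB
import Vale.Agent.P352X.EB.JL
import Vale.Agent.P352X.EB.KEY
import Vale.Agent.P352X.EB.LET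
import Vale.Agent.P352X.EB.MB
import Vale.Agent.P352X.EB.MOM
import Vale.Agent.P352X.EB.MU1
import Vale.Agent.P352X.EB.MU2
import Vale.Agent.P352X.EB.OPS
import Vale.Agent.P352X.EB.PROD
import Vale.Agent.P352X.EB.REC
import Vale.Agent.P352X.EB.SCAL
import Vale.Agent.P352X.EB.SG
import Vale.Agent.P352X.EB.SMO
import Vale.Agent.P352X.EB.STF
import Vale.Agent.P352X.EB.STR
import Vale.Agent.P352X.EB.TMB
import Vale.Agent.P352X.EB.TML
import Vale.Agent.P352X.EB.TMP
import Vale.Agent.P352X.EB.WB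

/-!
# P352X, block EB: the wiring
-/

set_option linter.all false

namespace Vale.Agent.P352X.EB

open Vale.Agent.P352 Vale.Agent.P352.GF Vale.Agent.P352.BW Vale.Agent.P352.H246
open Vale.Agent.P352.H496 Vale.Agent.P352.H755 Vale.Agent.P352.H15
open UniformSpace (Completion)

variable {D : Type*} [NormedAddCommGroup D] [InnerProductSpace ℂ D]

theorem e0_thm (c : Ctx D) (g : G1 c) : E0 c :=
  { t2_thm c with
    g1 := g, tmb := tmb_row _, stb := stb_row _, prod := prod_row _, smo := smo_row _ (key_row _)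
    mom := mom_row D, wb := wb_row D, str := str_row D, dec := dec_row, ana := ana_row
    dy := dy_row ana_row, pou := pou_row _, ch0 := ch0_row, chn := chn_row ch0_row, geo := geo_row
    sg := sg_row c (t2_thm c) }

theorem fin_thm (c : Ctx D) (g : G1 c) (hE : EBd c.Q) : FIN c := by
  have t := e0_thm c g
  have m := mb_row t hE
  obtain ⟨x, h0, h1, h2, h3⟩ :=
    let_row t (stl_row t (tml_row t (flow_row t) (jl_row t) m)) (stf_row t m)
  have t1 : E1 x := { t with ops := ops_row t (mu1_row t) (mu2_row t (mu1_row t)) x }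
  have e := ext_row t1 (tmp_row t1 (jb_row t1))
  have w := wp_row t1 e
  have v := cv_row t1 e w (fs_row w)
  exact fin_of t x h0 h1 h2 h3 w (fs_row w) v (rec_row t (fs_row w) v)

theorem final3 (Q : Theory D) (T : Ix → Ix → Fld D)
    (hT : Q.IsStress T) (A : (V → V) → D → D) (hA : ND.PCh Q T A) (hD : TdAll Q)
    (N : Set V → VonNeumannAlgebra (Completion D)) (hN : LNm Q A N) (hU : UVac Q) (hE : EBd Q) :
    ∃ (D' : Submodule ℂ (Completion D)) (Q' : Theory D') (e : Fld D → Fld D') (L : Fld D'),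
      Ext Q Q' e ∧ Q'.IsStress (fun m n => e (T m n)) ∧ Q'.IsScalar L 2 ∧
      (∀ f v, IsTest f → tr (fun m n => e (T m n)) f v = (3 : ℂ) • L (box f) v) ∧
      ∀ Q'' : Theory D', IsEnl Q' Q'' → IsImpr Q'' (fun m n => e (T m n))
        (improve (fun m n => e (T m n)) L) ∧ ConfAct Q'' (improve (fun m n => e (T m n)) L) :=
  final_of (D := D) fin_thm (fun E => scal_row E) Q T hT A hA hD N hN hU hE

theorem final4 (Q : Theory D) (T : Ix → Ix → Fld D) (hT : Stress0 Q T) (A : (V → V) → D → D)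
    (hA : ND.PCh Q T A) (hG : TfAll Q) (hF : FSS Q) (N : Set V → VonNeumannAlgebra (Completion D))
    (hN : LNm Q A N) (hU : UVac Q) (hE : EBd Q) :
    ∃ T', Q.IsStress T' ∧ ND.PCh Q T' A ∧
    ∃ (D' : Submodule ℂ (Completion D)) (Q' : Theory D') (e : Fld D → Fld D') (L : Fld D'),
      Ext Q Q' e ∧ Q'.IsStress (fun m n => e (T' m n)) ∧ Q'.IsScalar L 2 ∧
      (∀ f v, IsTest f → tr (fun m n => e (T' m n)) f v = (3 : ℂ) • L (box f) v) ∧
      ∀ Q'' : Theory D', IsEnl Q' Q'' → IsImpr Q'' (fun m n => e (T' m n))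
        (improve (fun m n => e (T' m n)) L) ∧ ConfAct Q'' (improve (fun m n => e (T' m n)) L) :=
  let ⟨T', h1, h2, _⟩ := fss hN.toRep hF hT hA
  ⟨T', h1, h2, final3 Q T' h1 A h2 (tdAll_of hN.toRep hF hG) N hN hU hE⟩

end Vale.Agent.P352X.EB
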