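import Vale.Agent.P352X.TPD.Fin
import Vale.Agent.P352X.EB.FIN

/-!
# P352X, block EB: from the rows to the theorem
-/

set_option linter.all false

namespace Vale.Agent.P352X.EB

open Vale.Agent.P352 Vale.Agent.P352.GF Vale.Agent.P352.BW Vale.Agent.P352.H246
open Vale.Agent.P352.H496 Vale.Agent.P352.H755 Vale.Agent.P352.H15
open UniformSpace (Completion)

variable {D : Type*} [NormedAddCommGroup D] [InnerProductSpace ℂ D]

theorem tfGen_of {Q : Theory D} (h : TdAll Q) : TfGen Q := fun S h0 hS =>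
  Q.cyclic S h0 fun A f v hA hf hv => by
    obtain ⟨n, B, hB, e⟩ := h A hA
    rw [e f v hf]
    refine S.sum_mem fun i _ => ?_
    obtain ⟨k, d, Φ, μ, hΦ, e'⟩ := hB i
    exact e' ▸ hS k Φ μ f v hΦ.1 hf hv

theorem final_of (h : ∀ c : Ctx D, G1 c → EBd c.Q → FIN c)
    (hs : ∀ D' : Submodule ℂ (Completion D), SCAL D') (Q : Theory D) (T : Ix → Ix → Fld D)
    (hT : Q.IsStress T) (A : (V → V) → D → D) (hA : ND.PCh Q T A) (hD : TdAll Q)
    (N : Set V → VonNeumannAlgebra (Completion D)) (hN : LNm Q A N) (hU : UVac Q) (hE : EBd Q) :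
    ∃ (D' : Submodule ℂ (Completion D)) (Q' : Theory D') (e : Fld D → Fld D') (L : Fld D'),
      Ext Q Q' e ∧ Q'.IsStress (fun m n => e (T m n)) ∧ Q'.IsScalar L 2 ∧
      (∀ f v, IsTest f → tr (fun m n => e (T m n)) f v = (3 : ℂ) • L (box f) v) ∧
      ∀ Q'' : Theory D', IsEnl Q' Q'' → IsImpr Q'' (fun m n => e (T m n))
        (improve (fun m n => e (T m n)) L) ∧ ConfAct Q'' (improve (fun m n => e (T m n)) L) := by
  obtain ⟨wp, wm, t, hP⟩ := tp_of Q T hT A hA (tfGen_of hD) N hN hU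
  obtain ⟨c, rfl, rfl, e⟩ := ctx_row D Q T A N wp wm t True hT hA (tfGen_of hD) hN hU fun _ => hP
  haveI : Fact c.tp := ⟨e ▸ trivial⟩
  obtain ⟨D', Q', e, L, h1, h2, h3, h4⟩ := h c (main c).1 hE hD
  exact ⟨D', Q', e, L, h1, h2, h3, h4, hs D' Q' _ L h2 h3 h4⟩

end Vale.Agent.P352X.EB
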